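import Crest.Agent.R12.Base.G

/-! Row 12, base: bounded variation and Abel summation.  Prefix for helper lemmas: `bv_`. -/

set_option autoImplicit false

namespace Crest.Agent.R12

open Crest.Agent.R17
open scoped ComplexConjugate

variable {ψ φ : ℕ → ℂ} {K L : ℝ}

theorem bv_tele (ψ : ℕ → ℂ) {m m' : ℕ} (h : m ≤ m') :
    ‖ψ m' - ψ m‖ + ∑ n ∈ Finset.range m, ‖ψ (n + 1) - ψ n‖ ≤
      ∑ n ∈ Finset.range m', ‖ψ (n + 1) - ψ n‖ := by
  induction m', h using Nat.le_induction with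
  | base => simp
  | succ k _ ih =>
    rw [Finset.sum_range_succ]
    have := norm_add_le (ψ (k + 1) - ψ k) (ψ k - ψ m)
    rw [sub_add_sub_cancel] at this
    linarith

theorem bv_start (ψ : ℕ → ℂ) (m : ℕ) :
    ‖ψ m‖ ≤ ‖ψ 0‖ + ∑ n ∈ Finset.range m, ‖ψ (n + 1) - ψ n‖ := by
  have h1 := bv_tele ψ (Nat.zero_le m)
  have h2 := norm_add_le (ψ 0) (ψ m - ψ 0)
  rw [add_sub_cancel] at h2
  rw [Finset.range_zero, Finset.sum_empty] at h1
  linarith

theorem bv_norm_sub (x y : ℝ) : ‖(x : ℂ) - (y : ℂ)‖ = |x - y| := by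
  rw [← Complex.ofReal_sub, Complex.norm_real, Real.norm_eq_abs]

/-- unimodal from `1` on, with values in `[0, 1]` -/
theorem bv_unimodal {f A B : ℕ → ℝ} {c : ℝ} (h : ∀ n, 0 ≤ f n ∧ f n ≤ 1) (hA : Monotone A)
    (hB : Antitone B) (hA' : ∀ n, 0 ≤ A n ∧ A n ≤ 1) (hB' : ∀ n, 0 ≤ B n ∧ B n ≤ 1)
    (hf : ∀ n, f (n + 1) = A n + B n - c) : BV (fun n => (f n : ℂ)) 4 := by
  have h0 : ‖(f 0 : ℂ)‖ ≤ 1 := by
    rw [Complex.norm_real, Real.norm_of_nonneg (h 0).1]; exact (h 0).2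
  rintro (_ | M)
  · simp only [Finset.range_zero, Finset.sum_empty]; linarith
  · rw [Finset.sum_range_succ']
    have h1 : ‖(f (0 + 1) : ℂ) - f 0‖ ≤ 1 := by
      rw [bv_norm_sub, abs_le]
      constructor <;> linarith [h 0, h (0 + 1)]
    have h2 : ∑ n ∈ Finset.range M, ‖(f (n + 1 + 1) : ℂ) - f (n + 1)‖ ≤
        ∑ n ∈ Finset.range M, ((A (n + 1) - B (n + 1)) - (A n - B n)) := by
      refine Finset.sum_le_sum fun n _ => ?_
      rw [bv_norm_sub, hf, hf, abs_le]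
      have := hA (Nat.le_succ n)
      have := hB (Nat.le_succ n)
      constructor <;> linarith
    rw [Finset.sum_range_sub (fun n => A n - B n)] at h2
    linarith [hA' M, hA' 0, hB' M, hB' 0]

theorem BV.nonneg (h : BV ψ K) : 0 ≤ K := by
  have := h 0
  rw [Finset.range_zero, Finset.sum_empty, add_zero] at this
  exact (norm_nonneg _).trans this

theorem BV.norm_le (h : BV ψ K) (n : ℕ) : ‖ψ n‖ ≤ K := by
  exact (bv_start ψ n).trans (h n)

theorem BV.mono (h : BV ψ K) (hK : K ≤ L) : BV ψ L := fun N => (h N).trans hK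

theorem BV.add (h : BV ψ K) (h' : BV φ L) : BV (fun n => ψ n + φ n) (K + L) := by
  intro N
  have h1 : ∑ n ∈ Finset.range N, ‖ψ (n + 1) + φ (n + 1) - (ψ n + φ n)‖ ≤
      ∑ n ∈ Finset.range N, (‖ψ (n + 1) - ψ n‖ + ‖φ (n + 1) - φ n‖) :=
    Finset.sum_le_sum fun n _ => by
      rw [add_sub_add_comm]
      exact norm_add_le _ _
  rw [Finset.sum_add_distrib] at h1
  linarith [h N, h' N, norm_add_le (ψ 0) (φ 0)]

theorem BV.mul (h : BV ψ K) (h' : BV φ L) : BV (fun n => ψ n * φ n) (2 * K * L) := by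
  intro N
  have h1 : ∑ n ∈ Finset.range N, ‖ψ (n + 1) * φ (n + 1) - ψ n * φ n‖ ≤
      ∑ n ∈ Finset.range N, (‖ψ (n + 1) - ψ n‖ * L + K * ‖φ (n + 1) - φ n‖) :=
    Finset.sum_le_sum fun n _ => by
      have : ψ (n + 1) * φ (n + 1) - ψ n * φ n =
          (ψ (n + 1) - ψ n) * φ (n + 1) + ψ n * (φ (n + 1) - φ n) := by ring
      rw [this]
      refine (norm_add_le _ _).trans (add_le_add ?_ ?_)
      · rw [norm_mul]
        exact mul_le_mul_of_nonneg_left (h'.norm_le _) (norm_nonneg _)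
      · rw [norm_mul]
        exact mul_le_mul_of_nonneg_right (h.norm_le _) (norm_nonneg _)
  rw [Finset.sum_add_distrib, ← Finset.sum_mul, ← Finset.mul_sum] at h1
  have h2 : ‖ψ 0 * φ 0‖ ≤ ‖ψ 0‖ * L := by
    rw [norm_mul]
    exact mul_le_mul_of_nonneg_left (h'.norm_le _) (norm_nonneg _)
  have h3 := mul_le_mul_of_nonneg_right (h N) h'.nonneg
  have h4 : ∑ n ∈ Finset.range N, ‖φ (n + 1) - φ n‖ ≤ L := by linarith [h' N, norm_nonneg (φ 0)]
  have h5 := mul_le_mul_of_nonneg_left h4 h.nonneg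
  rw [add_mul] at h3
  linarith

theorem BV.const_mul (h : BV ψ K) (c : ℂ) : BV (fun n => c * ψ n) (‖c‖ * K) := by
  intro N
  simp only [← mul_sub, norm_mul, ← Finset.mul_sum, ← mul_add]
  exact mul_le_mul_of_nonneg_left (h N) (norm_nonneg _)

theorem BV.sum {ι : Type*} (s : Finset ι) {ψ : ι → ℕ → ℂ} {K : ι → ℝ} (h : ∀ i ∈ s, BV (ψ i) (K i)) :
    BV (fun n => ∑ i ∈ s, ψ i n) (∑ i ∈ s, K i) := by
  classical
  induction s using Finset.induction_on with
  | empty => intro N; simp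
  | insert i s hi ih =>
    simp only [Finset.sum_insert hi]
    exact (h i (Finset.mem_insert_self _ _)).add (ih fun j hj => h j (Finset.mem_insert_of_mem hj))

/-- monotone reindexing -/
theorem BV.comp (h : BV ψ K) {g : ℕ → ℕ} (hg : Monotone g) : BV (fun n => ψ (g n)) K := by
  intro N
  refine le_trans ?_ (h (g N))
  induction N with
  | zero => simpa using bv_start ψ (g 0)
  | succ N ih =>
    rw [Finset.sum_range_succ]
    have := bv_tele ψ (hg (Nat.le_succ N))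
    linarith

theorem bv_const (c : ℂ) : BV (fun _ => c) ‖c‖ := by
  intro N
  simp

theorem bv_of_monotone {f : ℕ → ℝ} (hf : Monotone f) (h : ∀ n, 0 ≤ f n ∧ f n ≤ K) :
    BV (fun n => (f n : ℂ)) K := by
  intro N
  have h1 : ∑ n ∈ Finset.range N, ‖(f (n + 1) : ℂ) - f n‖ =
      ∑ n ∈ Finset.range N, (f (n + 1) - f n) := Finset.sum_congr rfl fun n _ => by
    rw [bv_norm_sub, abs_of_nonneg (sub_nonneg.2 (hf (Nat.le_succ n)))]
  rw [h1, Finset.sum_range_sub, Complex.norm_real, Real.norm_of_nonneg (h 0).1]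
  linarith [h N]

theorem bv_of_antitone {f : ℕ → ℝ} (hf : Antitone f) (h : ∀ n, 0 ≤ f n ∧ f n ≤ K) :
    BV (fun n => (f n : ℂ)) (2 * K) := by
  intro N
  have h1 : ∑ n ∈ Finset.range N, ‖(f (n + 1) : ℂ) - f n‖ =
      ∑ n ∈ Finset.range N, (f n - f (n + 1)) := Finset.sum_congr rfl fun n _ => by
    rw [bv_norm_sub, abs_sub_comm, abs_of_nonneg (sub_nonneg.2 (hf (Nat.le_succ n)))]
  rw [h1, Finset.sum_range_sub', Complex.norm_real, Real.norm_of_nonneg (h 0).1]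
  linarith [h N, h 0]

theorem bv_gt (a : ℝ) : BV (fun n => if a < (n : ℝ) then 1 else 0) 1 := by
  have := bv_of_monotone (f := fun n => if a < (n : ℝ) then 1 else 0) (K := 1)
    (fun m n hmn => by
      have : (m : ℝ) ≤ n := by exact_mod_cast hmn
      dsimp only
      split_ifs with h1 h2 h2 <;> first | exact absurd (h1.trans_le this) h2 | norm_num)
    (fun n => by split_ifs <;> norm_num)
  simpa only [apply_ite Complex.ofReal, Complex.ofReal_one, Complex.ofReal_zero] using this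

theorem bv_le (a : ℝ) : BV (fun n => if (n : ℝ) ≤ a then 1 else 0) 2 := by
  have := bv_of_antitone (f := fun n => if (n : ℝ) ≤ a then 1 else 0) (K := 1)
    (fun m n hmn => by
      have : (m : ℝ) ≤ n := by exact_mod_cast hmn
      dsimp only
      split_ifs with h1 h2 h2 <;> first | exact absurd (this.trans h1) h2 | norm_num)
    (fun n => by split_ifs <;> norm_num)
  simpa only [apply_ite Complex.ofReal, Complex.ofReal_one, Complex.ofReal_zero, mul_one] using this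

theorem bv_Ioc (a b : ℝ) : BV (fun n => if a < (n : ℝ) ∧ (n : ℝ) ≤ b then 1 else 0) 4 := by
  have := (bv_gt a).mul (bv_le b)
  rw [show (2 : ℝ) * 1 * 2 = 4 by norm_num] at this
  convert this using 2 with n
  by_cases h1 : a < (n : ℝ) <;> by_cases h2 : (n : ℝ) ≤ b <;> simp [h1, h2]

theorem bv_LW (a : ℝ) {Y : ℝ} (hY : 0 < Y) : BV (fun n => (LW a Y n : ℂ)) 4 := by
  have hb : ∀ t : ℝ, 0 ≤ Real.exp (-(t ^ 2 / (2 * a ^ 2))) ∧ Real.exp (-(t ^ 2 / (2 * a ^ 2))) ≤ 1 :=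
    fun t => ⟨(Real.exp_pos _).le, Real.exp_le_one_iff.2 (neg_nonpos.2 (by positivity))⟩
  have hm : ∀ s t : ℝ, s ^ 2 ≤ t ^ 2 →
      Real.exp (-(t ^ 2 / (2 * a ^ 2))) ≤ Real.exp (-(s ^ 2 / (2 * a ^ 2))) := fun s t hst =>
    Real.exp_le_exp.2 (neg_le_neg (div_le_div_of_nonneg_right hst (by positivity)))
  have ht : Monotone fun n : ℕ => Real.log (((n + 1 : ℕ) : ℝ) / Y) := fun m n hmn =>
    Real.log_le_log (by positivity)
      (div_le_div_of_nonneg_right (by exact_mod_cast Nat.succ_le_succ hmn) hY.le)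
  refine bv_unimodal (c := 1)
    (A := fun n => Real.exp (-(min (Real.log (((n + 1 : ℕ) : ℝ) / Y)) 0 ^ 2 / (2 * a ^ 2))))
    (B := fun n => Real.exp (-(max (Real.log (((n + 1 : ℕ) : ℝ) / Y)) 0 ^ 2 / (2 * a ^ 2))))
    (fun n => hb _) (fun m n hmn => hm _ _ ?_) (fun m n hmn => hm _ _ ?_) (fun n => hb _)
    (fun n => hb _) fun n => ?_
  · have h1 := min_le_min_right 0 (ht hmn)
    have h2 := min_le_right (Real.log (((n + 1 : ℕ) : ℝ) / Y)) 0
    nlinarith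
  · exact pow_le_pow_left₀ (le_max_right _ _) (max_le_max_right 0 (ht hmn)) 2
  · rw [LW]
    rcases le_total (Real.log (((n + 1 : ℕ) : ℝ) / Y)) 0 with h | h
    · rw [min_eq_left h, max_eq_right h]; simp
    · rw [min_eq_right h, max_eq_left h]; simp

theorem bv_anti (κ : ℕ) {y : ℝ} (hy : 0 ≤ y) :
    Antitone fun n : ℕ => (y / ((n + 1 : ℕ) : ℝ)) ^ κ := fun m n hmn =>
  pow_le_pow_left₀ (by positivity) (div_le_div_of_nonneg_left hy (by positivity)
    (by exact_mod_cast Nat.succ_le_succ hmn)) κ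

theorem bv_F_mem {u : ℝ} (hu : 0 ≤ u) : 0 ≤ u * Real.exp (-u) ∧ u * Real.exp (-u) ≤ 1 := by
  refine ⟨by positivity, ?_⟩
  rw [Real.exp_neg, mul_inv_le_iff₀ (Real.exp_pos _), one_mul]
  linarith [Real.add_one_le_exp u]

theorem bv_F_mono {u v : ℝ} (huv : u ≤ v) (hv : v ≤ 1) :
    u * Real.exp (-u) ≤ v * Real.exp (-v) := by
  have h1 : Real.exp (-v) = Real.exp (-u) * Real.exp (u - v) := by
    rw [← Real.exp_add]; congr 1; ring
  have h2 := Real.add_one_le_exp (u - v)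
  rcases le_total 0 v with h0 | h0
  · have h3 : u ≤ v * Real.exp (u - v) := by
      have := mul_le_mul_of_nonneg_left h2 h0
      nlinarith
    rw [h1, mul_left_comm, mul_comm u]
    exact mul_le_mul_of_nonneg_left h3 (Real.exp_pos _).le
  · have h4 : Real.exp (u - v) ≤ 1 := Real.exp_le_one_iff.2 (by linarith)
    have h3 : u ≤ v * Real.exp (u - v) := by nlinarith
    rw [h1, mul_left_comm, mul_comm u]
    exact mul_le_mul_of_nonneg_left h3 (Real.exp_pos _).le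

theorem bv_F_anti {u v : ℝ} (hu : 1 ≤ u) (huv : u ≤ v) :
    v * Real.exp (-v) ≤ u * Real.exp (-u) := by
  have h1 : Real.exp (-u) = Real.exp (-v) * Real.exp (v - u) := by
    rw [← Real.exp_add]; congr 1; ring
  have h2 := Real.add_one_le_exp (v - u)
  have h3 : v ≤ u * Real.exp (v - u) := by
    have := mul_le_mul_of_nonneg_left h2 (zero_le_one.trans hu)
    nlinarith
  rw [h1, mul_left_comm, mul_comm v]
  exact mul_le_mul_of_nonneg_left h3 (Real.exp_pos _).le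

theorem bv_gx (κ : ℕ) {y : ℝ} (hy : 0 ≤ y) : BV (fun n => (gx κ y n : ℂ)) 4 := by
  have hb : ∀ n : ℕ, 0 ≤ gx κ y n ∧ gx κ y n ≤ 1 := fun n =>
    ⟨(Real.exp_pos _).le, Real.exp_le_one_iff.2 (neg_nonpos.2 (by positivity))⟩
  exact bv_unimodal (c := 0) (A := fun n => gx κ y (n + 1 : ℕ)) (B := fun _ => 0) hb
    (fun m n hmn => Real.exp_le_exp.2 (neg_le_neg (bv_anti κ hy hmn))) antitone_const
    (fun n => hb _) (fun _ => by norm_num) fun n => by simp

/-- `u exp (-u)` with `u = (y / n)^κ` is unimodal in `n ≥ 1` and at most `1` -/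
theorem bv_pow_gx (κ : ℕ) {y : ℝ} (hy : 0 ≤ y) : BV (fun n => (((y / n) ^ κ * gx κ y n : ℝ) : ℂ)) 4 := by
  have hu : ∀ n : ℕ, 0 ≤ (y / n) ^ κ := fun n => by positivity
  refine bv_unimodal (c := 1 * Real.exp (-1))
    (A := fun n => max ((y / ((n + 1 : ℕ) : ℝ)) ^ κ) 1 *
      Real.exp (-max ((y / ((n + 1 : ℕ) : ℝ)) ^ κ) 1))
    (B := fun n => min ((y / ((n + 1 : ℕ) : ℝ)) ^ κ) 1 *
      Real.exp (-min ((y / ((n + 1 : ℕ) : ℝ)) ^ κ) 1))
    (fun n => bv_F_mem (hu n))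
    (fun m n hmn => bv_F_anti (le_max_right _ _) (max_le_max_right 1 (bv_anti κ hy hmn)))
    (fun m n hmn => bv_F_mono (min_le_min_right 1 (bv_anti κ hy hmn)) (min_le_right _ _))
    (fun n => bv_F_mem (zero_le_one.trans (le_max_right _ _)))
    (fun n => bv_F_mem (le_min (hu _) zero_le_one)) fun n => ?_
  rw [gx]
  rcases le_total ((y / ((n + 1 : ℕ) : ℝ)) ^ κ) 1 with h | h
  · rw [min_eq_left h, max_eq_right h]; ring
  · rw [min_eq_right h, max_eq_left h]; ring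

theorem bvb_Ioc {a b : ℝ} (h : a ≤ b) :
    BV (fun n => if a < (n : ℝ) ∧ (n : ℝ) ≤ b then 1 else 0) 2 := by
  have h1 := (bv_gt a).add ((bv_gt b).const_mul (-1))
  rw [norm_neg, norm_one, mul_one, one_add_one_eq_two] at h1
  convert h1 using 2 with n
  by_cases h2 : b < n
  · simp [h2, h.trans_lt h2]
  · simp [h2, not_lt.1 h2]

theorem bvb_exp (z : ℂ) {Λ B s s' : ℝ} (hB : ∀ s, 0 ≤ s → s ≤ Λ → Real.exp (z.re * s) ≤ B)
    (h0 : 0 ≤ s) (h1 : s ≤ s') (h2 : s' ≤ Λ) :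
    ‖Complex.exp (z * s') - Complex.exp (z * s)‖ ≤ ‖z‖ * B * (s' - s) := by
  have h := (convex_Icc 0 Λ).norm_image_sub_le_of_norm_hasDerivWithin_le
    (f := fun u : ℝ => Complex.exp (z * u)) (f' := fun u : ℝ => Complex.exp (z * u) * z)
    (C := ‖z‖ * B) (fun u _ => by
      simpa using (((hasDerivAt_id u).ofReal_comp.const_mul z).cexp).hasDerivWithinAt)
    (fun u hu => by
      rw [norm_mul, mul_comm, Complex.norm_exp, Complex.re_mul_ofReal]
      exact mul_le_mul_of_nonneg_left (hB u hu.1 hu.2) (norm_nonneg _))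
    (x := s) (y := s') ⟨h0, h1.trans h2⟩ ⟨h0.trans h1, h2⟩
  rwa [Real.norm_of_nonneg (sub_nonneg.2 h1)] at h

theorem bvb_win {p : ℕ → Prop} [DecidablePred p] (hp : BV (fun n => if p n then 1 else 0) 2)
    {t : ℕ → ℝ} (ht : Monotone t) {Y : ℝ} (hY : 1 ≤ Y) (z : ℂ) {B : ℝ}
    (hB : ∀ s, 0 ≤ s → s ≤ Real.log Y → Real.exp (z.re * s) ≤ B)
    (h : ∀ n, p n → 1 ≤ t n ∧ t n ≤ Y) :
    BV (fun n => if p n then (t n : ℂ) ^ z else 0) ((2 + ‖z‖ * Real.log Y) * B) := by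
  obtain ⟨g, hg⟩ : ∃ g : ℕ → ℝ, ∀ n, g n = Real.log (max 1 (min (t n) Y)) := ⟨_, fun _ => rfl⟩
  have g0 : ∀ n, 0 ≤ g n := fun n => hg n ▸ Real.log_nonneg (le_max_left _ _)
  have g1 : ∀ n, g n ≤ Real.log Y := fun n => hg n ▸
    Real.log_le_log (one_pos.trans_le (le_max_left _ _)) (max_le hY (min_le_right _ _))
  have g2 : ∀ n, g n ≤ g (n + 1) := fun n => by
    rw [hg, hg]
    exact Real.log_le_log (one_pos.trans_le (le_max_left _ _))
      (max_le_max_left _ (min_le_min_right _ (ht n.le_succ)))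
  have hB0 : 0 ≤ B := (Real.exp_pos _).le.trans (hB 0 le_rfl (Real.log_nonneg hY))
  have e : ∀ n, (if p n then (t n : ℂ) ^ z else 0) =
      (if p n then 1 else 0) * Complex.exp (z * g n) := fun n => by
    split_ifs with hn
    · obtain ⟨a1, a2⟩ := h n hn
      have a3 : 0 < t n := one_pos.trans_le a1
      rw [hg, min_eq_left a2, max_eq_right a1, one_mul,
        Complex.cpow_def_of_ne_zero (Complex.ofReal_ne_zero.2 a3.ne'), Complex.ofReal_log a3.le,
        mul_comm]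
    · rw [zero_mul]
  have hF : ∀ n, ‖Complex.exp (z * g n)‖ ≤ B := fun n => by
    rw [Complex.norm_exp, Complex.re_mul_ofReal]
    exact hB _ (g0 n) (g1 n)
  intro N
  have h1 := mul_le_mul_of_nonneg_right (hp N) hB0
  simp only [e]
  generalize hχ : (fun n => if p n then (1 : ℂ) else 0) = χ at h1
  have hχ' : ∀ n, (if p n then (1 : ℂ) else 0) = χ n := fun n => congrFun hχ n
  have hχ1 : ∀ n, ‖χ n‖ ≤ 1 := fun n => by
    rw [← hχ']
    split_ifs <;> simp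
  simp only [hχ'] at h1 ⊢
  have h2 : ∀ n ∈ Finset.range N, ‖χ (n + 1) * Complex.exp (z * g (n + 1)) -
      χ n * Complex.exp (z * g n)‖ ≤ ‖χ (n + 1) - χ n‖ * B + ‖z‖ * B * (g (n + 1) - g n) := by
    intro n _
    rw [show χ (n + 1) * Complex.exp (z * g (n + 1)) - χ n * Complex.exp (z * g n) =
      (χ (n + 1) - χ n) * Complex.exp (z * g n) +
        χ (n + 1) * (Complex.exp (z * g (n + 1)) - Complex.exp (z * g n)) by ring]
    refine norm_add_le_of_le ?_ ?_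
    · rw [norm_mul]
      exact mul_le_mul_of_nonneg_left (hF n) (norm_nonneg _)
    · rw [norm_mul]
      exact (mul_le_of_le_one_left (norm_nonneg _) (hχ1 _)).trans
        (bvb_exp z hB (g0 n) (g2 n) (g1 _))
  have h3 := Finset.sum_le_sum h2
  rw [Finset.sum_add_distrib, ← Finset.sum_mul, ← Finset.mul_sum, Finset.sum_range_sub] at h3
  have h4 : ‖χ 0 * Complex.exp (z * g 0)‖ ≤ ‖χ 0‖ * B := by
    rw [norm_mul]
    exact mul_le_mul_of_nonneg_left (hF 0) (norm_nonneg _)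
  have h5 : ‖z‖ * B * (g N - g 0) ≤ ‖z‖ * B * Real.log Y :=
    mul_le_mul_of_nonneg_left (by linarith [g0 0, g1 N]) (by positivity)
  linarith

/-- `(c n)^z` on `X₁ < c n ≤ X₂`-type windows: here `n ↦ (n / X)^z` on `(X, X₂]` -/
theorem bv_cpow {X X₂ : ℝ} (hX : 0 < X) (h : X ≤ X₂) (z : ℂ) :
    BV (fun n => if X < (n : ℝ) ∧ (n : ℝ) ≤ X₂ then (((n : ℝ) / X : ℝ) : ℂ) ^ z else 0)
      ((2 + ‖z‖ * Real.log (X₂ / X)) * (X₂ / X) ^ |z.re|) := by
  have hY : 1 ≤ X₂ / X := (one_le_div hX).2 h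
  have key := bvb_win (p := fun n => X < (n : ℝ) ∧ (n : ℝ) ≤ X₂) (bvb_Ioc h)
    (t := fun n => (n : ℝ) / X) (fun _ _ hab => by dsimp only; gcongr) hY z
    (B := (X₂ / X) ^ |z.re|)
    (fun s h0 h1 => by
      rw [Real.rpow_def_of_pos (one_pos.trans_le hY), Real.exp_le_exp, mul_comm (Real.log _)]
      exact mul_le_mul (le_abs_self _) h1 h0 (abs_nonneg _))
    fun n hn => ⟨(one_le_div hX).2 hn.1.le, by have := hn.2; gcongr⟩
  exact key

/-- `n ↦ n^z` on `1 ≤ n ≤ X` when `Re z ≤ r`, `0 ≤ r` -/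
theorem bv_cpow' {X r : ℝ} (hX : 1 ≤ X) (hr : 0 ≤ r) {z : ℂ} (hz : z.re ≤ r) :
    BV (fun n => if 1 ≤ n ∧ (n : ℝ) ≤ X then (n : ℂ) ^ z else 0) ((2 + ‖z‖ * Real.log X) * X ^ r) := by
  have h1 : BV (fun n => if 1 ≤ n ∧ (n : ℝ) ≤ X then 1 else 0) 2 := by
    have := bvb_Ioc (zero_le_one.trans hX)
    simpa only [Nat.cast_pos, Nat.succ_le_iff] using this
  have key := bvb_win (p := fun n => 1 ≤ n ∧ (n : ℝ) ≤ X) h1
    (t := fun n => (n : ℝ)) Nat.mono_cast hX z (B := X ^ r)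
    (fun s h0 h1 => by
      rw [Real.rpow_def_of_pos (one_pos.trans_le hX), Real.exp_le_exp, mul_comm (Real.log _)]
      exact mul_le_mul hz h1 h0 hr)
    fun n hn => ⟨Nat.one_le_cast.2 hn.1, hn.2⟩
  exact key

/-- Abel summation over the norm -/
theorem abel_ball (h : BV ψ K) {u : O → ℂ} {M X : ℝ} (hu : ∀ x, x ≤ X → ‖∑ n ∈ ball x, u n‖ ≤ M) :
    ‖∑ n ∈ ball X, u n * ψ (nN n)‖ ≤ 2 * K * M := by
  classical
  have hM : 0 ≤ M := (norm_nonneg _).trans (hu X le_rfl)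
  have hK := h.nonneg
  have e1 : ∀ n ∈ ball X, u n * ψ (nN n) = ψ ⌊X⌋₊ * u n - ∑ j ∈ Finset.range ⌊X⌋₊,
      (ψ (j + 1) - ψ j) * if nN n ≤ j then u n else 0 := fun n hn => by
    have a1 : nN n ≤ ⌊X⌋₊ := Nat.le_floor (mem_ball.1 hn)
    have a2 : (Finset.range ⌊X⌋₊).filter (nN n ≤ ·) = Finset.Ico (nN n) ⌊X⌋₊ := by
      ext j
      simp [and_comm]
    simp only [mul_ite, mul_zero]
    rw [← Finset.sum_filter, a2, ← Finset.sum_mul, Finset.sum_Ico_sub _ a1]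
    ring
  have e2 : ∀ j ∈ Finset.range ⌊X⌋₊, ‖∑ n ∈ ball X, (ψ (j + 1) - ψ j) *
      if nN n ≤ j then u n else 0‖ ≤ ‖ψ (j + 1) - ψ j‖ * M := fun j hj => by
    have a1 : (j : ℝ) ≤ X := by
      have a2 := Finset.mem_range.1 hj
      exact (Nat.le_floor_iff' (by omega) |>.1 (Nat.succ_le_of_lt a2)).trans'
        (by exact_mod_cast j.le_succ)
    have a3 : (ball X).filter (nN · ≤ j) = ball j := by
      ext n
      rw [Finset.mem_filter, mem_ball, mem_ball, nm, Nat.cast_le]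
      exact ⟨fun h => h.2, fun h => ⟨(Nat.cast_le.2 h).trans a1, h⟩⟩
    rw [← Finset.mul_sum, ← Finset.sum_filter, a3, norm_mul]
    exact mul_le_mul_of_nonneg_left (hu j a1) (norm_nonneg _)
  rw [Finset.sum_congr rfl e1, Finset.sum_sub_distrib, ← Finset.mul_sum, Finset.sum_comm]
  refine (norm_sub_le_of_le (norm_mul_le_of_le (h.norm_le _) (hu X le_rfl))
    (norm_sum_le_of_le _ e2)).trans ?_
  rw [← Finset.sum_mul]
  have h1 := mul_le_mul_of_nonneg_right ((le_add_of_nonneg_left (norm_nonneg _)).trans (h ⌊X⌋₊)) hM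
  linarith

theorem SWH.mono {γ : O → ℂ} {Y Y' L L' δ δ' : ℝ} (h : SWH γ Y L δ) (hY : Y' ≤ Y) (hL : L' ≤ L)
    (hδ : δ ≤ δ') : SWH γ Y' L' δ' := by
  exact fun l k m x h1 h2 h3 h4 h5 h6 h7 =>
    (h l k m x h1 (h2.trans hL) h3 h4 (h5.trans hL) h6 (h7.trans hY)).trans hδ

theorem SWH.mul_bv {γ : O → ℂ} {Y L δ : ℝ} (h : SWH γ Y L δ) (hψ : BV ψ K) :
    SWH (fun b => γ b * ψ (nN b)) Y L (2 * K * δ) := by
  intro l k m x h1 h2 h3 h4 h5 h6 h7
  have key := abel_ball (hψ.comp (g := fun n => nN l * n) fun _ _ hab => Nat.mul_le_mul_left _ hab)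
    (u := fun n => γ (l * n) * cb (k * m ^ 3) n) (X := x)
    fun x' _ => h l k m x' h1 h2 h3 h4 h5 h6 h7
  simpa only [nN_mul, mul_right_comm (γ _)] using key

theorem BVS.mono {β : O → ℂ} {k k' : ℕ} (h : BVS K k β) (hK : K ≤ L) (hk : k ≤ k') : BVS L k' β := by
  intro b hb
  obtain ⟨χ, h1, h2⟩ := h b hb
  have h3 : 1 ≤ dn b := Nat.one_le_cast.2
    (Finset.card_pos.2 ⟨1, (mem_pdiv hb.ne_zero).2 ⟨prim_one, one_dvd b⟩⟩)
  have h4 : 0 ≤ K := nonneg_of_mul_nonneg_left h1.nonneg (by positivity)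
  exact ⟨χ, h1.mono (mul_le_mul hK (pow_le_pow_right₀ h3 hk) (by positivity) (h4.trans hK)), h2⟩

theorem BVS.mul_bv {β : O → ℂ} {k : ℕ} (h : BVS K k β) (hψ : BV ψ L) :
    BVS (2 * K * L) k fun b => β b * ψ (nN b) := by
  intro b hb
  obtain ⟨χ, h1, h2⟩ := h b hb
  refine ⟨_, (h1.mul (hψ.comp (g := fun n => n * nN b)
    fun _ _ hab => Nat.mul_le_mul_right _ hab)).mono (le_of_eq (by ring)), fun q q1 q2 q3 => ?_⟩
  simp only [h2 q q1 q2 q3, nN_mul]

theorem BVS.add {β β' : O → ℂ} {k : ℕ} (h : BVS K k β) (h' : BVS L k β') :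
    BVS (K + L) k fun b => β b + β' b := by
  intro b hb
  obtain ⟨χ, h1, h2⟩ := h b hb
  obtain ⟨χ', h3, h4⟩ := h' b hb
  refine ⟨_, (h1.add h3).mono (le_of_eq (by ring)), fun q q1 q2 q3 => ?_⟩
  simp only [h2 q q1 q2 q3, h4 q q1 q2 q3]

end Crest.Agent.R12
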