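import Crest.Agent.R12.Base.Div
import Crest.Agent.R17.D.Zero

/-! Row 12, base: the decomposition `k = u k₁ k₂² m³` of a row, duality.  Prefix for helper lemmas: `bc_`. -/

set_option autoImplicit false

namespace Crest.Agent.R12

open Crest.Agent.R17
open scoped ComplexConjugate

open Classical in
/-- the nine elements `ω^j λ^i`, `i, j < 3` -/
noncomputable def U9 : Finset O :=
  (Finset.range 3 ×ˢ Finset.range 3).image fun p => om ^ p.1 * lam ^ p.2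

theorem bc_mem_U9 {u : O} : u ∈ U9 ↔ ∃ j i : ℕ, j < 3 ∧ i < 3 ∧ u = om ^ j * lam ^ i := by
  classical
  unfold U9
  simp only [Finset.mem_image, Finset.mem_product, Finset.mem_range, Prod.exists]
  constructor
  · rintro ⟨j, i, ⟨hj, hi⟩, rfl⟩
    exact ⟨j, i, hj, hi, rfl⟩
  · rintro ⟨j, i, hj, hi, rfl⟩
    exact ⟨j, i, ⟨hj, hi⟩, rfl⟩

theorem bc_one_mem_U9 : (1 : O) ∈ U9 := bc_mem_U9.2 ⟨0, 0, by norm_num, by norm_num, by simp⟩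

theorem card_U9_le : U9.card ≤ 9 := by
  classical
  unfold U9
  refine Finset.card_image_le.trans ?_
  simp

theorem nm_U9 {u : O} (h : u ∈ U9) : 1 ≤ nm u ∧ nm u ≤ 9 := by
  obtain ⟨j, i, -, hi, rfl⟩ := bc_mem_U9.1 h
  rw [nm_mul, nm_pow, nm_pow, nm_unit isUnit_om, nm_lam, one_pow, one_mul]
  interval_cases i <;> norm_num

theorem bc_om_pow (a : ℕ) : om ^ a = om ^ (a % 3) := by
  conv_lhs => rw [← Nat.div_add_mod a 3, pow_add, pow_mul, om_cube, one_pow, one_mul]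

theorem bc_unit {ζ : O} (h : IsUnit ζ) : ∃ (j : ℕ) (s : O), j < 3 ∧ s ≠ 0 ∧ ζ = om ^ j * s ^ 3 := by
  obtain ⟨j, -, rfl⟩ := isUnit_iff.1 h
  refine ⟨(2 * j) % 3, (-1) ^ j, Nat.mod_lt _ (by norm_num), pow_ne_zero _ (by norm_num), ?_⟩
  have hz : zt = om ^ 2 * (-1) ^ 3 := by
    rw [om_sq, zt]
    ring
  rw [← bc_om_pow, hz, mul_pow, ← pow_mul, ← pow_mul, ← pow_mul, mul_comm 3 j]

theorem bc_unit_pow {ζ : O} (h : IsUnit ζ) : ζ ^ 6 = 1 := by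
  obtain ⟨j, -, rfl⟩ := isUnit_iff.1 h
  rw [← pow_mul, mul_comm, pow_mul, zt_pow_six, one_pow]

theorem bc_powFree {k₁ k₂ : O} (h₁ : PSq k₁) (h₂ : PSq k₂) (h : IsCoprime k₁ k₂) :
    PowFree 3 (k₁ * k₂ ^ 2) := by
  intro p hp hd
  by_cases h1 : p ∣ k₁
  · have c : IsCoprime (p ^ 3) (k₂ ^ 2) := (h.of_isCoprime_of_dvd_left h1).pow
    exact hp.not_isUnit (h₁.2 p (Dvd.dvd.trans ⟨p, by ring⟩ (c.dvd_of_dvd_mul_right hd)))
  · have c : IsCoprime (p ^ 3) k₁ := (hp.coprime_iff_not_dvd.2 h1).pow_left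
    have h3 : p ^ 3 ∣ k₂ ^ 2 := c.dvd_of_dvd_mul_left hd
    obtain ⟨q, rfl⟩ : p ∣ k₂ := hp.dvd_of_dvd_pow ((dvd_pow_self p (by norm_num)).trans h3)
    have h4 : p ^ 2 * p ∣ p ^ 2 * q ^ 2 := by
      rw [← pow_succ, ← mul_pow]
      exact h3
    have h5 : p ∣ q := hp.dvd_of_dvd_pow ((mul_dvd_mul_iff_left (pow_ne_zero 2 hp.ne_zero)).1 h4)
    exact hp.not_isUnit (h₂.2 p (mul_dvd_mul_left p h5))

/-- every non-zero element is `u k₁ k₂² m³` -/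
theorem exists_cube_dec {k : O} (hk : k ≠ 0) : ∃ u k₁ k₂ m : O, u ∈ U9 ∧ PSq k₁ ∧ PSq k₂ ∧ IsCoprime k₁ k₂ ∧
    m ≠ 0 ∧ k = u * k₁ * k₂ ^ 2 * m ^ 3 := by
  obtain ⟨ζ, i, n, hζ, hn, rfl⟩ := exists_decomp hk
  obtain ⟨c, b, hc, hb, hf, rfl⟩ := hn.exists_powFree (k := 3) (by norm_num)
  obtain ⟨k₁, k₂, h₁, h₂, hf₁, rfl⟩ := hc.exists_powFree (k := 2) (by norm_num)
  obtain ⟨j, s, hj, hs, rfl⟩ := bc_unit hζ
  refine ⟨om ^ j * lam ^ (i % 3), k₁, k₂, s * lam ^ (i / 3) * b,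
    bc_mem_U9.2 ⟨j, i % 3, hj, Nat.mod_lt _ (by norm_num), rfl⟩,
    ⟨h₁, (powFree_two h₁.ne_zero).1 hf₁⟩, ⟨h₂, (powFree_two h₂.ne_zero).1 fun p hp hd => ?_⟩,
    (h₁.coprime_iff k₂).2 fun p hp _ d₁ d₂ => ?_,
    mul_ne_zero (mul_ne_zero hs (pow_ne_zero _ lam_ne_zero)) hb.ne_zero, ?_⟩
  · obtain ⟨q, rfl⟩ := hd
    exact hf p hp ⟨k₁ * p * q ^ 2, by ring⟩
  · obtain ⟨q₁, rfl⟩ := d₁
    obtain ⟨q₂, rfl⟩ := d₂
    exact hf p hp ⟨q₁ * q₂ ^ 2, by ring⟩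
  · conv_lhs => rw [← Nat.div_add_mod i 3]
    ring

/-- uniqueness of the cube-free part -/
theorem cube_dec_unique {u k₁ k₂ m u' k₁' k₂' m' : O} (hu : u ∈ U9) (h₁ : PSq k₁) (h₂ : PSq k₂)
    (h : IsCoprime k₁ k₂) (hm : m ≠ 0) (hu' : u' ∈ U9) (h₁' : PSq k₁') (h₂' : PSq k₂')
    (h' : IsCoprime k₁' k₂') (e : u * k₁ * k₂ ^ 2 * m ^ 3 = u' * k₁' * k₂' ^ 2 * m' ^ 3) :
    u = u' ∧ k₁ = k₁' ∧ k₂ = k₂' := by
  obtain ⟨j, i, -, hi, rfl⟩ := bc_mem_U9.1 hu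
  obtain ⟨j', i', -, hi', rfl⟩ := bc_mem_U9.1 hu'
  have hm' : m' ≠ 0 := by
    rintro rfl
    have : om ^ j * lam ^ i * k₁ * k₂ ^ 2 * m ^ 3 ≠ 0 :=
      mul_ne_zero (mul_ne_zero (mul_ne_zero (mul_ne_zero (pow_ne_zero _ isUnit_om.ne_zero)
        (pow_ne_zero _ lam_ne_zero)) h₁.ne_zero) (pow_ne_zero _ h₂.ne_zero)) (pow_ne_zero _ hm)
    exact this (by rw [e]; ring)
  obtain ⟨ζ, a, b, hζ, hb, rfl⟩ := exists_decomp hm
  obtain ⟨ζ', a', b', hζ', hb', rfl⟩ := exists_decomp hm'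
  obtain ⟨e₁, e₂, e₃⟩ := decomp_unique (ζ := om ^ j * ζ ^ 3) (ζ' := om ^ j' * ζ' ^ 3)
    (i := i + 3 * a) (i' := i' + 3 * a') (m := k₁ * k₂ ^ 2 * b ^ 3) (m' := k₁' * k₂' ^ 2 * b' ^ 3)
    ((isUnit_om.pow _).mul (hζ.pow _)) ((isUnit_om.pow _).mul (hζ'.pow _))
    ((h₁.1.mul (h₂.1.pow _)).mul (hb.pow _)) ((h₁'.1.mul (h₂'.1.pow _)).mul (hb'.pow _))
    (by linear_combination e)
  obtain ⟨e₄, -⟩ := powFree_unique (by norm_num) hb hb' (bc_powFree h₁ h₂ h) (bc_powFree h₁' h₂' h') e₃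
  obtain ⟨e₅, e₆⟩ := powFree_unique (by norm_num) h₂.1 h₂'.1 ((powFree_two h₁.ne_zero).2 h₁.2)
    ((powFree_two h₁'.ne_zero).2 h₁'.2) e₄
  have key : ∀ (j : ℕ) (ζ : O), IsUnit ζ → (om ^ j * ζ ^ 3) ^ 4 = om ^ j := fun j ζ hζ => by
    have : (om ^ j * ζ ^ 3) ^ 4 = (om ^ 3) ^ j * om ^ j * (ζ ^ 6) ^ 2 := by ring
    rw [this, om_cube, bc_unit_pow hζ]
    simp
  have e₇ : om ^ j = om ^ j' := by rw [← key j ζ hζ, e₁, key j' ζ' hζ']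
  have e₈ : i = i' := by omega
  exact ⟨by rw [e₇, e₈], e₅, e₆⟩

theorem cube_mul_cube_iff {k m : O} (hm : m ≠ 0) : Cube (k * m ^ 3) ↔ Cube k := by
  constructor
  · rintro ⟨n, hn⟩
    have hd : m ^ 3 ∣ n ^ 3 := ⟨k, by rw [← hn]; ring⟩
    obtain ⟨q, rfl⟩ : m ∣ n := (IsIntegrallyClosed.pow_dvd_pow_iff (by norm_num)).1 hd
    exact ⟨q, mul_right_cancel₀ (pow_ne_zero 3 hm) (by rw [hn]; ring)⟩
  · rintro ⟨n, rfl⟩
    exact ⟨n * m, by ring⟩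

theorem cube_dec_cube_iff {u k₁ k₂ : O} (hu : u ∈ U9) (h₁ : PSq k₁) (h₂ : PSq k₂) (h : IsCoprime k₁ k₂) :
    Cube (u * k₁ * k₂ ^ 2) ↔ u = 1 ∧ k₁ = 1 ∧ k₂ = 1 := by
  constructor
  · rintro ⟨n, hn⟩
    exact cube_dec_unique (m := 1) (m' := n) hu h₁ h₂ h one_ne_zero bc_one_mem_U9 psq_one psq_one
      isCoprime_one_left (by rw [hn]; ring)
  · rintro ⟨rfl, rfl, rfl⟩
    exact ⟨1, by ring⟩

open Classical in
theorem cb_mul_cube (k m : O) {n : O} (hn : Prim n) :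
    cb (k * m ^ 3) n = if IsCoprime n m then cb k n else 0 := by
  rw [cb_mul_left, cb_pow_left _ _ three_ne_zero, cb_pow_three]
  by_cases h : IsCoprime n m
  · rw [if_pos h, if_pos ⟨hn.coprime_three, h.symm⟩, mul_one]
  · rw [if_neg h, if_neg fun h1 => h h1.2.symm, mul_zero]

theorem cb_sq (k : O) {n : O} (hn : Prim n) : cb (k ^ 2) n = conj (cb k n) := by
  have _ := hn
  rw [cb_pow_left _ _ two_ne_zero, conj_cb]

/-- the number of rows `k₀ m³` with `N k₀ ≤ Q` -/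
theorem card_near_cube_le : ∃ C : ℝ, 0 < C ∧ ∀ (U Q : ℝ) (S : Finset O), 0 ≤ U → 0 ≤ Q →
    (∀ k ∈ S, k ≠ 0 ∧ nm k ≤ U ∧ ∃ k₀ m : O, nm k₀ ≤ Q ∧ k = k₀ * m ^ 3) →
    (S.card : ℝ) ≤ C * U ^ (1 / 3 : ℝ) * Q ^ (2 / 3 : ℝ) := by
  classical
  obtain ⟨C, hC, h⟩ := sum_nm_rpow_le (σ := 1 / 3) (by norm_num)
  refine ⟨11 * C, by positivity, fun U Q S hU hQ hS => ?_⟩
  choose! f g hf hg using fun k hk => (hS k hk).2.2
  have hf0 : ∀ k ∈ S, f k ≠ 0 := fun k hk h0 => (hS k hk).1 (by rw [hg k hk, h0, zero_mul])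
  have h1 := h Q (S.image f) hQ fun n hn => by
    obtain ⟨k, hk, rfl⟩ := Finset.mem_image.1 hn
    exact ⟨hf0 k hk, hf k hk⟩
  rw [Finset.card_eq_sum_card_image f S, Nat.cast_sum]
  calc _ ≤ ∑ n ∈ S.image f, 11 * U ^ (1 / 3 : ℝ) * nm n ^ (-(1 / 3) : ℝ) := by
        refine Finset.sum_le_sum fun n hn => ?_
        obtain ⟨k₀, hk₀, e₀⟩ := Finset.mem_image.1 hn
        have hn0 : 0 < nm n := nm_pos (e₀ ▸ hf0 k₀ hk₀)
        rw [← Finset.card_image_of_injOn (f := g) fun k hk k' hk' e => by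
          obtain ⟨h2, h3⟩ := Finset.mem_filter.1 hk
          obtain ⟨h2', h3'⟩ := Finset.mem_filter.1 hk'
          rw [hg k h2, hg k' h2', h3, h3', e], mul_assoc]
        refine card_le_of_nm_le (by positivity) fun m hm => ?_
        obtain ⟨k, hk, rfl⟩ := Finset.mem_image.1 hm
        obtain ⟨h2, h3⟩ := Finset.mem_filter.1 hk
        refine ⟨fun h0 => (hS k h2).1 (by rw [hg k h2, h0]; ring), ?_⟩
        have h4 := (hS k h2).2.1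
        rw [hg k h2, h3, nm_mul, nm_pow, ← le_div_iff₀' hn0] at h4
        rw [Real.rpow_neg hn0.le, ← div_eq_mul_inv, ← Real.div_rpow hU hn0.le, one_div,
          Real.le_rpow_inv_iff_of_pos (nm_nonneg _) (by positivity) (by norm_num)]
        exact_mod_cast h4
    _ ≤ 11 * U ^ (1 / 3 : ℝ) * (C * Q ^ (1 - 1 / 3 : ℝ)) := by
        rw [← Finset.mul_sum]
        exact mul_le_mul_of_nonneg_left h1 (by positivity)
    _ = _ := by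
        norm_num
        ring

/-- the period sum of a non-cube row vanishes (`D.exists_cb_ne_one`, or `R12/SW/Char`) -/
theorem rsum_cb_eq_zero {k Q : O} (hk : k ≠ 0) (h : ¬ Cube k) (hQ : Q ≠ 0) (h9 : (9 : O) ∣ Q)
    (hk' : ∃ j : ℕ, k ∣ Q ^ j) :
    rsum Q (fun n => by classical exact if Prim n then cb k n else 0) = 0 := by
  classical
  have per : ∀ {R : O} {j : ℕ}, (9 : O) ∣ R → k ∣ R ^ j →
      Per R fun n => if Prim n then cb k n else 0 := fun {R j} h1 h2 a b hab => by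
    have h3 : (3 : O) ∣ a - b := (Dvd.dvd.trans ⟨3, by norm_num⟩ h1).trans hab
    exact if_congr ⟨fun h4 => h4.congr h3, fun h4 => h4.congr (dvd_sub_comm.1 h3)⟩
      (cb_per h2 (h1.trans hab) hab) rfl
  obtain ⟨j, hj⟩ := hk'
  obtain ⟨a, ha, hac, h1⟩ := D.exists_cb_ne_one hk h
  have hR : 9 * k ≠ 0 := mul_ne_zero (by norm_num) hk
  have p1 := per (j := 1) (dvd_mul_right 9 k) (by rw [pow_one]; exact dvd_mul_left k 9)
  have h2 := rsum_mul_arg hR (a := a) (IsCoprime.mul_right (by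
    rw [show (9 : O) = 3 ^ 2 by norm_num]
    exact ha.coprime_three.pow_right) hac) p1
  have h3 : (fun y => if Prim (a * y) then cb k (a * y) else 0) =
      fun y => cb k a * if Prim y then cb k y else 0 := by
    funext y
    rw [mul_ite, mul_zero, cb_mul_right]
    exact if_congr ⟨ha.of_mul, ha.mul⟩ rfl rfl
  rw [h3, rsum_mul_left] at h2
  have h4 := (mul_eq_zero.1 ((sub_one_mul _ _).trans (sub_eq_zero.2 h2))).resolve_left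
    (sub_ne_zero.2 h1)
  have h5 := rsum_lift hQ hR (per h9 hj)
  rw [mul_comm Q, rsum_lift hR hQ p1, h4, mul_zero] at h5
  exact (mul_eq_zero.1 h5.symm).resolve_left (Complex.ofReal_ne_zero.2 (nm_pos hR).ne')

/-- the box lemma: a sum of a non-negative function over non-zero rows of norm `≤ U` is at most the sum
over dyadic boxes `2^a ≤ N k₁ < 2^(a+1)`, `2^b ≤ N k₂ < 2^(b+1)`, `2^c ≤ N m < 2^(c+1)`. -/
theorem sum_rows_le (F : O → ℝ) (hF : ∀ k, 0 ≤ F k) {U : ℝ} {S : Finset O} (hS : ∀ k ∈ S, k ≠ 0 ∧ nm k ≤ U)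
    {N : ℕ} (hN : U < 2 ^ N) (G : O → ℕ → ℕ → ℕ → ℝ)
    (hG : ∀ (u : O) (a b c : ℕ) (T : Finset (O × O × O)), u ∈ U9 → a < N → b < N → c < N →
      (∀ t ∈ T, PSq t.1 ∧ PSq t.2.1 ∧ IsCoprime t.1 t.2.1 ∧
        ((2 : ℝ) ^ a ≤ nm t.1 ∧ nm t.1 < 2 * 2 ^ a) ∧ ((2 : ℝ) ^ b ≤ nm t.2.1 ∧ nm t.2.1 < 2 * 2 ^ b) ∧
        ((2 : ℝ) ^ c ≤ nm t.2.2 ∧ nm t.2.2 < 2 * 2 ^ c) ∧ u * t.1 * t.2.1 ^ 2 * t.2.2 ^ 3 ∈ S) →
      ∑ t ∈ T, F (u * t.1 * t.2.1 ^ 2 * t.2.2 ^ 3) ≤ G u a b c) :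
    ∑ k ∈ S, F k ≤ ∑ u ∈ U9, ∑ a ∈ Finset.range N, ∑ b ∈ Finset.range N, ∑ c ∈ Finset.range N, G u a b c := by
  classical
  let T : O × ℕ × ℕ × ℕ → Finset (O × O × O) := fun i => (ball U ×ˢ ball U ×ˢ ball U).filter fun t =>
    PSq t.1 ∧ PSq t.2.1 ∧ IsCoprime t.1 t.2.1 ∧
      ((2 : ℝ) ^ i.2.1 ≤ nm t.1 ∧ nm t.1 < 2 * 2 ^ i.2.1) ∧
      ((2 : ℝ) ^ i.2.2.1 ≤ nm t.2.1 ∧ nm t.2.1 < 2 * 2 ^ i.2.2.1) ∧
      ((2 : ℝ) ^ i.2.2.2 ≤ nm t.2.2 ∧ nm t.2.2 < 2 * 2 ^ i.2.2.2) ∧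
      i.1 * t.1 * t.2.1 ^ 2 * t.2.2 ^ 3 ∈ S
  have h1 := ctb_cover S ((U9 ×ˢ Finset.range N ×ˢ Finset.range N ×ˢ Finset.range N).sigma T)
    (fun x => x.1.1 * x.2.1 * x.2.2.1 ^ 2 * x.2.2.2 ^ 3) F hF fun k hk => by
      obtain ⟨u, k₁, k₂, m, hu, h₁, h₂, hc, -, e⟩ := exists_cube_dec (hS k hk).1
      have key : ∀ d, d ∣ k → d ∈ ball U ∧ ∃ a ∈ Finset.range N,
          (2 : ℝ) ^ a ≤ nm d ∧ nm d < 2 * 2 ^ a := fun d hd => by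
        have h2 := (nm_le_of_dvd hd (hS k hk).1).trans (hS k hk).2
        have h3 : nN d ≠ 0 := mt nN_eq_zero.1 (ne_zero_of_dvd_ne_zero (hS k hk).1 hd)
        have h4 : nN d < 2 ^ N := by
          have := h2.trans_lt hN
          unfold nm at this
          exact_mod_cast this
        refine ⟨mem_ball.2 h2, Nat.log 2 (nN d), Finset.mem_range.2 (Nat.log_lt_of_lt_pow h3 h4),
          ?_, ?_⟩
        · unfold nm
          exact_mod_cast Nat.pow_log_le_self 2 h3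
        · rw [← pow_succ']
          unfold nm
          exact_mod_cast Nat.lt_pow_succ_log_self one_lt_two _
      obtain ⟨a1, a, a2, a3⟩ := key k₁ ⟨u * k₂ ^ 2 * m ^ 3, by rw [e]; ring⟩
      obtain ⟨b1, b, b2, b3⟩ := key k₂ ⟨u * k₁ * k₂ * m ^ 3, by rw [e]; ring⟩
      obtain ⟨c1, c, c2, c3⟩ := key m ⟨u * k₁ * k₂ ^ 2 * m ^ 2, by rw [e]; ring⟩
      refine ⟨⟨(u, a, b, c), (k₁, k₂, m)⟩, Finset.mem_sigma.2 ⟨?_, Finset.mem_filter.2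
        ⟨?_, h₁, h₂, hc, a3, b3, c3, e ▸ hk⟩⟩, e.symm⟩
      · simp only [Finset.mem_product]
        exact ⟨hu, a2, b2, c2⟩
      · simp only [Finset.mem_product]
        exact ⟨a1, b1, c1⟩
  refine h1.trans ?_
  simp only [Finset.sum_sigma, Finset.sum_product]
  refine Finset.sum_le_sum fun u hu => Finset.sum_le_sum fun a ha => Finset.sum_le_sum fun b hb =>
    Finset.sum_le_sum fun c hc => ?_
  exact hG u a b c _ hu (Finset.mem_range.1 ha) (Finset.mem_range.1 hb) (Finset.mem_range.1 hc)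
    fun t ht => (Finset.mem_filter.1 ht).2

/-- duality for finite matrices -/
theorem duality {ι κ : Type*} (S : Finset ι) (T : Finset κ) (M : ι → κ → ℂ) {D : ℝ} (hD : 0 ≤ D)
    (h : ∀ c : ι → ℂ, ∑ n ∈ T, ‖∑ k ∈ S, c k * M k n‖ ^ 2 ≤ D * ∑ k ∈ S, ‖c k‖ ^ 2) (c : κ → ℂ) :
    ∑ k ∈ S, ‖∑ n ∈ T, c n * M k n‖ ^ 2 ≤ D * ∑ n ∈ T, ‖c n‖ ^ 2 := by
  obtain ⟨a, ha⟩ : ∃ a : ι → ℂ, ∀ k, a k = ∑ n ∈ T, c n * M k n := ⟨_, fun _ => rfl⟩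
  simp only [← ha]
  have h1 := h fun k => conj (a k)
  simp only [Complex.norm_conj] at h1
  have h2 : ((∑ k ∈ S, ‖a k‖ ^ 2 : ℝ) : ℂ) = ∑ n ∈ T, c n * ∑ k ∈ S, conj (a k) * M k n := by
    simp only [Finset.mul_sum, Complex.ofReal_sum, Complex.ofReal_pow]
    rw [Finset.sum_comm]
    refine Finset.sum_congr rfl fun k _ => ?_
    rw [← Complex.conj_mul']
    nth_rewrite 2 [ha]
    rw [Finset.mul_sum]
    exact Finset.sum_congr rfl fun n _ => by ring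
  have h0 : 0 ≤ ∑ k ∈ S, ‖a k‖ ^ 2 := Finset.sum_nonneg fun _ _ => by positivity
  have h3 : ∑ k ∈ S, ‖a k‖ ^ 2 ≤ ∑ n ∈ T, ‖c n‖ * ‖∑ k ∈ S, conj (a k) * M k n‖ := by
    rw [← Complex.norm_of_nonneg h0, h2]
    exact (norm_sum_le _ _).trans (Finset.sum_le_sum fun n _ => (norm_mul _ _).le)
  have h4 := (pow_le_pow_left₀ h0 h3 2).trans (Finset.sum_mul_sq_le_sq_mul_sq T _ _)
  have h5 : 0 ≤ ∑ n ∈ T, ‖c n‖ ^ 2 := Finset.sum_nonneg fun _ _ => by positivity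
  have h6 := h4.trans (mul_le_mul_of_nonneg_left h1 h5)
  by_contra h7
  have h8 := not_le.1 h7
  nlinarith [mul_pos ((mul_nonneg hD h5).trans_lt h8) (sub_pos.2 h8)]

end Crest.Agent.R12
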