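import Crest.Agent.R12.Base.G

/-! Row 12, base: the divisor function, its moments, prime counts, dyadic pieces.
Prefix for helper lemmas: `bd_`. -/

set_option autoImplicit false

namespace Crest.Agent.R12

open Crest.Agent.R17
open scoped ComplexConjugate

theorem dn_nonneg (n : O) : 0 ≤ dn n := Nat.cast_nonneg _

theorem dn_zero : dn 0 = 0 := by
  have : pdiv 0 = ∅ := by
    refine Finset.eq_empty_of_forall_notMem fun d hd => ?_
    have h1 := (pra_of_mem_pdiv hd).1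
    classical
    rw [pdiv, Finset.mem_filter, mem_ball, nm_zero] at hd
    exact absurd (nm_pos h1.ne_zero) (not_lt.2 hd.1)
  rw [dn, this]
  simp

theorem one_le_dn {n : O} (hn : n ≠ 0) : 1 ≤ dn n := by
  have : 1 ≤ (pdiv n).card :=
    Finset.card_pos.2 ⟨1, (mem_pdiv hn).2 ⟨Pr.one_mem, one_dvd n⟩⟩
  unfold dn
  exact_mod_cast this

theorem bd_sqfree {n : O} (h : PSq n) : dn n = 2 ^ (pfs n).card := by
  have := sum_pdiv_sqfree h.2 fun _ => (1 : ℕ)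
  simp only [Finset.sum_const, smul_eq_mul, mul_one, Finset.card_powerset] at this
  rw [dn, this]
  push_cast
  rfl

theorem dn_one : dn 1 = 1 := by
  rw [bd_sqfree psq_one, pra_pfs_one]
  simp

theorem dn_prime {p : O} (hp : Prime p) (h : Prim p) : dn p = 2 := by
  rw [bd_sqfree (psq_prime hp h), pfs_prime hp h]
  simp

theorem dn_le_of_dvd {a b : O} (hb : b ≠ 0) (h : a ∣ b) : dn a ≤ dn b := by
  unfold dn
  exact_mod_cast Finset.card_le_card fun d hd =>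
    (mem_pdiv hb).2 ⟨(pra_of_mem_pdiv hd).1, (pra_of_mem_pdiv hd).2.trans h⟩

theorem dn_mul_le (a b : O) : dn (a * b) ≤ dn a * dn b := by
  by_cases ha : a = 0
  · simp [ha, dn_zero]
  by_cases hb : b = 0
  · simp [hb, dn_zero]
  have := ctb_cover (pdiv (a * b)) (pdiv a ×ˢ pdiv b) (fun p => p.1 * p.2) (fun _ => 1)
    (fun _ => zero_le_one) fun d hd => by
      obtain ⟨h1, h2⟩ := pra_of_mem_pdiv hd
      obtain ⟨g, d', a', hg, hd', e1, e2, hc⟩ := h1.exists_gcd a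
      refine ⟨(g, d'), Finset.mem_product.2 ⟨(mem_pdiv ha).2 ⟨hg, e2 ▸ dvd_mul_right _ _⟩,
        (mem_pdiv hb).2 ⟨hd', ?_⟩⟩, e1.symm⟩
      rw [e1, e2, mul_assoc, mul_dvd_mul_iff_left hg.ne_zero] at h2
      exact hc.dvd_of_dvd_mul_left h2
  simpa [dn] using this

theorem dn_sqfree {n : O} (h : PSq n) : dn n = 2 ^ (pfs n).card := by
  exact bd_sqfree h

theorem card_pfs_le_dn (n : O) : ((pfs n).card : ℝ) ≤ dn n := by
  classical
  unfold dn pfs
  exact_mod_cast Finset.card_filter_le _ _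

theorem card_anti {n : O} (h : Prim n) : ((anti n).card : ℝ) = dn n := by
  rw [R17.card_anti h, dn]

theorem dn_succ_pow_le (k : ℕ) {ε : ℝ} (hε : 0 < ε) :
    ∃ C : ℝ, 0 < C ∧ ∀ n : O, dn n ^ (k + 1) ≤ C * nm n ^ ε := by
  obtain ⟨C, hC, h⟩ := card_pdiv_le (ε := ε / (k + 1 : ℕ)) (by positivity)
  refine ⟨C ^ (k + 1), by positivity, fun n => ?_⟩
  by_cases hn : n = 0
  · rw [hn, dn_zero, zero_pow (Nat.succ_ne_zero k)]
    exact mul_nonneg (by positivity) (Real.rpow_nonneg (nm_nonneg _) _)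
  calc _ ≤ (C * nm n ^ (ε / (k + 1 : ℕ))) ^ (k + 1) := pow_le_pow_left₀ (dn_nonneg n) (h n hn) _
    _ = _ := by
      rw [mul_pow, ← Real.rpow_natCast (nm n ^ _), ← Real.rpow_mul (nm_nonneg n),
        div_mul_cancel₀ _ (by positivity)]

theorem dn_pow_le (k : ℕ) {ε : ℝ} (hε : 0 < ε) :
    ∃ C : ℝ, 0 < C ∧ ∀ n : O, n ≠ 0 → dn n ^ k ≤ C * nm n ^ ε := by
  obtain ⟨C, hC, h⟩ := dn_succ_pow_le k hε
  exact ⟨C, hC, fun n hn => (pow_le_pow_right₀ (one_le_dn hn) (Nat.le_succ k)).trans (h n)⟩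

/-- `d(n)^(k+1) ≤ ∑_{ab = n} d(a)^k d(b)^k`, so the sum for `k + 1` is at most the square of the sum
for `k`; `k = 0` is `sum_inv_nm_le` -/
theorem sum_dn_pow_div_le (k : ℕ) : ∃ C D : ℝ, 0 < C ∧ 0 ≤ D ∧ ∀ X : ℝ, 2 ≤ X →
    ∑ n ∈ pball X, dn n ^ k / nm n ≤ C * Real.log X ^ D := by
  classical
  induction k with
  | zero =>
    refine ⟨132, 1, by norm_num, zero_le_one, fun X hX => ?_⟩
    have h1 := sum_inv_nm_le (X := X) (by linarith) (A := pball X) fun n hn => (mem_pball.1 hn).1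
    have h2 : Real.log 2 ≤ Real.log X := Real.log_le_log two_pos hX
    have h3 := Real.log_two_gt_d9
    simp only [pow_zero, one_div, Real.rpow_one]
    linarith
  | succ k ih =>
    obtain ⟨C, D, hC, hD, h⟩ := ih
    refine ⟨C ^ 2, D * 2, by positivity, by positivity, fun X hX => ?_⟩
    have hg : ∀ n, 0 ≤ dn n ^ k / nm n := fun n =>
      div_nonneg (pow_nonneg (dn_nonneg n) k) (nm_nonneg n)
    have hl : 0 ≤ Real.log X := Real.log_nonneg (by linarith)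
    calc _ ≤ ∑ n ∈ pball X, ∑ p ∈ pball X ×ˢ pball X with p.1 * p.2 = n,
          dn p.1 ^ k / nm p.1 * (dn p.2 ^ k / nm p.2) := by
          refine Finset.sum_le_sum fun n hn => ?_
          obtain ⟨h1, h2⟩ := mem_pball.1 hn
          calc _ = ∑ _p ∈ anti n, dn n ^ k / nm n := by
                rw [Finset.sum_const, nsmul_eq_mul, card_anti h2]; ring
            _ ≤ ∑ p ∈ anti n, dn p.1 ^ k / nm p.1 * (dn p.2 ^ k / nm p.2) := by
                refine Finset.sum_le_sum fun p hp => ?_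
                rw [← (mem_anti.1 hp).2.2, div_mul_div_comm, ← mul_pow, nm_mul]
                exact div_le_div_of_nonneg_right
                  (pow_le_pow_left₀ (dn_nonneg _) (dn_mul_le _ _) k)
                  (mul_nonneg (nm_nonneg _) (nm_nonneg _))
            _ ≤ _ := by
                refine Finset.sum_le_sum_of_subset_of_nonneg (fun p hp => ?_)
                  fun p _ _ => mul_nonneg (hg _) (hg _)
                obtain ⟨a, b, c⟩ := mem_anti.1 hp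
                exact Finset.mem_filter.2 ⟨Finset.mem_product.2
                  ⟨mem_pball.2 ⟨(nm_le_of_dvd (c ▸ dvd_mul_right _ _) h2.ne_zero).trans h1, a⟩,
                    mem_pball.2 ⟨(nm_le_of_dvd (c ▸ dvd_mul_left _ _) h2.ne_zero).trans h1, b⟩⟩, c⟩
      _ ≤ ∑ p ∈ pball X ×ˢ pball X, dn p.1 ^ k / nm p.1 * (dn p.2 ^ k / nm p.2) :=
          Finset.sum_fiberwise_le_sum_of_sum_fiber_nonneg fun _ _ =>
            Finset.sum_nonneg fun p _ => mul_nonneg (hg _) (hg _)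
      _ = (∑ n ∈ pball X, dn n ^ k / nm n) ^ 2 := by
          rw [sq, Finset.sum_mul_sum, Finset.sum_product]
      _ ≤ (C * Real.log X ^ D) ^ 2 :=
          pow_le_pow_left₀ (Finset.sum_nonneg fun n _ => hg n) (h X hX) 2
      _ = _ := by rw [mul_pow, Real.rpow_mul hl, Real.rpow_two]

theorem sum_dn_pow_le (k : ℕ) : ∃ C D : ℝ, 0 < C ∧ 0 ≤ D ∧ ∀ X Z : ℝ, 0 ≤ X → X ≤ Z → 2 ≤ Z →
    ∑ n ∈ pball X, dn n ^ k ≤ C * X * Real.log Z ^ D := by
  obtain ⟨C, D, hC, hD, h⟩ := sum_dn_pow_div_le k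
  refine ⟨C, D, hC, hD, fun X Z hX hXZ hZ => ?_⟩
  calc _ ≤ ∑ n ∈ pball X, X * (dn n ^ k / nm n) := by
        refine Finset.sum_le_sum fun n hn => ?_
        obtain ⟨h1, h2⟩ := mem_pball.1 hn
        rw [← mul_div_assoc, le_div_iff₀ (nm_pos h2.ne_zero), mul_comm]
        exact mul_le_mul_of_nonneg_right h1 (pow_nonneg (dn_nonneg n) k)
    _ ≤ X * ∑ n ∈ pball Z, dn n ^ k / nm n := by
        rw [← Finset.mul_sum]
        refine mul_le_mul_of_nonneg_left (Finset.sum_le_sum_of_subset_of_nonneg (fun n hn => ?_)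
          fun n _ _ => div_nonneg (pow_nonneg (dn_nonneg n) k) (nm_nonneg n)) hX
        exact mem_pball.2 ⟨(mem_pball.1 hn).1.trans hXZ, (mem_pball.1 hn).2⟩
    _ ≤ X * (C * Real.log Z ^ D) := mul_le_mul_of_nonneg_left (h Z hZ) hX
    _ = _ := by ring

theorem N2_le_of_Dv (k : ℕ) : ∃ C D : ℝ, 0 < C ∧ 0 ≤ D ∧ ∀ (γ : O → ℂ) (B X Z : ℝ), Supp γ B X → Dv k γ →
    0 ≤ X → X ≤ Z → 2 ≤ Z → N2 γ X ≤ C * X * Real.log Z ^ D ∧ N2d γ X ≤ C * X * Real.log Z ^ D := by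
  classical
  obtain ⟨C, D, hC, hD, h⟩ := sum_dn_pow_le (k * 2 + 4)
  refine ⟨C, D, hC, hD, fun γ B X Z hs hv hX hXZ hZ => ?_⟩
  have h1 : N2d γ X ≤ C * X * Real.log Z ^ D := by
    refine le_trans ?_ (h X Z hX hXZ hZ)
    rw [N2d, pball, Finset.sum_filter]
    refine Finset.sum_le_sum fun b _ => ?_
    split_ifs with hb
    · rw [pow_add, pow_mul]
      exact mul_le_mul_of_nonneg_right (pow_le_pow_left₀ (norm_nonneg _) (hv b) 2)
        (pow_nonneg (dn_nonneg b) 4)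
    · have : γ b = 0 := by
        by_contra h0
        exact hb (hs b h0).1.1
      simp [this]
  exact ⟨(N2_le_N2d hs).trans h1, h1⟩

/-- exchange of the sum over labels with the sum over columns -/
theorem sum_label {X : ℝ} {γ : O → ℂ} {B : ℝ} (h : Supp γ B X) (w : O → ℝ) :
    ∑ l ∈ sball X, w l * ∑ n ∈ ball X, ‖γ (l * n)‖ ^ 2 =
      ∑ b ∈ ball X, ‖γ b‖ ^ 2 * ∑ l ∈ pdiv b, w l := by
  classical
  have h1 : ∀ l ∈ sball X, w l * ∑ n ∈ ball X, ‖γ (l * n)‖ ^ 2 =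
      ∑ b ∈ ball X, if l ∣ b then ‖γ b‖ ^ 2 * w l else 0 := by
    intro l hl
    have hl0 := (mem_sball.1 hl).2.ne_zero
    rw [← Finset.sum_filter, ← Finset.sum_mul, mul_comm]
    congr 1
    have hz : ∀ {b}, ‖γ b‖ ^ 2 ≠ 0 → γ b ≠ 0 := fun hb h0 => hb (by simp [h0])
    refine Finset.sum_bij_ne_zero (fun n _ _ => l * n) (fun n _ hn => ?_)
      (fun a _ _ b _ _ hab => mul_left_cancel₀ hl0 hab) (fun b hb hb0 => ?_) fun _ _ _ => rfl
    · exact Finset.mem_filter.2 ⟨mem_ball.2 (h _ (hz hn)).2.2, dvd_mul_right _ _⟩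
    · obtain ⟨h2, n, rfl⟩ := Finset.mem_filter.1 hb
      exact ⟨n, mem_ball.2 ((nm_le_of_dvd (dvd_mul_left _ _) (h _ (hz hb0)).1.ne_zero).trans
        (mem_ball.1 h2)), hb0, rfl⟩
  rw [Finset.sum_congr rfl h1, Finset.sum_comm]
  refine Finset.sum_congr rfl fun b hb => ?_
  rw [← Finset.sum_filter, ← Finset.mul_sum]
  by_cases h0 : γ b = 0
  · simp [h0]
  obtain ⟨h2, -, h3⟩ := h b h0
  congr 2
  ext l
  rw [Finset.mem_filter, mem_sball, mem_pdiv h2.ne_zero]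
  exact ⟨fun a => ⟨a.1.2.1, a.2⟩, fun a => ⟨⟨(nm_le_of_dvd a.2 h2.ne_zero).trans h3, a.1,
    h2.2.squarefree_of_dvd a.2⟩, a.2⟩⟩

theorem bd_under {p : O} (hp : Prime p) : ∃ r : ℕ, r.Prime ∧ p ∣ (r : O) ∧ (r : ℝ) ≤ nm p := by
  rcases prime_cases hp with h | ⟨r, hr, -, h⟩
  · exact ⟨_, h, dvd_nN p, le_rfl⟩
  · refine ⟨r, hr, h.dvd, ?_⟩
    rw [nm_assoc h, nm_natCast]
    have : (1 : ℝ) ≤ r := by exact_mod_cast hr.one_le
    nlinarith

/-- Chebyshev: at most two primary primes above each rational prime -/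
theorem card_qball_le : ∃ C : ℝ, 0 < C ∧ ∀ X : ℝ, 2 ≤ X → ((qball X).card : ℝ) ≤ C * X / Real.log X := by
  refine ⟨2 * (2 * Real.log 4 + 2), by positivity, fun X hX => ?_⟩
  classical
  have h1 : qball X ⊆ (Nat.primesLE ⌊X⌋₊).biUnion
      fun r => (qball X).filter fun p => p ∣ (r : O) ∧ (r : ℝ) ≤ nm p := fun p hp => by
    obtain ⟨r, hr, h2, h3⟩ := bd_under (mem_qball.1 hp).2.1
    exact Finset.mem_biUnion.2 ⟨r, Nat.mem_primesLE.2 ⟨Nat.le_floor (h3.trans (mem_qball.1 hp).1), hr⟩,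
      Finset.mem_filter.2 ⟨hp, h2, h3⟩⟩
  have h2 : ((qball X).card : ℝ) ≤ ∑ r ∈ Nat.primesLE ⌊X⌋₊, (2 : ℝ) := by
    refine (Nat.cast_le.2 ((Finset.card_le_card h1).trans Finset.card_biUnion_le)).trans ?_
    rw [Nat.cast_sum]
    refine Finset.sum_le_sum fun r hr => ?_
    have hr' := (Nat.mem_primesLE.1 hr).2
    have h3 : (1 : ℝ) < r := by exact_mod_cast hr'.one_lt
    refine (card_large_primes_le (D := (r : O)) (Nat.cast_ne_zero.2 hr'.ne_zero) h3 fun p hp => ?_).trans ?_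
    · obtain ⟨h4, h5⟩ := Finset.mem_filter.1 hp
      exact ⟨(mem_qball.1 h4).2.1, (mem_qball.1 h4).2.2, h5⟩
    · rw [nm_natCast, Real.log_pow, mul_div_assoc, div_self (Real.log_pos h3).ne']
      norm_num
  rw [Finset.sum_const, Nat.primesLE_card_eq_primeCounting, nsmul_eq_mul] at h2
  have h3 := Chebyshev.pi_le_log4_mul_div (x := X) (by linarith)
  have h4 : 0 < Real.log X := Real.log_pos (by linarith)
  have h5 : 0 < √X := Real.sqrt_pos.2 (by linarith)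
  have h6 : √X ≤ 2 * X / Real.log X := by
    rw [le_div_iff₀ h4]
    have h7 := Real.log_le_sub_one_of_pos h5
    rw [Real.log_sqrt (by linarith)] at h7
    nlinarith [Real.mul_self_sqrt (show 0 ≤ X by linarith)]
  rw [Real.log_sqrt (by linarith)] at h3
  have h7 : 2 * (2 * Real.log 4 + 2) * X / Real.log X =
      (Real.log 4 * X / (Real.log X / 2) + 2 * X / Real.log X) * 2 := by
    field_simp
  linarith

theorem bd_range {t : ℝ} (ht : 1 ≤ t) : ∃ N : ℕ, t ≤ 2 ^ (N + 1) ∧ N * Real.log 2 ≤ Real.log t := by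
  refine ⟨Nat.log 2 ⌊t⌋₊, ?_, ?_⟩
  · refine (Nat.lt_floor_add_one t).le.trans ?_
    exact_mod_cast Nat.lt_pow_succ_log_self one_lt_two ⌊t⌋₊
  · rw [← Real.log_pow]
    exact Real.log_le_log (by positivity) (cta_pow_le ht)

theorem bd_blocks : ∃ C : ℝ, 0 < C ∧ ∀ Y : ℝ, 1 ≤ Y → ∀ (N : ℕ) (S : Finset O),
    (∀ p ∈ S, Prime p ∧ Prim p ∧ Y ≤ nm p ∧ nm p ≤ Y * 2 ^ (N + 1)) →
    ∑ p ∈ S, (nm p)⁻¹ ≤ ∑ i ∈ Finset.range (N + 1), C / Real.log (Y * 2 ^ (i + 1)) := by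
  obtain ⟨C, hC, h⟩ := card_qball_le
  have h1 : ∀ Y : ℝ, 1 ≤ Y → ∀ S : Finset O, (∀ p ∈ S, Prime p ∧ Prim p ∧ Y ≤ nm p ∧ nm p ≤ Y * 2) →
      ∑ p ∈ S, (nm p)⁻¹ ≤ 2 * C / Real.log (Y * 2) := fun Y hY S hS => by
    refine (Finset.sum_le_card_nsmul _ _ Y⁻¹ fun p hp => inv_anti₀ (by linarith) (hS p hp).2.2.1).trans ?_
    have h2 : (S.card : ℝ) ≤ (qball (Y * 2)).card := Nat.cast_le.2 (Finset.card_le_card fun p hp =>
      mem_qball.2 ⟨(hS p hp).2.2.2, (hS p hp).1, (hS p hp).2.1⟩)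
    rw [nsmul_eq_mul]
    refine (mul_le_mul_of_nonneg_right (h2.trans (h _ (by linarith))) (by positivity)).trans_eq ?_
    field_simp
  refine ⟨2 * C, by positivity, fun Y hY N => ?_⟩
  induction N with
  | zero => simpa using h1 Y hY
  | succ N ih =>
    intro S hS
    rw [Finset.sum_range_succ, ← Finset.sum_filter_add_sum_filter_not S fun p => nm p ≤ Y * 2 ^ (N + 1),
      pow_succ _ (N + 1), ← mul_assoc]
    refine add_le_add (ih _ fun p hp => ?_)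
      (h1 _ (hY.trans (le_mul_of_one_le_right (by linarith) (one_le_pow₀ one_le_two))) _ fun p hp => ?_)
    · obtain ⟨h2, h3⟩ := Finset.mem_filter.1 hp
      exact ⟨(hS p h2).1, (hS p h2).2.1, (hS p h2).2.2.1, h3⟩
    · obtain ⟨h2, h3⟩ := Finset.mem_filter.1 hp
      exact ⟨(hS p h2).1, (hS p h2).2.1, (not_le.1 h3).le, (hS p h2).2.2.2.trans_eq (by ring)⟩

theorem sum_inv_prime_le : ∃ C : ℝ, 0 < C ∧ ∀ (X₁ X₂ : ℝ) (S : Finset O), 2 ≤ X₁ → X₁ ≤ X₂ →
    (∀ p ∈ S, Prime p ∧ Prim p ∧ X₁ ≤ nm p ∧ nm p ≤ X₂) →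
    ∑ p ∈ S, (nm p)⁻¹ ≤ C * (1 + Real.log (X₂ / X₁)) / Real.log X₁ := by
  obtain ⟨C, hC, h⟩ := bd_blocks
  refine ⟨2 * C, by positivity, fun X₁ X₂ S h1 h2 hS => ?_⟩
  have h0 : 0 < X₁ := by linarith
  obtain ⟨N, h3, h4⟩ := bd_range (t := X₂ / X₁) ((one_le_div h0).2 h2)
  have h5 : 0 < Real.log X₁ := Real.log_pos (by linarith)
  refine (h X₁ (by linarith) N S fun p hp => ⟨(hS p hp).1, (hS p hp).2.1, (hS p hp).2.2.1,
    (hS p hp).2.2.2.trans ((div_le_iff₀' h0).1 h3)⟩).trans ?_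
  refine (Finset.sum_le_card_nsmul _ _ (C / Real.log X₁) fun i _ => ?_).trans ?_
  · refine div_le_div_of_nonneg_left hC.le h5 (Real.log_le_log h0 ?_)
    exact le_mul_of_one_le_right h0.le (one_le_pow₀ one_le_two)
  · rw [Finset.card_range, nsmul_eq_mul, ← mul_div_assoc]
    refine div_le_div_of_nonneg_right ?_ h5.le
    push_cast
    have h6 : (N : ℝ) ≤ 2 * Real.log (X₂ / X₁) := by
      nlinarith [Real.log_two_gt_d9, (Nat.cast_nonneg N : (0 : ℝ) ≤ N)]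
    nlinarith

/-- Mertens, upper bound -/
theorem sum_inv_qball_le : ∃ C : ℝ, 0 < C ∧ ∀ X : ℝ, 3 ≤ X →
    ∑ p ∈ qball X, (nm p)⁻¹ ≤ C * (1 + Real.log (Real.log X)) := by
  obtain ⟨C, hC, h⟩ := bd_blocks
  refine ⟨6 * C, by positivity, fun X hX => ?_⟩
  obtain ⟨N, h3, h4⟩ := bd_range (t := X) (by linarith)
  refine (h 1 le_rfl N _ fun p hp => ⟨(mem_qball.1 hp).2.1, (mem_qball.1 hp).2.2,
    one_le_nm (mem_qball.1 hp).2.1.ne_zero, (mem_qball.1 hp).1.trans (by rwa [one_mul])⟩).trans ?_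
  have h5 := harmonic_le_one_add_log (N + 1)
  have h6 : 1 ≤ Real.log X := by
    rw [Real.le_log_iff_exp_le (by linarith)]
    linarith [Real.exp_one_lt_d9]
  have h7 : Real.log ((N + 1 : ℕ) : ℝ) ≤ 2 + Real.log (Real.log X) := by
    have h8 : ((N + 1 : ℕ) : ℝ) ≤ 3 * Real.log X := by
      push_cast
      nlinarith [Real.log_two_gt_d9, (Nat.cast_nonneg N : (0 : ℝ) ≤ N)]
    refine (Real.log_le_log (by positivity) h8).trans ?_
    rw [Real.log_mul (by norm_num) (by linarith)]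
    linarith [Real.log_le_sub_one_of_pos (show (0 : ℝ) < 3 by norm_num)]
  have h8 : ∑ i ∈ Finset.range (N + 1), C / Real.log (1 * 2 ^ (i + 1)) ≤ 2 * C * (harmonic (N + 1) : ℝ) := by
    rw [harmonic, Rat.cast_sum, Finset.mul_sum]
    refine Finset.sum_le_sum fun i _ => ?_
    rw [one_mul, Real.log_pow, Rat.cast_inv, Rat.cast_natCast, ← div_eq_mul_inv,
      div_le_div_iff₀ (by positivity) (by positivity)]
    nlinarith [Real.log_two_gt_d9, mul_pos hC (show (0 : ℝ) < (i + 1 : ℕ) by positivity)]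
  refine h8.trans ?_
  nlinarith [Real.log_nonneg h6]

open Classical in
/-- the dyadic piece `(2^i, 2^(i+1)]` of a sequence -/
noncomputable def dy (i : ℕ) (γ : O → ℂ) (b : O) : ℂ :=
  if (2 : ℝ) ^ i < nm b ∧ nm b ≤ 2 * 2 ^ i then γ b else 0

theorem norm_dy_le (i : ℕ) (γ : O → ℂ) (b : O) : ‖dy i γ b‖ ≤ ‖γ b‖ := by
  unfold dy
  split_ifs
  · exact le_rfl
  · simp

theorem supp_dy (i : ℕ) {γ : O → ℂ} (h : ∀ b, γ b ≠ 0 → PSq b) : Supp (dy i γ) (2 ^ i) (2 * 2 ^ i) := by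
  intro b hb
  unfold dy at hb
  split_ifs at hb with h1
  · exact ⟨h b hb, h1⟩
  · exact absurd rfl hb

theorem sum_dy (γ : O → ℂ) {b : O} {N : ℕ} (h1 : 1 < nm b) (h2 : nm b ≤ 2 ^ N) :
    ∑ i ∈ Finset.range N, dy i γ b = γ b := by
  induction N with
  | zero => exact absurd h2 (by simpa using h1)
  | succ N ih =>
    rw [Finset.sum_range_succ]
    by_cases h : nm b ≤ 2 ^ N
    · rw [ih h, dy, if_neg fun h' => h'.1.not_ge h, add_zero]
    · rw [dy, if_pos ⟨not_le.1 h, h2.trans_eq (pow_succ' _ _)⟩, Finset.sum_eq_zero, zero_add]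
      intro i hi
      refine if_neg fun h' => h (h'.2.trans ?_)
      rw [← pow_succ']
      exact pow_le_pow_right₀ one_le_two (Finset.mem_range.1 hi)

/-- a sum over `1 < N b ≤ X` as a sum of dyadic sums, each over its own ball -/
theorem sum_ball_dy (γ F : O → ℂ) {X : ℝ} {N : ℕ} (h0 : ∀ b, γ b ≠ 0 → 1 < nm b ∧ nm b ≤ X) (hN : X ≤ 2 ^ N) :
    ∑ b ∈ ball X, γ b * F b = ∑ i ∈ Finset.range N, ∑ b ∈ ball (2 * 2 ^ i), dy i γ b * F b := by
  have h1 : ∀ i : ℕ, ∑ b ∈ ball (2 * 2 ^ i), dy i γ b * F b = ∑ b ∈ ball X, dy i γ b * F b := fun i => by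
    have h2 : ∀ Y : ℝ, (∀ b, dy i γ b ≠ 0 → nm b ≤ Y) → Y ≤ max X (2 * 2 ^ i) →
        ∑ b ∈ ball Y, dy i γ b * F b = ∑ b ∈ ball (max X (2 * 2 ^ i)), dy i γ b * F b := fun Y h3 h4 =>
      Finset.sum_subset (fun b hb => mem_ball.2 ((mem_ball.1 hb).trans h4)) fun b _ hb => by
        rw [not_not.1 fun h => hb (mem_ball.2 (h3 b h)), zero_mul]
    rw [h2 _ (fun b hb => ?_) (le_max_right _ _), h2 _ (fun b hb => ?_) (le_max_left _ _)]
    · refine (h0 b fun h => hb ?_).2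
      simp [dy, h]
    · by_contra h
      exact hb (if_neg fun h' => h h'.2)
  simp_rw [h1]
  rw [Finset.sum_comm]
  refine Finset.sum_congr rfl fun b _ => ?_
  rw [← Finset.sum_mul]
  by_cases h : γ b = 0
  · simp [dy, h]
  · rw [sum_dy γ (h0 b h).1 ((h0 b h).2.trans hN)]

theorem exists_dy_range {X : ℝ} (hX : 2 ≤ X) : ∃ N : ℕ, X ≤ 2 ^ N ∧ (N : ℝ) ≤ 3 * Real.log X := by
  obtain ⟨N, h1, h2⟩ := bd_range (t := X) (by linarith)
  refine ⟨N + 1, h1, ?_⟩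
  push_cast
  nlinarith [Real.log_two_gt_d9, (Nat.cast_nonneg N : (0 : ℝ) ≤ N), Real.log_le_log two_pos hX]

end Crest.Agent.R12
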