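import Crest.Agent.R12.Defs
import Crest.Agent.R17.B.All

/-! Row 12, base: `GG`, `TC`, `f0`, `n6`, `Phi`, `LW` (elementary API).  Prefix for helper lemmas: `bg_`. -/

set_option autoImplicit false

namespace Crest.Agent.R12

open Crest.Agent.R17
open scoped ComplexConjugate

theorem mem_pball {X : ℝ} {n : O} : n ∈ pball X ↔ nm n ≤ X ∧ Prim n := by simp [pball]

theorem mem_sball {X : ℝ} {n : O} : n ∈ sball X ↔ nm n ≤ X ∧ PSq n := by simp [sball]

theorem mem_qball {X : ℝ} {n : O} : n ∈ qball X ↔ nm n ≤ X ∧ Prime n ∧ Prim n := by simp [qball]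

theorem LN_eq_LW (a Y x : ℝ) : LN a Y 0 x = (LW a Y x : ℂ) := LN_zero a Y x

theorem norm_LN_eq_LW (a Y t x : ℝ) : ‖LN a Y t x‖ = LW a Y x := norm_LN a Y t x

theorem LW_pos (a Y x : ℝ) : 0 < LW a Y x := Real.exp_pos _

theorem LW_le_one (a Y x : ℝ) : LW a Y x ≤ 1 := by
  rw [← norm_LN_eq_LW a Y 0 x]; exact norm_LN_le_one a Y 0 x

theorem LW_mul_arg (a Y d x : ℝ) : LW a Y (d * x) = LW a (Y / d) x := by
  unfold LW
  rw [div_div_eq_mul_div, mul_comm d x]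

/-- wider weights are larger -/
theorem LW_mono {a b : ℝ} (ha : 0 < a) (hab : a ≤ b) (Y x : ℝ) : LW a Y x ≤ LW b Y x := by
  unfold LW
  refine Real.exp_le_exp.2 (neg_le_neg ?_)
  gcongr

theorem LW_sq {a : ℝ} (ha : 0 < a) (Y x : ℝ) : LW a Y x ^ 2 = LW (a / Real.sqrt 2) Y x := by
  unfold LW
  rw [← Real.exp_nat_mul, div_pow, Real.sq_sqrt (by norm_num)]
  congr 1
  field_simp
  push_cast
  ring

theorem LW_mul_rpow {a Y x : ℝ} (ha : 0 < a) (hY : 0 < Y) (hx : 0 < x) (σ : ℝ) :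
    LW a Y x * x ^ σ = Y ^ σ * Real.exp (a ^ 2 * σ ^ 2 / 2) * LW a (Y * Real.exp (a ^ 2 * σ)) x := by
  unfold LW
  rw [Real.rpow_def_of_pos hx, Real.rpow_def_of_pos hY, ← Real.exp_add, ← Real.exp_add,
    ← Real.exp_add, Real.log_div hx.ne' hY.ne', Real.log_div hx.ne' (by positivity),
    Real.log_mul hY.ne' (Real.exp_pos _).ne', Real.log_exp]
  congr 1
  field_simp
  ring

theorem cP_pos : 0 < cP := by
  have := Real.Gamma_pos_of_pos (show (0 : ℝ) < 2 / 3 by norm_num)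
  unfold cP
  positivity

/-- `Γ(2/3) ≥ 4/3` is enough; or use `Γ(2/3) = Γ(5/3) · 3/2` and log-convexity -/
theorem cP_le : cP ≤ 2 := by
  have h1 : 1 < Real.Gamma (2 / 3) := by
    rw [← Real.Gamma_one]
    exact Real.Gamma_strictAntiOn_Ioc (by norm_num) (by norm_num) (by norm_num)
  have h2 : (2 * Real.pi) ^ ((2 : ℝ) / 3) ≤ 4 := by
    have h3 : (2 * Real.pi) ^ ((2 : ℝ) / 3) ≤ ((2 : ℝ) ^ (3 : ℝ)) ^ ((2 : ℝ) / 3) := by
      refine Real.rpow_le_rpow (by positivity) ?_ (by norm_num)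
      have := Real.pi_le_four
      norm_num
      linarith
    rw [← Real.rpow_mul (by norm_num)] at h3
    norm_num at h3
    exact h3
  unfold cP
  rw [div_le_iff₀ (by positivity)]
  linarith

theorem rho0_pos : 0 < rho0 := by unfold rho0; positivity

theorem PSq.ne_zero {n : O} (h : PSq n) : n ≠ 0 := h.2.ne_zero

theorem psq_one : PSq 1 := by
  exact ⟨prim_one, squarefree_one⟩

theorem psq_prime {p : O} (hp : Prime p) (h : Prim p) : PSq p := ⟨h, hp.squarefree⟩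

theorem psq_mul_iff {a b : O} (ha : Prim a) (hb : Prim b) :
    PSq (a * b) ↔ PSq a ∧ PSq b ∧ IsCoprime a b := by
  unfold PSq
  rw [squarefree_mul_iff, isRelPrime_iff_isCoprime]
  exact ⟨fun h => ⟨⟨ha, h.2.2.1⟩, ⟨hb, h.2.2.2⟩, h.2.1⟩,
    fun h => ⟨ha.mul hb, h.2.2, h.1.2, h.2.1.2⟩⟩

theorem PSq.of_mul_left {a b : O} (ha : Prim a) (h : PSq (a * b)) : PSq b := by
  exact ⟨ha.of_mul h.1, h.2.of_mul_right⟩

theorem n6_mul (a b : O) : n6 (a * b) = n6 a * n6 b := by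
  unfold n6
  rw [nm_mul, Real.mul_rpow (nm_nonneg a) (nm_nonneg b)]

theorem n6_nonneg (a : O) : 0 ≤ n6 a := by
  exact Real.rpow_nonneg (nm_nonneg a) _

theorem n6_le_one (a : O) : n6 a ≤ 1 := by
  unfold n6
  rcases eq_or_ne a 0 with rfl | h
  · rw [nm_zero, Real.zero_rpow (by norm_num)]
    exact zero_le_one
  · exact Real.rpow_le_one_of_one_le_of_nonpos (one_le_nm h) (by norm_num)

theorem n6_le {a : O} {B : ℝ} (hB : 0 < B) (h : B ≤ nm a) : n6 a ≤ B ^ (-(1 : ℝ) / 6) := by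
  exact Real.rpow_le_rpow_of_nonpos hB h (by norm_num)

theorem bg_lam {c : O} (h : Prim c) : IsCoprime lam c := prime_lam.coprime_iff_not_dvd.2 h.not_lam_dvd

theorem norm_GG {c : O} (h : PSq c) : ‖GG c‖ = 1 := by
  rw [GG, norm_mul, RCLike.norm_conj, norm_cb h.1.coprime_three (bg_lam h.1),
    norm_g3 h.2 h.1.coprime_three, one_mul]

theorem GG_mul_conj {c : O} (h : PSq c) : GG c * conj (GG c) = 1 := by
  rw [Complex.mul_conj', norm_GG h]
  simp

theorem GG_mul {a b : O} (ha : Prim a) (hb : Prim b) (h : IsCoprime a b) :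
    GG (a * b) = GG a * GG b * conj (cb a b) := by
  simp only [GG, cb_mul_right, g3_mul_prim ha hb h, map_mul]
  ring

theorem TC_sqfree {c : O} (h : PSq c) : TC c = GG c := by
  rw [TC, tau0_sqfree h.1 h.2, map_mul, Complex.conj_conj, GG]

theorem TC_mul_cube (n : O) {b : O} (hb : Prim b) : TC (n * b ^ 3) = TC n * (Real.sqrt (nm b) : ℂ) := by
  simp only [TC, cb_mul_right, cb_pow_right, cb_pow_three, tau0_mul_cube n hb, map_mul,
    Complex.conj_ofReal, if_pos (And.intro hb.coprime_three (bg_lam hb)), mul_one, mul_assoc]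

theorem TC_eq {c b : O} (hc : PSq c) (hb : Prim b) : TC (c * b ^ 3) = GG c * (Real.sqrt (nm b) : ℂ) := by
  rw [TC_mul_cube c hb, TC_sqfree hc]

theorem TC_mul {m n : O} (hm : Prim m) (hn : Prim n) (h : IsCoprime m n) :
    TC (m * n) = TC m * TC n * conj (cb m n) := by
  simp only [TC, cb_mul_right, tau0_mul hm hn h, map_mul]
  ring

theorem norm_TC_le (n : O) : ‖TC n‖ ≤ nm n ^ (1 / 6 : ℝ) := by
  rw [TC, RCLike.norm_conj, norm_mul]
  exact (mul_le_of_le_one_left (norm_nonneg _) (norm_cb_le _ _)).trans (norm_tau0_le n)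

theorem exists_of_TC_ne_zero {n : O} (h : TC n ≠ 0) : ∃ c b, PSq c ∧ Prim b ∧ n = c * b ^ 3 := by
  obtain ⟨c, b, h1, h2, h3, h4⟩ := exists_of_tau0_ne_zero (n := n) fun h0 => h (by simp [TC, h0])
  exact ⟨c, b, ⟨h1, h3⟩, h2, h4⟩

theorem f0_eq_zero {n : O} (h : ¬ PSq n) : f0 n = 0 := by simp [f0, h]

theorem norm_f0_le (n : O) : ‖f0 n‖ ≤ 3 := by
  by_cases h : PSq n
  · rw [f0, if_pos h]
    refine (norm_sub_le _ _).trans ?_
    rw [norm_GG h, Complex.norm_real, Real.norm_of_nonneg (mul_nonneg cP_pos.le (n6_nonneg n))]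
    linarith [mul_le_of_le_one_right cP_pos.le (n6_le_one n), cP_le]
  · rw [f0_eq_zero h, norm_zero]
    norm_num

open Classical in
theorem f0_mul {x b : O} (hx : PSq x) (hb : PSq b) :
    f0 (x * b) = GG x * (GG b * conj (cb x b)) -
      if IsCoprime b x then ((cP * n6 x * n6 b : ℝ) : ℂ) else 0 := by
  by_cases h : IsCoprime b x
  · rw [f0, if_pos ((psq_mul_iff hx.1 hb.1).2 ⟨hx, hb, h.symm⟩), if_pos h, GG_mul hx.1 hb.1 h.symm,
      n6_mul, mul_assoc, mul_assoc cP]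
  · rw [f0_eq_zero fun h' => h ((psq_mul_iff hx.1 hb.1).1 h').2.2.symm, if_neg h,
      cb_eq_zero_of_not_coprime fun h' => h h'.symm]
    simp

theorem bg_sum_f0 {γ : O → ℂ} {B X : ℝ} (hγ : Supp γ B X) {x : O} (hx : PSq x) :
    ∑ b ∈ ball X, γ b * f0 (x * b) = GG x * XG γ X x - ((cP * n6 x : ℝ) : ℂ) * YM γ X x := by
  rw [XG, YM, Finset.mul_sum, Finset.mul_sum, ← Finset.sum_sub_distrib]
  refine Finset.sum_congr rfl fun b _ => ?_
  by_cases h : γ b = 0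
  · simp [h]
  · rw [f0_mul hx (hγ b h).1]
    split_ifs
    · push_cast
      ring
    · ring

theorem sum_f0 {γ : O → ℂ} {B X : ℝ} (hγ : Supp γ B X) {x : O} (hx : PSq x) :
    ∑ b ∈ ball X, γ b * f0 (x * b) = GG x * (XG γ X x - Md γ X x) := by
  rw [bg_sum_f0 hγ hx, Md, TC_sqfree hx]
  linear_combination ((cP * n6 x : ℝ) : ℂ) * YM γ X x * GG_mul_conj hx

theorem sum_f0' {γ : O → ℂ} {B X : ℝ} (hγ : Supp γ B X) {x : O} (hx : PSq x) :
    ∑ b ∈ ball X, γ b * f0 (x * b) = GG x * XG γ X x - ((cP * n6 x : ℝ) : ℂ) * YM γ X x := by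
  exact bg_sum_f0 hγ hx

theorem bg_fac {h p : O} (hp : p ∈ pfs h) : 0 < 1 - (nm p)⁻¹ ∧ 1 - (nm p)⁻¹ ≤ 1 := by
  have h2 := two_le_nm (pra_of_mem_pfs hp).1
  have h3 : (nm p)⁻¹ ≤ 2⁻¹ := inv_anti₀ two_pos h2
  have h4 : 0 ≤ (nm p)⁻¹ := by positivity
  constructor <;> linarith

theorem Phi_pos (h : O) : 0 < Phi h := by
  exact Finset.prod_pos fun p hp => (bg_fac hp).1

theorem Phi_le_one (h : O) : Phi h ≤ 1 := by
  exact Finset.prod_le_one (fun p hp => (bg_fac hp).1.le) fun p hp => (bg_fac hp).2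

theorem Phi_eq_sum {h : O} (hh : h ≠ 0) : (Phi h : ℂ) = ∑ d ∈ pdiv h, mu d / (nm d : ℂ) := by
  have hr : rad h ≠ 0 := (prim_rad h).ne_zero
  rw [← Finset.sum_subset (s₁ := pdiv (rad h)) (fun d hd => (mem_pdiv hh).2
      ⟨(pra_of_mem_pdiv hd).1, (pra_of_mem_pdiv hd).2.trans (rad_dvd h)⟩) fun d hd h1 => ?_,
    sum_pdiv_sqfree (squarefree_rad h), pfs_rad, Phi]
  · push_cast
    simp only [sub_eq_add_neg]
    rw [Finset.prod_one_add]
    refine Finset.sum_congr rfl fun S hS => ?_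
    rw [prb_mu_prod fun p hp => ⟨(pra_of_mem_pfs (Finset.mem_powerset.1 hS hp)).1,
      (pra_of_mem_pfs (Finset.mem_powerset.1 hS hp)).2.1⟩, nm_prod, Finset.prod_neg,
      Finset.prod_inv_distrib, div_eq_mul_inv]
    push_cast
    rfl
  · obtain ⟨h2, h3⟩ := pra_of_mem_pdiv hd
    rw [mu_eq_zero.2 fun hs => h1 ((mem_pdiv hr).2 ⟨h2, ?_⟩), zero_div]
    rw [← h2.rad_eq hs]
    exact Finset.prod_dvd_prod_of_subset _ _ _ fun p hp => (mem_pfs hh).2
      ⟨(pra_of_mem_pfs hp).1, (pra_of_mem_pfs hp).2.1, (pra_of_mem_pfs hp).2.2.trans h3⟩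

theorem Phi_mul {a b : O} (ha : a ≠ 0) (hb : b ≠ 0) (h : IsCoprime a b) : Phi (a * b) = Phi a * Phi b := by
  classical
  rw [Phi, pfs_mul ha hb, Finset.prod_union (pfs_disjoint h), Phi, Phi]

theorem Phi_congr {a b : O} (ha : a ≠ 0) (hb : b ≠ 0) (h : ∀ p, Prime p → Prim p → (p ∣ a ↔ p ∣ b)) :
    Phi a = Phi b := by
  have : pfs a = pfs b := Finset.ext fun p => by
    rw [mem_pfs ha, mem_pfs hb]
    exact and_congr_right fun h1 => and_congr_right fun h2 => h p h1 h2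
  rw [Phi, this, Phi]

theorem Supp.mul {γ : O → ℂ} {B X : ℝ} (h : Supp γ B X) (w : O → ℂ) : Supp (fun b => γ b * w b) B X :=
  fun b hb => h b (left_ne_zero_of_mul hb)

theorem Dv.mul {k : ℕ} {γ : O → ℂ} (h : Dv k γ) {w : O → ℂ} (hw : ∀ b, ‖w b‖ ≤ 1) :
    Dv k fun b => γ b * w b := by
  intro b
  rw [norm_mul]
  exact (mul_le_of_le_one_right (norm_nonneg _) (hw b)).trans (h b)

theorem N2_nonneg (γ : O → ℂ) (X : ℝ) : 0 ≤ N2 γ X := Finset.sum_nonneg fun _ _ => by positivity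

theorem N2d_nonneg (γ : O → ℂ) (X : ℝ) : 0 ≤ N2d γ X := Finset.sum_nonneg fun _ _ => by positivity

theorem N2_le_N2d {γ : O → ℂ} {B X : ℝ} (h : Supp γ B X) : N2 γ X ≤ N2d γ X := by
  refine Finset.sum_le_sum fun b _ => ?_
  by_cases hb : γ b = 0
  · simp [hb]
  · refine le_mul_of_one_le_right (by positivity) (one_le_pow₀ ?_)
    have : 1 ≤ (pdiv b).card := Finset.card_pos.2
      ⟨1, (mem_pdiv (h b hb).1.ne_zero).2 ⟨Pr.one_mem, one_dvd _⟩⟩
    unfold dn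
    exact_mod_cast this

theorem gx_pos (κ : ℕ) (y x : ℝ) : 0 < gx κ y x := Real.exp_pos _

theorem gx_le_one (κ : ℕ) {y x : ℝ} (hy : 0 ≤ y) (hx : 0 ≤ x) : gx κ y x ≤ 1 := by
  exact Real.exp_le_one_iff.2 (neg_nonpos.2 (by positivity))

theorem gy_pos (κ : ℕ) (y : ℝ) (m : O) : 0 < gy κ y m := by
  exact Finset.prod_pos fun p _ => gx_pos κ y _

theorem gy_le_one (κ : ℕ) {y : ℝ} (hy : 0 ≤ y) (m : O) : gy κ y m ≤ 1 := by
  exact Finset.prod_le_one (fun p _ => (gx_pos κ y _).le) fun p _ => gx_le_one κ hy (nm_nonneg p)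

theorem gy_le_gx (κ : ℕ) {y : ℝ} (hy : 0 ≤ y) {m p : O} (hp : p ∈ pfs m) : gy κ y m ≤ gx κ y (nm p) := by
  classical
  rw [gy, ← Finset.mul_prod_erase _ _ hp]
  exact mul_le_of_le_one_right (gx_pos κ y _).le
    (Finset.prod_le_one (fun p _ => (gx_pos κ y _).le) fun p _ => gx_le_one κ hy (nm_nonneg p))

theorem gy_mul (κ : ℕ) (y : ℝ) {a b : O} (ha : a ≠ 0) (hb : b ≠ 0) (h : IsCoprime a b) :
    gy κ y (a * b) = gy κ y a * gy κ y b := by
  classical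
  rw [gy, pfs_mul ha hb, Finset.prod_union (pfs_disjoint h), gy, gy]

theorem gy_prime (κ : ℕ) (y : ℝ) {p : O} (hp : Prime p) (h : Prim p) : gy κ y p = gx κ y (nm p) := by
  rw [gy, pfs_prime hp h, Finset.prod_singleton]

end Crest.Agent.R12
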