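import Crest.Agent.R12.Base.G
import Crest.Agent.R12.SW.Cont

/-! Row 12, base: the lattice point count in a disc (tiling by rectangles) and its angular twist
(`T(x) = N(u) al(u)^l T(x / N u) + O(√x)` for `u = 3 + ω` and its conjugate). -/

set_option autoImplicit false

namespace Crest.Agent.R12

open Crest.Agent.R17 MeasureTheory
open scoped ComplexConjugate

/-- the rectangle attached to `x + y ω` -/
def bla_cell (p : ℤ × ℤ) : Set ℂ :=
  Complex.measurableEquivRealProd ⁻¹'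
    (Set.Ico ((p.1 : ℝ) - p.2 / 2) (p.1 - p.2 / 2 + 1) ×ˢ
      Set.Ico (p.2 * (Real.sqrt 3 / 2)) (p.2 * (Real.sqrt 3 / 2) + Real.sqrt 3 / 2))

theorem bla_mem {p : ℤ × ℤ} {z : ℂ} : z ∈ bla_cell p ↔
    ((p.1 : ℝ) - p.2 / 2 ≤ z.re ∧ z.re < p.1 - p.2 / 2 + 1) ∧
      (p.2 * (Real.sqrt 3 / 2) ≤ z.im ∧ z.im < p.2 * (Real.sqrt 3 / 2) + Real.sqrt 3 / 2) := Iff.rfl

theorem bla_meas (p : ℤ × ℤ) : MeasurableSet (bla_cell p) :=
  Complex.measurableEquivRealProd.measurable (measurableSet_Ico.prod measurableSet_Ico)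

theorem bla_vol (p : ℤ × ℤ) : volume (bla_cell p) = ENNReal.ofReal (Real.sqrt 3 / 2) := by
  rw [bla_cell, Complex.volume_preserving_equiv_real_prod.measure_preimage
    (measurableSet_Ico.prod measurableSet_Ico).nullMeasurableSet, Measure.volume_eq_prod,
    Measure.prod_prod, Real.volume_Ico, Real.volume_Ico]
  simp

theorem bla_cover (z : ℂ) : ∃ p, z ∈ bla_cell p := by
  have h : 0 < Real.sqrt 3 / 2 := by positivity
  refine ⟨(⌊z.re + (⌊z.im / (Real.sqrt 3 / 2)⌋ : ℝ) / 2⌋, ⌊z.im / (Real.sqrt 3 / 2)⌋), bla_mem.2 ?_⟩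
  have h1 := Int.floor_le (z.re + (⌊z.im / (Real.sqrt 3 / 2)⌋ : ℝ) / 2)
  have h2 := Int.lt_floor_add_one (z.re + (⌊z.im / (Real.sqrt 3 / 2)⌋ : ℝ) / 2)
  have h3 := (le_div_iff₀ h).1 (Int.floor_le (z.im / (Real.sqrt 3 / 2)))
  have h4 := (div_lt_iff₀ h).1 (Int.lt_floor_add_one (z.im / (Real.sqrt 3 / 2)))
  exact ⟨⟨by linarith, by linarith⟩, h3, by linarith⟩

theorem bla_disj {p q : ℤ × ℤ} {z : ℂ} (hp : z ∈ bla_cell p) (hq : z ∈ bla_cell q) : p = q := by
  have h : 0 < Real.sqrt 3 / 2 := by positivity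
  obtain ⟨⟨a1, a2⟩, a3, a4⟩ := bla_mem.1 hp
  obtain ⟨⟨b1, b2⟩, b3, b4⟩ := bla_mem.1 hq
  have h1 : (p.2 : ℝ) < q.2 + 1 := lt_of_mul_lt_mul_right (by linarith) h.le
  have h2 : (q.2 : ℝ) < p.2 + 1 := lt_of_mul_lt_mul_right (by linarith) h.le
  have h3 : p.2 < q.2 + 1 := by exact_mod_cast h1
  have h4 : q.2 < p.2 + 1 := by exact_mod_cast h2
  have h5 : p.2 = q.2 := by omega
  rw [h5] at a1 a2
  have h6 : (p.1 : ℝ) < q.1 + 1 := by linarith
  have h7 : (q.1 : ℝ) < p.1 + 1 := by linarith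
  have h8 : p.1 < q.1 + 1 := by exact_mod_cast h6
  have h9 : q.1 < p.1 + 1 := by exact_mod_cast h7
  exact Prod.ext (by omega) h5

theorem bla_near {p : ℤ × ℤ} {z : ℂ} (hp : z ∈ bla_cell p) : ‖z - sg (crd p)‖ ≤ 2 := by
  obtain ⟨⟨a1, a2⟩, a3, a4⟩ := bla_mem.1 hp
  have h : Real.sqrt 3 ≤ 2 := Real.sqrt_le_iff.2 ⟨by norm_num, by norm_num⟩
  refine (Complex.norm_le_abs_re_add_abs_im _).trans ?_
  rw [crd_apply, bsa_sg, Complex.sub_re, Complex.sub_im]
  dsimp only
  rw [abs_of_nonneg (by linarith), abs_of_nonneg (by linarith)]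
  linarith

theorem bla_volball {r : ℝ} (hr : 0 ≤ r) :
    volume.real (Metric.closedBall (0 : ℂ) r) = Real.pi * r ^ 2 := by
  rw [measureReal_def, Complex.volume_closedBall, ENNReal.toReal_mul, ENNReal.toReal_pow,
    ENNReal.toReal_ofReal hr, mul_comm]
  rfl

theorem bla_count {x : ℝ} (hx : 0 ≤ x) :
    |((ball x).card : ℝ) - 2 * Real.pi / Real.sqrt 3 * x| ≤ 20 * (Real.sqrt x + 1) := by
  set U : Set ℂ := ⋃ n ∈ ball x, bla_cell (crd.symm n) with hU
  have hs := Real.sqrt_nonneg x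
  have hs2 := Real.sq_sqrt hx
  have hvol : volume.real U = (ball x).card * (Real.sqrt 3 / 2) := by
    rw [hU, measureReal_biUnion_finset _ (fun n _ => bla_meas _)
      (fun n _ => by rw [bla_vol]; exact ENNReal.ofReal_ne_top)]
    · simp only [measureReal_def, bla_vol]
      rw [ENNReal.toReal_ofReal (by positivity), Finset.sum_const, nsmul_eq_mul]
    · intro n _ m _ hnm
      exact Set.disjoint_left.2 fun z h1 h2 => hnm (crd.symm.injective (bla_disj h1 h2))
  have hsub : U ⊆ Metric.closedBall 0 (Real.sqrt x + 2) := by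
    intro z hz
    obtain ⟨n, hn, hz⟩ := Set.mem_iUnion₂.1 hz
    have h1 := bla_near hz
    rw [Equiv.apply_symm_apply] at h1
    have h2 : ‖sg n‖ ≤ Real.sqrt x := by
      rw [norm_sg]
      exact Real.sqrt_le_sqrt (mem_ball.1 hn)
    rw [mem_closedBall_zero_iff]
    have := norm_add_le (z - sg n) (sg n)
    rw [sub_add_cancel] at this
    linarith
  have hsup : Metric.closedBall 0 (Real.sqrt x - 2) ⊆ U := by
    intro z hz
    obtain ⟨p, hp⟩ := bla_cover z
    refine Set.mem_iUnion₂.2 ⟨crd p, ?_, by rwa [Equiv.symm_apply_apply]⟩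
    have h1 := bla_near hp
    rw [mem_closedBall_zero_iff] at hz
    have h2 := norm_sub_le z (z - sg (crd p))
    rw [sub_sub_cancel] at h2
    rw [mem_ball, nm_eq, ← hs2]
    exact pow_le_pow_left₀ (norm_nonneg _) (by linarith) 2
  have hfin : volume (Metric.closedBall (0 : ℂ) (Real.sqrt x + 2)) ≠ ⊤ :=
    (isCompact_closedBall _ _).measure_lt_top.ne
  have h1 := measureReal_mono hsub hfin
  rw [hvol, bla_volball (by linarith)] at h1
  have h2 : Real.pi * (x - 4 * Real.sqrt x) ≤ (ball x).card * (Real.sqrt 3 / 2) := by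
    rcases le_total 2 (Real.sqrt x) with h | h
    · have h3 := measureReal_mono hsup (ne_top_of_le_ne_top hfin (measure_mono hsub))
      rw [hvol, bla_volball (by linarith)] at h3
      refine le_trans ?_ h3
      gcongr
      nlinarith
    · refine le_trans (mul_nonpos_of_nonneg_of_nonpos Real.pi_pos.le (by nlinarith)) (by positivity)
  have h3 : 0 < Real.sqrt 3 := by positivity
  have h4 : (1.7 : ℝ) ≤ Real.sqrt 3 := Real.le_sqrt_of_sq_le (by norm_num)
  have h5 := Real.pi_le_four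
  have h6 := Real.pi_pos
  have e : ((ball x).card : ℝ) - 2 * Real.pi / Real.sqrt 3 * x =
      ((ball x).card * (Real.sqrt 3 / 2) - Real.pi * x) / (Real.sqrt 3 / 2) := by
    field_simp
  rw [e, abs_div, abs_of_pos (by positivity : 0 < Real.sqrt 3 / 2), div_le_iff₀ (by positivity),
    abs_le]
  constructor <;> nlinarith

theorem bla_annulus (X H : ℝ) (S : Finset O) (hX : 0 ≤ X) (hH : 0 ≤ H)
    (hS : ∀ n ∈ S, X ≤ nm n ∧ nm n ≤ X + H) : (S.card : ℝ) ≤ 70 * (H + Real.sqrt X + 1) := by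
  classical
  have h3 : (1.7 : ℝ) ≤ Real.sqrt 3 := Real.le_sqrt_of_sq_le (by norm_num)
  have hc : 2 * Real.pi / Real.sqrt 3 ≤ 5 := by
    rw [div_le_iff₀ (by positivity)]
    linarith [Real.pi_le_four]
  have hc0 : 0 ≤ 2 * Real.pi / Real.sqrt 3 := by have := Real.pi_pos; positivity
  have h1 := (abs_le.1 (bla_count (x := X + H) (by linarith))).2
  have hs : Real.sqrt (X + H) ≤ Real.sqrt X + (H + 1) := by
    have := Real.sqrt_nonneg X
    refine Real.sqrt_le_iff.2 ⟨by positivity, ?_⟩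
    nlinarith [Real.sq_sqrt hX]
  have hs0 := Real.sqrt_nonneg X
  rcases le_total 1 X with h | h
  · have h2 := (abs_le.1 (bla_count (x := X - 1) (by linarith))).1
    have h4 : Real.sqrt (X - 1) ≤ Real.sqrt X := Real.sqrt_le_sqrt (by linarith)
    have h5 : S.card + (ball (X - 1)).card ≤ (ball (X + H)).card := by
      rw [← Finset.card_union_of_disjoint]
      · refine Finset.card_le_card (Finset.union_subset (fun n hn => mem_ball.2 (hS n hn).2)
          fun n hn => mem_ball.2 ((mem_ball.1 hn).trans (by linarith)))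
      · exact Finset.disjoint_left.2 fun n hn hn' => by linarith [(hS n hn).1, mem_ball.1 hn']
    have h6 : (S.card : ℝ) + (ball (X - 1)).card ≤ (ball (X + H)).card := by exact_mod_cast h5
    nlinarith
  · have h6 : (S.card : ℝ) ≤ (ball (X + H)).card := by
      exact_mod_cast Finset.card_le_card fun n hn => mem_ball.2 (hS n hn).2
    nlinarith

theorem bla_norm_le (n : O) (l : ℤ) : ‖al n ^ l‖ ≤ 1 := by
  by_cases hn : n = 0
  · rw [hn, al_zero]
    by_cases hl : l = 0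
    · simp [hl]
    · simp [zero_zpow l hl]
  · exact (SW.norm_al_zpow hn l).le

theorem bla_diff (l : ℤ) (r : O) {u m : O} (hu : u ≠ 0) (hm : m ≠ 0) :
    ‖al (r + u * m) ^ l - al (u * m) ^ l‖ ≤
      (2 * |(l : ℝ)| + 2) * ‖sg r‖ * nm m ^ (-(1 / 2) : ℝ) := by
  have hum : u * m ≠ 0 := mul_ne_zero hu hm
  have h0 : 0 < ‖sg m‖ := norm_pos_iff.2 fun h => hm (sg_eq_zero.1 h)
  have h1 : ‖sg m‖ ≤ ‖sg (u * m)‖ := by
    rw [map_mul, norm_mul]
    refine le_mul_of_one_le_left h0.le ?_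
    rw [norm_sg]
    exact Real.one_le_sqrt.2 (one_le_nm hu)
  have h2 : nm m ^ (-(1 / 2) : ℝ) = ‖sg m‖⁻¹ := by
    rw [Real.rpow_neg (nm_nonneg m), norm_sg, Real.sqrt_eq_rpow]
  rw [h2, ← div_eq_mul_inv]
  have hl := abs_nonneg (l : ℝ)
  have hr := norm_nonneg (sg r)
  by_cases h : r + u * m = 0
  · have h3 : ‖sg m‖ ≤ ‖sg r‖ := by
      rw [eq_neg_of_add_eq_zero_left h, map_neg, norm_neg]
      exact h1
    refine (norm_sub_le _ _).trans ?_
    rw [le_div_iff₀ h0]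
    have h4 := bla_norm_le (r + u * m) l
    have h5 := bla_norm_le (u * m) l
    nlinarith [mul_nonneg hl hr]
  · refine (SW.zpow_sub_le (norm_al h) (norm_al hum) l).trans ?_
    have h3 := SW.dir_sub_le (z := sg (u * m)) (w := sg (r + u * m))
      (fun e => hum (sg_eq_zero.1 e)) fun e => h (sg_eq_zero.1 e)
    rw [show sg (r + u * m) - sg (u * m) = sg r by rw [map_add, add_sub_cancel_right]] at h3
    calc _ ≤ |(l : ℝ)| * (2 * ‖sg r‖ / ‖sg m‖) := by
          refine mul_le_mul_of_nonneg_left (h3.trans ?_) hl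
          gcongr
      _ = 2 * |(l : ℝ)| * ‖sg r‖ / ‖sg m‖ := by ring
      _ ≤ _ := by gcongr; linarith

/-- the points whose norm is within `ρ` of `√x` -/
theorem bla_shell {u : O} (hu : u ≠ 0) {x ρ : ℝ} (hρ : 0 ≤ ρ) (S : Finset O)
    (hS : ∀ m ∈ S, Real.sqrt x - ρ ≤ ‖sg (u * m)‖ ∧ ‖sg (u * m)‖ ≤ Real.sqrt x + ρ) :
    (S.card : ℝ) ≤ 70 * (4 * ρ ^ 2 + 4 * ρ + 1) * (Real.sqrt x + 1) := by
  classical
  have hs := Real.sqrt_nonneg x
  set a := max (Real.sqrt x - ρ) 0 with ha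
  have ha0 : 0 ≤ a := le_max_right _ _
  have ha1 : Real.sqrt x - ρ ≤ a := le_max_left _ _
  have ha2 : a ≤ Real.sqrt x := max_le (by linarith) hs
  have h := bla_annulus (a ^ 2) ((a + 2 * ρ) ^ 2 - a ^ 2) (S.image (u * ·)) (by positivity)
    (by nlinarith) fun n hn => by
      obtain ⟨m, hm, rfl⟩ := Finset.mem_image.1 hn
      rw [nm_eq, add_sub_cancel]
      exact ⟨pow_le_pow_left₀ ha0 (max_le (hS m hm).1 (norm_nonneg _)) 2,
        pow_le_pow_left₀ (norm_nonneg _) (by linarith [(hS m hm).2]) 2⟩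
  rw [Finset.card_image_of_injective _ (mul_right_injective₀ hu), Real.sqrt_sq ha0] at h
  refine h.trans ?_
  nlinarith [mul_nonneg hρ (sub_nonneg.2 ha2), mul_nonneg (sq_nonneg ρ) hs]

/-- the twisted count of all lattice points -/
noncomputable def bla_T (l : ℤ) (x : ℝ) : ℂ := ∑ n ∈ ball x, al n ^ l

open Classical in
theorem bla_shift (l : ℤ) {u : O} (hu : u ≠ 0) (r : O) : ∃ C : ℝ, 0 < C ∧ ∀ x : ℝ, 0 ≤ x →
    ‖∑ n ∈ (ball x).filter (fun n => u ∣ n - r), al n ^ l - al u ^ l * bla_T l (x / nm u)‖ ≤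
      C * (Real.sqrt x + 1) := by
  obtain ⟨C, hC, hC'⟩ := sum_nm_rpow_le (σ := 1 / 2) (by norm_num)
  set ρ := ‖sg r‖ with hρ
  have hρ0 : 0 ≤ ρ := norm_nonneg _
  set K := (2 * |(l : ℝ)| + 2) * ρ with hK
  have hK0 : 0 ≤ K := by positivity
  refine ⟨K * C + 2 + 2 * (70 * (4 * ρ ^ 2 + 4 * ρ + 1)), by positivity, fun x hx => ?_⟩
  have hu0 := nm_pos hu
  have hu1 := one_le_nm hu
  have hs := Real.sqrt_nonneg x
  have hinj : Function.Injective fun m : O => r + u * m := fun a b h =>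
    mul_left_cancel₀ hu (add_left_cancel h)
  set A : Finset O := (ball x).preimage (fun m => r + u * m) hinj.injOn with hA
  set B : Finset O := ball (x / nm u) with hB
  have mA : ∀ m, m ∈ A ↔ ‖sg (r + u * m)‖ ≤ Real.sqrt x := fun m => by
    rw [hA, Finset.mem_preimage, mem_ball, norm_sg, Real.sqrt_le_sqrt_iff hx]
  have mB : ∀ m, m ∈ B ↔ ‖sg (u * m)‖ ≤ Real.sqrt x := fun m => by
    rw [hB, mem_ball, norm_sg, Real.sqrt_le_sqrt_iff hx, le_div_iff₀ hu0, nm_mul, mul_comm]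
  have e1 : ∑ n ∈ (ball x).filter (fun n => u ∣ n - r), al n ^ l =
      ∑ m ∈ A, al (r + u * m) ^ l := by
    symm
    refine Finset.sum_nbij (fun m => r + u * m) (fun m hm => ?_) hinj.injOn (fun n hn => ?_)
      fun _ _ => rfl
    · rw [hA, Finset.mem_preimage] at hm
      exact Finset.mem_filter.2 ⟨hm, m, by ring⟩
    · obtain ⟨h1, m, h2⟩ := Finset.mem_filter.1 hn
      have h3 : r + u * m = n := by rw [← h2]; ring
      exact ⟨m, Finset.mem_preimage.2 (by rw [h3]; exact h1), h3⟩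
  have e2 : al u ^ l * bla_T l (x / nm u) = ∑ m ∈ B, al (u * m) ^ l := by
    rw [bla_T, Finset.mul_sum]
    exact Finset.sum_congr rfl fun m _ => by rw [al_mul, mul_zpow]
  have e3 : ∑ m ∈ A, al (r + u * m) ^ l - ∑ m ∈ B, al (u * m) ^ l =
      ∑ m ∈ A ∩ B, (al (r + u * m) ^ l - al (u * m) ^ l) + ∑ m ∈ A \ B, al (r + u * m) ^ l -
        ∑ m ∈ B \ A, al (u * m) ^ l := by
    rw [← Finset.sum_inter_add_sum_sdiff A B, ← Finset.sum_inter_add_sum_sdiff B A,
      Finset.inter_comm B A, Finset.sum_sub_distrib]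
    ring
  have tri : ∀ m, ‖sg (u * m)‖ ≤ ‖sg (r + u * m)‖ + ρ ∧ ‖sg (r + u * m)‖ ≤ ‖sg (u * m)‖ + ρ :=
    fun m => by
      rw [map_add]
      have h1 := norm_add_le (sg r) (sg (u * m))
      have h2 := norm_sub_le (sg r + sg (u * m)) (sg r)
      rw [add_sub_cancel_left] at h2
      exact ⟨h2, by linarith⟩
  have b1 : ‖∑ m ∈ A \ B, al (r + u * m) ^ l‖ ≤
      70 * (4 * ρ ^ 2 + 4 * ρ + 1) * (Real.sqrt x + 1) := by
    refine (norm_sum_le_of_le _ fun m _ => bla_norm_le _ l).trans ?_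
    rw [Finset.sum_const, nsmul_eq_mul, mul_one]
    refine bla_shell hu hρ0 _ fun m hm => ?_
    obtain ⟨h1, h2⟩ := Finset.mem_sdiff.1 hm
    rw [mA] at h1
    rw [mB, not_le] at h2
    exact ⟨by linarith, by linarith [(tri m).1]⟩
  have b2 : ‖∑ m ∈ B \ A, al (u * m) ^ l‖ ≤
      70 * (4 * ρ ^ 2 + 4 * ρ + 1) * (Real.sqrt x + 1) := by
    refine (norm_sum_le_of_le _ fun m _ => bla_norm_le _ l).trans ?_
    rw [Finset.sum_const, nsmul_eq_mul, mul_one]
    refine bla_shell hu hρ0 _ fun m hm => ?_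
    obtain ⟨h1, h2⟩ := Finset.mem_sdiff.1 hm
    rw [mB] at h1
    rw [mA, not_le] at h2
    exact ⟨by linarith [(tri m).2], by linarith⟩
  have b3 : ‖∑ m ∈ A ∩ B, (al (r + u * m) ^ l - al (u * m) ^ l)‖ ≤ K * C * Real.sqrt x + 2 := by
    refine (norm_sum_le _ _).trans ?_
    have h1 : A ∩ B ⊆ insert 0 (B.erase 0) := fun m hm => by
      by_cases h : m = 0
      · simp [h]
      · simp [h, (Finset.mem_inter.1 hm).2]
    refine (Finset.sum_le_sum_of_subset_of_nonneg h1 fun _ _ _ => norm_nonneg _).trans ?_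
    rw [Finset.sum_insert (Finset.notMem_erase _ _)]
    have h2 := (norm_sub_le _ _).trans
      (add_le_add (bla_norm_le (r + u * 0) l) (bla_norm_le (u * 0) l))
    have h3 := Finset.sum_le_sum fun m (hm : m ∈ B.erase 0) =>
      bla_diff l r hu (Finset.ne_of_mem_erase hm)
    rw [← Finset.mul_sum] at h3
    have h4 := hC' x (B.erase 0) hx fun m hm => ⟨Finset.ne_of_mem_erase hm,
      (mem_ball.1 (Finset.mem_of_mem_erase hm)).trans (div_le_self hx hu1)⟩
    rw [show (1 : ℝ) - 1 / 2 = 1 / 2 by norm_num, ← Real.sqrt_eq_rpow] at h4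
    have h5 := mul_le_mul_of_nonneg_left h4 hK0
    linarith
  rw [e1, e2, e3]
  refine (norm_sub_le _ _).trans ((add_le_add_left (norm_add_le _ _) _).trans ?_)
  nlinarith [mul_nonneg hK0 hC.le]

theorem bla_rec (l : ℤ) {u : O} (hu : u ≠ 0) : ∃ C : ℝ, 0 < C ∧ ∀ x : ℝ, 0 ≤ x →
    ‖bla_T l x - nm u * (al u ^ l * bla_T l (x / nm u))‖ ≤ C * (Real.sqrt x + 1) := by
  classical
  have := finite_quot hu
  let _ := Fintype.ofFinite (O ⧸ Ideal.span {u})
  choose C hC hC' using fun ρ : O ⧸ Ideal.span {u} => bla_shift l hu (Quotient.out ρ)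
  refine ⟨∑ ρ, C ρ, Finset.sum_pos (fun ρ _ => hC ρ) Finset.univ_nonempty, fun x hx => ?_⟩
  have e1 : bla_T l x =
      ∑ ρ : O ⧸ Ideal.span {u}, ∑ n ∈ (ball x).filter (fun n => u ∣ n - Quotient.out ρ), al n ^ l := by
    rw [bla_T, ← Finset.sum_fiberwise (ball x) (Ideal.Quotient.mk (Ideal.span {u}))]
    refine Finset.sum_congr rfl fun ρ _ => Finset.sum_congr (Finset.filter_congr fun n _ => ?_)
      fun _ _ => rfl
    rw [← Ideal.mem_span_singleton, ← Ideal.Quotient.eq, Ideal.Quotient.mk_out]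
  have e2 : (nm u : ℂ) * (al u ^ l * bla_T l (x / nm u)) =
      ∑ _ρ : O ⧸ Ideal.span {u}, al u ^ l * bla_T l (x / nm u) := by
    rw [Finset.sum_const, Finset.card_univ, ← Nat.card_eq_fintype_card, card_quot, nsmul_eq_mul]
    simp [nm]
  rw [e2]
  conv_lhs => rw [e1, ← Finset.sum_sub_distrib]
  rw [Finset.sum_mul]
  exact norm_sum_le_of_le _ fun ρ _ => hC' ρ x hx

theorem bla_ne {l : ℤ} (hl : l ≠ 0) :
    al (((3 : ℤ) : O) + (1 : ℤ) * om) ^ l ≠ al (((2 : ℤ) : O) + (-1 : ℤ) * om) ^ l := by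
  set u : O := ((3 : ℤ) : O) + (1 : ℤ) * om with hu
  set v : O := ((2 : ℤ) : O) + (-1 : ℤ) * om with hv
  have nu : nN u = 7 := by have := nN_coord 3 1; rw [← hu] at this; omega
  have nv : nN v = 7 := by have := nN_coord 2 (-1); rw [← hv] at this; omega
  have hp : Prime u := prime_of_nN_prime (by rw [nu]; norm_num)
  have key : ∀ k : ℕ, k ≠ 0 → al u ^ k ≠ al v ^ k := fun k hk h => by
    have h1 : u ^ k = v ^ k := by
      apply sg_injective
      rw [map_pow, map_pow, sg_eq_al, sg_eq_al v, mul_pow, mul_pow, h, nm, nm, nu, nv]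
    have h2 : u ∣ v := hp.dvd_of_dvd_pow (h1 ▸ dvd_pow_self u hk)
    have h3 : u * v ∣ v * v := mul_dvd_mul_right h2 v
    have h4 : u * v = ((7 : ℤ) : O) := by
      rw [hu, hv]
      push_cast
      linear_combination (-1 : O) * om_sq
    have h5 : v * v = ((3 : ℤ) : O) + (-5 : ℤ) * om := by
      rw [hv]
      push_cast
      linear_combination om_sq
    rw [h4, h5, int_dvd_coord] at h3
    omega
  obtain ⟨k, rfl | rfl⟩ := l.eq_nat_or_neg
  · simpa using key k (by omega)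
  · simpa using key k (by omega)

theorem bla_T_le {l : ℤ} (hl : l ≠ 0) : ∃ C : ℝ, 0 < C ∧ ∀ x : ℝ, 0 ≤ x →
    ‖bla_T l x‖ ≤ C * (Real.sqrt x + 1) := by
  have hne := bla_ne hl
  set u : O := ((3 : ℤ) : O) + (1 : ℤ) * om with hu
  set v : O := ((2 : ℤ) : O) + (-1 : ℤ) * om with hv
  have nu : nm u = 7 := by rw [hu, nm_coord]; norm_num
  have nv : nm v = 7 := by rw [hv, nm_coord]; norm_num
  obtain ⟨C, hC, hC'⟩ := bla_rec l (u := u) fun h => by simp [h] at nu
  obtain ⟨D, hD, hD'⟩ := bla_rec l (u := v) fun h => by simp [h] at nv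
  have h0 : 0 < ‖al u ^ l - al v ^ l‖ := norm_pos_iff.2 (sub_ne_zero.2 hne)
  refine ⟨(C + D) / ‖al u ^ l - al v ^ l‖, by positivity, fun x hx => ?_⟩
  have h1 := hC' (x * 7) (by positivity)
  have h2 := hD' (x * 7) (by positivity)
  rw [nu, mul_div_cancel_right₀ x (by norm_num)] at h1
  rw [nv, mul_div_cancel_right₀ x (by norm_num)] at h2
  have h3 := (norm_sub_le _ _).trans (add_le_add h2 h1)
  rw [show bla_T l (x * 7) - ((7 : ℝ) : ℂ) * (al v ^ l * bla_T l x) -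
      (bla_T l (x * 7) - ((7 : ℝ) : ℂ) * (al u ^ l * bla_T l x)) =
      7 * ((al u ^ l - al v ^ l) * bla_T l x) by push_cast; ring, norm_mul, norm_mul] at h3
  have h4 : Real.sqrt (x * 7) ≤ 7 * Real.sqrt x :=
    Real.sqrt_le_iff.2 ⟨by positivity, by nlinarith [Real.sq_sqrt hx]⟩
  rw [div_mul_eq_mul_div, le_div_iff₀ h0]
  have h5 : ‖(7 : ℂ)‖ = 7 := by simp
  rw [h5] at h3
  nlinarith

open Classical in
theorem bla_lat (l : ℤ) : ∃ C : ℝ, 0 < C ∧ ∀ x : ℝ, 0 ≤ x →
    ‖∑ n ∈ pball x, al n ^ l - (if l = 0 then ((rho0 * x : ℝ) : ℂ) else 0)‖ ≤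
      C * (Real.sqrt x + 1) := by
  have n3 : nm (3 : O) = 9 := by have := nm_natCast 3; norm_num at this; exact this
  have h3 : (3 : O) ≠ 0 := fun h => by simp [h] at n3
  have a3 : al (3 : O) = 1 := by
    rw [al, map_ofNat]
    simp
  obtain ⟨C, hC, hC'⟩ := bla_shift l h3 1
  have key : ∃ D : ℝ, 0 < D ∧ ∀ x : ℝ, 0 ≤ x →
      ‖bla_T l (x / 9) - (if l = 0 then ((rho0 * x : ℝ) : ℂ) else 0)‖ ≤ D * (Real.sqrt x + 1) := by
    have hs : ∀ x : ℝ, 0 ≤ x → Real.sqrt (x / 9) ≤ Real.sqrt x := fun x hx =>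
      Real.sqrt_le_sqrt (by linarith)
    split_ifs with hl
    · refine ⟨20, by norm_num, fun x hx => ?_⟩
      have h := bla_count (x := x / 9) (by positivity)
      have e : bla_T l (x / 9) - ((rho0 * x : ℝ) : ℂ) =
          ((((ball (x / 9)).card : ℝ) - 2 * Real.pi / Real.sqrt 3 * (x / 9) : ℝ) : ℂ) := by
        rw [bla_T, hl, Complex.ofReal_sub]
        congr 1
        · simp
        · rw [rho0]
          congr 1
          ring
      rw [e, Complex.norm_real, Real.norm_eq_abs]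
      linarith [hs x hx]
    · obtain ⟨D, hD, hD'⟩ := bla_T_le hl
      refine ⟨D, hD, fun x hx => ?_⟩
      rw [sub_zero]
      exact (hD' _ (by positivity)).trans (by have := hs x hx; gcongr)
  obtain ⟨D, hD, hD'⟩ := key
  refine ⟨C + D, by positivity, fun x hx => ?_⟩
  have h1 := hC' x hx
  rw [n3, a3, one_zpow, one_mul] at h1
  have h2 := (norm_add_le _ _).trans (add_le_add h1 (hD' x hx))
  rw [sub_add_sub_cancel, ← add_mul] at h2
  have e : pball x = (ball x).filter fun n => (3 : O) ∣ n - 1 := by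
    ext n
    rw [mem_pball, Finset.mem_filter, mem_ball, Prim]
  rw [e]
  exact h2

end Crest.Agent.R12
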