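import Crest.Agent.R12.Base.G
import Crest.Agent.R12.Base.LatA

/-! Row 12, base: lattice point counts with an angular twist, sums of the weight `LW`, plain sums with
a coprimality mask.  Prefix for helper lemmas: `bl_`. -/

set_option autoImplicit false

namespace Crest.Agent.R12

open Crest.Agent.R17
open scoped ComplexConjugate

/-- `l = 0`: count `1 + 3 (x + y ω)` row by row (each row is an interval).  `l ≠ 0`: `6 ∣ l` is not
needed; compare `al (1 + 3 m) ^ l` with `al m ^ l` (difference `≤ C |l| / |m|`) is NOT enough when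
`6 ∣ l`; compare the sum with the integral of `z ↦ (z/|z|)^l` over the disc (zero by rotation): each
cell contributes an error `≤ C |l| / |n|`, the boundary cells `C √x`.  An integral-free proof: count
lattice points in thin sectors, or sum over rows with Abel summation. -/
theorem lat_count (l : ℤ) : ∃ C : ℝ, 0 < C ∧ ∀ x : ℝ, 0 ≤ x →
    ‖∑ n ∈ pball x, al n ^ l - (if l = 0 then ((rho0 * x : ℝ) : ℂ) else 0)‖ ≤ C * (Real.sqrt x + 1) := by
  exact bla_lat l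

/-- lattice points in an annulus -/
theorem card_annulus_le : ∃ C : ℝ, 0 < C ∧ ∀ (X H : ℝ) (S : Finset O), 0 ≤ X → 0 ≤ H →
    (∀ n ∈ S, X ≤ nm n ∧ nm n ≤ X + H) → (S.card : ℝ) ≤ C * (H + Real.sqrt X + 1) := by
  exact ⟨70, by norm_num, bla_annulus⟩

theorem blb_LW_le_rpow {a Y x : ℝ} (ha : 0 < a) (hY : 0 < Y) (hx : 0 < x) (σ : ℝ) :
    LW a Y x ≤ Real.exp (a ^ 2 * σ ^ 2 / 2) * Y ^ σ * x ^ (-σ) := by
  rw [← norm_LN_eq_LW a Y 0 x]
  exact norm_LN_le_rpow ha hY hx 0 σ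

theorem summable_LW {a Y : ℝ} (ha : 0 < a) (hY : 0 < Y) (θ : ℝ) :
    Summable fun n : O => nm n ^ θ * LW a Y (nm n) := by
  refine Summable.of_norm_bounded_eventually
    ((summable_nm_rpow (σ := 2) one_lt_two).mul_left (Real.exp (a ^ 2 * (θ + 2) ^ 2 / 2) * Y ^ (θ + 2))) ?_
  filter_upwards [Filter.eventually_cofinite_ne (0 : O)] with n hn
  have hp := nm_pos hn
  rw [Real.norm_of_nonneg (mul_nonneg (Real.rpow_nonneg hp.le _) (LW_pos _ _ _).le)]
  refine (mul_le_mul_of_nonneg_left (blb_LW_le_rpow ha hY hp (θ + 2)) (Real.rpow_nonneg hp.le _)).trans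
    (le_of_eq ?_)
  rw [mul_left_comm, ← Real.rpow_add hp]
  congr 2
  ring

theorem summable_LW_pr {a Y : ℝ} (ha : 0 < a) (hY : 0 < Y) {f : O → ℂ} {M θ : ℝ}
    (hf : ∀ n, Prim n → ‖f n‖ ≤ M * nm n ^ θ) : Summable fun n : Pr => ‖f n * (LW a Y (nm n) : ℂ)‖ := by
  refine Summable.of_nonneg_of_le (fun _ => norm_nonneg _) (fun n => ?_)
    (((summable_LW ha hY θ).comp_injective (Subtype.val_injective (p := fun n => n ∈ Pr))).mul_left M)
  rw [norm_mul, Complex.norm_real, Real.norm_of_nonneg (LW_pos _ _ _).le, Function.comp_apply, ← mul_assoc]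
  exact mul_le_mul_of_nonneg_right (hf n n.2) (LW_pos _ _ _).le

theorem blb_exp_sub {s : ℝ} : Real.exp s - Real.exp (-s) ≤ 2 * s * Real.exp s := by
  have h1 : Real.exp (-s) = Real.exp s * Real.exp (-(2 * s)) := by
    rw [← Real.exp_add]; congr 1; ring
  have h2 := Real.add_one_le_exp (-(2 * s))
  have h3 := Real.exp_pos s
  rw [h1]
  nlinarith

theorem blb_geom (j : ℕ) :
    ((j : ℝ) + 1) * Real.exp (2 * (j + 1)) * Real.exp (-((j : ℝ) ^ 2 / 2)) ≤ Real.exp 10 * (1 / 2) ^ j := by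
  have h1 : (j : ℝ) + 1 ≤ Real.exp j := Real.add_one_le_exp _
  have h2 : Real.exp (-(j : ℝ)) ≤ (1 / 2) ^ j := by
    rw [show -(j : ℝ) = j * (-1) by ring, Real.exp_nat_mul]
    refine pow_le_pow_left₀ (Real.exp_pos _).le ?_ j
    rw [Real.exp_neg, one_div]
    exact inv_anti₀ two_pos (by have := Real.add_one_le_exp (1 : ℝ); linarith)
  calc ((j : ℝ) + 1) * Real.exp (2 * (j + 1)) * Real.exp (-((j : ℝ) ^ 2 / 2))
      ≤ Real.exp j * Real.exp (2 * (j + 1)) * Real.exp (-((j : ℝ) ^ 2 / 2)) := by gcongr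
    _ ≤ Real.exp 10 * Real.exp (-(j : ℝ)) := by
        rw [← Real.exp_add, ← Real.exp_add, ← Real.exp_add, Real.exp_le_exp]
        nlinarith [sq_nonneg ((j : ℝ) - 4)]
    _ ≤ _ := by gcongr

theorem blb_large : ∃ C : ℝ, 0 < C ∧ ∀ (a Y : ℝ) (S : Finset O), 0 < a → a ≤ 2 → 1 ≤ Y →
    (∀ n ∈ S, n ≠ 0) → ∑ n ∈ S, LW a Y (nm n) ≤ C * (a * Y + Real.sqrt Y) := by
  classical
  obtain ⟨C, hC, hcount⟩ := card_annulus_le
  refine ⟨4 * C * Real.exp 10, by positivity, fun a Y S ha ha2 hY1 hS => ?_⟩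
  have hY : 0 < Y := by linarith
  have hsq : 1 ≤ Real.sqrt Y := Real.one_le_sqrt.2 hY1
  set k : O → ℕ := fun n => ⌊|Real.log (nm n / Y)| / a⌋₊ with hk
  have hk1 : ∀ n, LW a Y (nm n) ≤ Real.exp (-((k n : ℝ) ^ 2 / 2)) := fun n => by
    have h1 : (k n : ℝ) ≤ |Real.log (nm n / Y)| / a := Nat.floor_le (by positivity)
    have h2 : (k n : ℝ) ^ 2 ≤ (|Real.log (nm n / Y)| / a) ^ 2 := pow_le_pow_left₀ (Nat.cast_nonneg _) h1 2
    rw [div_pow, sq_abs] at h2
    rw [LW, Real.exp_le_exp, neg_le_neg_iff, mul_comm 2, ← div_div]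
    linarith
  have hk2 : ∀ n, n ≠ 0 → Y * Real.exp (-((k n + 1) * a)) ≤ nm n ∧ nm n ≤ Y * Real.exp ((k n + 1) * a) :=
    fun n hn => by
      have h1 : |Real.log (nm n / Y)| / a < k n + 1 := Nat.lt_floor_add_one _
      rw [div_lt_iff₀ ha, abs_lt] at h1
      have hp := div_pos (nm_pos hn) hY
      have e : nm n = Y * Real.exp (Real.log (nm n / Y)) := by
        rw [Real.exp_log hp]; field_simp
      constructor
      · rw [e]; gcongr; exact h1.1.le
      · rw [e]; gcongr; exact h1.2.le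
  calc ∑ n ∈ S, LW a Y (nm n) ≤ ∑ n ∈ S, Real.exp (-((k n : ℝ) ^ 2 / 2)) := Finset.sum_le_sum fun n _ => hk1 n
    _ = ∑ j ∈ S.image k, ((S.filter fun n => k n = j).card : ℝ) * Real.exp (-((j : ℝ) ^ 2 / 2)) := by
        rw [Finset.sum_comp (fun j : ℕ => Real.exp (-((j : ℝ) ^ 2 / 2))) k]
        simp only [nsmul_eq_mul]
    _ ≤ ∑ j ∈ S.image k, (2 * C * Real.exp 10 * (a * Y + Real.sqrt Y)) * (1 / 2 : ℝ) ^ j := by
        refine Finset.sum_le_sum fun j _ => ?_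
        set s : ℝ := (j + 1) * a with hs
        have hs0 : 0 ≤ s := by positivity
        have he : Real.exp (-s) ≤ Real.exp s := Real.exp_le_exp.2 (by linarith)
        have h1 := hcount (Y * Real.exp (-s)) (Y * (Real.exp s - Real.exp (-s))) (S.filter fun n => k n = j)
          (by positivity) (mul_nonneg hY.le (sub_nonneg.2 he)) (by
            intro n hn
            rw [Finset.mem_filter] at hn
            have := hk2 n (hS n hn.1)
            rw [hn.2] at this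
            exact ⟨this.1, this.2.trans (le_of_eq (by ring))⟩)
        have h2 : Real.sqrt (Y * Real.exp (-s)) ≤ Real.sqrt Y :=
          Real.sqrt_le_sqrt (mul_le_of_le_one_right hY.le (Real.exp_le_one_iff.2 (by linarith)))
        have h3 : Real.exp s ≤ Real.exp (2 * (j + 1)) := Real.exp_le_exp.2 (by
          rw [hs, mul_comm 2]; gcongr)
        have h4 : (1 : ℝ) ≤ ((j : ℝ) + 1) * Real.exp (2 * (j + 1)) :=
          one_le_mul_of_one_le_of_one_le (by linarith [Nat.cast_nonneg (α := ℝ) j])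
            (Real.one_le_exp (by positivity))
        have h5 : Y * (Real.exp s - Real.exp (-s)) ≤ 2 * (a * Y) * (((j : ℝ) + 1) * Real.exp (2 * (j + 1))) := by
          calc Y * (Real.exp s - Real.exp (-s)) ≤ Y * (2 * s * Real.exp s) :=
                mul_le_mul_of_nonneg_left blb_exp_sub hY.le
            _ ≤ Y * (2 * s * Real.exp (2 * (j + 1))) := by gcongr
            _ = _ := by rw [hs]; ring
        have h6 : Y * (Real.exp s - Real.exp (-s)) + Real.sqrt (Y * Real.exp (-s)) + 1 ≤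
            2 * (a * Y + Real.sqrt Y) * (((j : ℝ) + 1) * Real.exp (2 * (j + 1))) := by
          nlinarith [mul_le_mul_of_nonneg_left h4 (Real.sqrt_nonneg Y)]
        calc ((S.filter fun n => k n = j).card : ℝ) * Real.exp (-((j : ℝ) ^ 2 / 2))
            ≤ C * (2 * (a * Y + Real.sqrt Y) * (((j : ℝ) + 1) * Real.exp (2 * (j + 1)))) *
                Real.exp (-((j : ℝ) ^ 2 / 2)) :=
              mul_le_mul_of_nonneg_right (h1.trans (mul_le_mul_of_nonneg_left h6 hC.le)) (Real.exp_pos _).le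
          _ = 2 * C * (a * Y + Real.sqrt Y) *
                (((j : ℝ) + 1) * Real.exp (2 * (j + 1)) * Real.exp (-((j : ℝ) ^ 2 / 2))) := by ring
          _ ≤ 2 * C * (a * Y + Real.sqrt Y) * (Real.exp 10 * (1 / 2) ^ j) :=
              mul_le_mul_of_nonneg_left (blb_geom j) (by positivity)
          _ = _ := by ring
    _ = (2 * C * Real.exp 10 * (a * Y + Real.sqrt Y)) * ∑ j ∈ S.image k, (1 / 2 : ℝ) ^ j := by
        rw [Finset.mul_sum]
    _ ≤ (2 * C * Real.exp 10 * (a * Y + Real.sqrt Y)) * 2 := by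
        refine mul_le_mul_of_nonneg_left ?_ (by positivity)
        have := summable_geometric_two.sum_le_tsum (S.image k) (fun j _ => by positivity)
        rwa [tsum_geometric_two] at this
    _ = _ := by ring

/-- cut into annuli `|log (N n / Y)| ∈ [j a, (j+1) a]`; for `Y ≤ 1` use `norm_LN_le_rpow` -/
theorem sum_LW_le : ∃ C : ℝ, 0 < C ∧ ∀ (a Y : ℝ) (S : Finset O), 0 < a → a ≤ 2 → 0 < Y →
    (∀ n ∈ S, n ≠ 0) → ∑ n ∈ S, LW a Y (nm n) ≤ C * (a * Y + Real.sqrt Y) := by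
  obtain ⟨C, hC, H⟩ := blb_large
  have hs := summable_nm_rpow (σ := 2) one_lt_two
  have h0 : ∀ n : O, 0 ≤ nm n ^ (-(2 : ℝ)) := fun n => Real.rpow_nonneg (nm_nonneg n) _
  set ζ : ℝ := ∑' n : O, nm n ^ (-(2 : ℝ)) with hζ
  have hζ0 : 0 ≤ ζ := tsum_nonneg h0
  refine ⟨C + Real.exp 8 * ζ, by positivity, fun a Y S ha ha2 hY hS => ?_⟩
  have hp : 0 ≤ a * Y + Real.sqrt Y := by positivity
  rcases le_total 1 Y with h | h
  · exact (H a Y S ha ha2 h hS).trans (mul_le_mul_of_nonneg_right (le_add_of_nonneg_right (by positivity)) hp)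
  · have h1 : Y ^ (2 : ℝ) ≤ Real.sqrt Y := by
      rw [Real.sqrt_eq_rpow]
      exact Real.rpow_le_rpow_of_exponent_ge hY h (by norm_num)
    calc ∑ n ∈ S, LW a Y (nm n) ≤ ∑ n ∈ S, Real.exp 8 * Real.sqrt Y * nm n ^ (-(2 : ℝ)) := by
          refine Finset.sum_le_sum fun n hn => (blb_LW_le_rpow ha hY (nm_pos (hS n hn)) 2).trans ?_
          refine mul_le_mul_of_nonneg_right (mul_le_mul (Real.exp_le_exp.2 ?_) h1 (by positivity)
            (Real.exp_pos _).le) (h0 n)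
          nlinarith
      _ ≤ Real.exp 8 * Real.sqrt Y * ζ := by
          rw [← Finset.mul_sum]
          exact mul_le_mul_of_nonneg_left (hs.sum_le_tsum S fun n _ => h0 n) (by positivity)
      _ = Real.exp 8 * ζ * Real.sqrt Y := by ring
      _ ≤ _ := mul_le_mul (le_add_of_nonneg_left hC.le) (le_add_of_nonneg_left (by positivity))
          (Real.sqrt_nonneg _) (by positivity)

theorem sum_LW_dvd_le : ∃ C : ℝ, 0 < C ∧ ∀ (a Y : ℝ) (d : O) (S : Finset O), 0 < a → a ≤ 2 → 0 < Y →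
    (∀ n ∈ S, n ≠ 0 ∧ d ∣ n) → ∑ n ∈ S, LW a Y (nm n) ≤ C * (a * Y / nm d + Real.sqrt (Y / nm d)) := by
  classical
  obtain ⟨C, hC, H⟩ := sum_LW_le
  refine ⟨C, hC, fun a Y d S ha ha2 hY hS => ?_⟩
  by_cases hd : d = 0
  · have : S = ∅ := Finset.eq_empty_of_forall_notMem fun n hn =>
      (hS n hn).1 (zero_dvd_iff.1 (hd ▸ (hS n hn).2))
    rw [this, Finset.sum_empty]
    have := nm_nonneg d
    positivity
  have hinj : Set.InjOn (fun m : O => d * m) ((fun m : O => d * m) ⁻¹' (S : Set O)) :=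
    (mul_right_injective₀ hd).injOn
  have e : ∑ n ∈ S, LW a Y (nm n) = ∑ m ∈ S.preimage (fun m => d * m) hinj, LW a (Y / nm d) (nm m) := by
    rw [← Finset.sum_preimage (fun m => d * m) S hinj (fun n => LW a Y (nm n))
      (fun n hn h => absurd (by obtain ⟨m, hm⟩ := (hS n hn).2; exact ⟨m, hm.symm⟩) h)]
    exact Finset.sum_congr rfl fun m _ => by rw [nm_mul, LW_mul_arg]
  rw [e, mul_div_assoc]
  refine H a (Y / nm d) _ ha ha2 (div_pos hY (nm_pos hd)) fun m hm h0 => ?_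
  rw [Finset.mem_preimage, h0, mul_zero] at hm
  exact (hS 0 hm).1 rfl

theorem tsum_LW_le : ∃ C : ℝ, 0 < C ∧ ∀ a Y : ℝ, 0 < a → a ≤ 2 → 0 < Y →
    ∑' n : Pr, LW a Y (nm n) ≤ C * (a * Y + Real.sqrt Y) := by
  obtain ⟨C, hC, H⟩ := sum_LW_le
  refine ⟨C, hC, fun a Y ha ha2 hY => ?_⟩
  have := (sob_cmp (φ := fun n : Pr => (n : O)) Subtype.val_injective (f := fun n => LW a Y (nm n))
    (g := fun n => LW a Y (nm n)) zero_le_one (fun n => (LW_pos _ _ _).le)
    (fun n h => absurd h (Prim.ne_zero n.2)) (fun n _ => (one_mul _).ge) fun S hS => H a Y S ha ha2 hY hS).2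
  rwa [one_mul] at this

/-- pointwise tail -/
theorem LW_small (J ε : ℝ) (hε : 0 < ε) : ∃ C : ℝ, 0 < C ∧ ∀ a Y Z x : ℝ, 0 < a → a ≤ 2 → 1 ≤ Z →
    0 < Y → 0 < x → (x ≤ Y * Z ^ (-ε) ∨ Y * Z ^ ε ≤ x) → LW a Y x ≤ C * Z ^ (-J) := by
  obtain ⟨C, hC, H⟩ := exp_neg_log_sq_le (c := ε ^ 2 / 8) (by positivity) J
  refine ⟨C, hC, fun a Y Z x ha ha2 hZ hY hx h => ?_⟩
  have hZ0 : 0 < Z := by linarith
  have hL : 0 ≤ Real.log Z := Real.log_nonneg hZ
  have h1 : ε * Real.log Z ≤ |Real.log (x / Y)| := by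
    rcases h with h | h
    · have : Real.log (x / Y) ≤ -(ε * Real.log Z) := by
        rw [← neg_mul, ← Real.log_rpow hZ0]
        refine Real.log_le_log (by positivity) ?_
        rw [div_le_iff₀ hY]; linarith
      exact le_abs.2 (Or.inr (by linarith))
    · have : ε * Real.log Z ≤ Real.log (x / Y) := by
        rw [← Real.log_rpow hZ0]
        refine Real.log_le_log (by positivity) ?_
        rw [le_div_iff₀ hY]; linarith
      exact le_abs.2 (Or.inl this)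
  have h2 : (ε * Real.log Z) ^ 2 ≤ Real.log (x / Y) ^ 2 := by
    rw [← sq_abs (Real.log (x / Y))]
    exact pow_le_pow_left₀ (by positivity) h1 2
  refine (LW_mono ha ha2 Y x).trans (le_trans ?_ (H Z hZ0))
  rw [LW, Real.exp_le_exp]
  nlinarith

/-- summed tail -/
theorem LW_tail (θ J ε : ℝ) (hε : 0 < ε) : ∃ C : ℝ, 0 < C ∧ ∀ (a Y Z : ℝ) (S : Finset O), 0 < a → a ≤ 2 →
    1 ≤ Z → 0 < Y → Y ≤ Z → (∀ n ∈ S, n ≠ 0 ∧ (nm n ≤ Y * Z ^ (-ε) ∨ Y * Z ^ ε ≤ nm n)) →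
    ∑ n ∈ S, nm n ^ |θ| * LW a Y (nm n) ≤ C * Z ^ (-J) := by
  obtain ⟨C, hC, H⟩ := sum_LN_O_negl (a := 2) two_pos hε |θ| (J + (|θ| + 1))
  refine ⟨C, hC, fun a Y Z S ha ha2 hZ hY hYZ hS => ?_⟩
  have hZ0 : 0 < Z := by linarith
  have hn : ∀ n : O, ‖((nm n ^ |θ| : ℝ) : ℂ)‖ = nm n ^ |θ| := fun n => by
    rw [Complex.norm_real, Real.norm_of_nonneg (Real.rpow_nonneg (nm_nonneg n) _)]
  have h1 := H (ι := S) (fun n => (n : O)) (fun n => ((nm n ^ |θ| : ℝ) : ℂ)) 1 Y 0 Z Subtype.val_injective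
    (fun n h => absurd h (hS n n.2).1) (fun n _ => by rw [hn, one_mul]) zero_le_one hY hZ
    (fun n _ => (hS n n.2).2)
  rw [Finset.tsum_subtype S fun n => ‖((nm n ^ |θ| : ℝ) : ℂ) * LN 2 Y 0 (nm n)‖] at h1
  calc ∑ n ∈ S, nm n ^ |θ| * LW a Y (nm n) ≤ ∑ n ∈ S, ‖((nm n ^ |θ| : ℝ) : ℂ) * LN 2 Y 0 (nm n)‖ := by
        refine Finset.sum_le_sum fun n _ => ?_
        rw [norm_mul, hn, norm_LN_eq_LW]
        exact mul_le_mul_of_nonneg_left (LW_mono ha ha2 _ _) (Real.rpow_nonneg (nm_nonneg n) _)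
    _ ≤ C * 1 * Y ^ (|θ| + 1) * Z ^ (-(J + (|θ| + 1))) := h1
    _ ≤ C * 1 * Z ^ (|θ| + 1) * Z ^ (-(J + (|θ| + 1))) := by gcongr
    _ = C * Z ^ (-J) := by
        rw [mul_one, mul_assoc, ← Real.rpow_add hZ0]
        congr 2
        ring

/-- cutting an infinite sum at `X ≥ Y Z^ε` -/
theorem tsum_cut (θ J ε : ℝ) (hε : 0 < ε) : ∃ C : ℝ, 0 < C ∧ ∀ (a Y Z X M : ℝ) (f : O → ℂ), 0 < a → a ≤ 2 →
    1 ≤ Z → 0 < Y → Y ≤ Z → Y * Z ^ ε ≤ X → 0 ≤ M → (∀ n, Prim n → ‖f n‖ ≤ M * nm n ^ |θ| * LW a Y (nm n)) →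
    ‖∑' n : Pr, f n - ∑ n ∈ pball X, f n‖ ≤ C * M * Z ^ (-J) := by
  classical
  obtain ⟨C, hC, H⟩ := LW_tail θ J ε hε
  refine ⟨C, hC, fun a Y Z X M f ha ha2 hZ hY hYZ hX hM hf => ?_⟩
  have hs : Summable fun n : Pr => f n := by
    refine Summable.of_norm_bounded
      (((summable_LW ha hY |θ|).comp_injective (Subtype.val_injective (p := fun n => n ∈ Pr))).mul_left M)
      fun n => ?_
    rw [Function.comp_apply, ← mul_assoc]
    exact hf n n.2
  set T : Finset Pr := (pball X).subtype fun n => n ∈ Pr with hT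
  have e1 : ∑ n ∈ pball X, f n = ∑ n ∈ T, f n :=
    (Finset.sum_subtype_of_mem f fun n hn => (mem_pball.1 hn).2).symm
  rw [e1, ← hs.sum_add_tsum_compl (s := T), add_sub_cancel_left]
  have h1 := sob_cmp (ι := ↑((T : Set Pr)ᶜ)) (φ := fun n => ((n : Pr) : O))
    (Subtype.val_injective.comp Subtype.val_injective) (f := fun n => ‖f (n : Pr)‖)
    (g := fun n => if Y * Z ^ ε ≤ nm n then nm n ^ |θ| * LW a Y (nm n) else 0) (B := C * Z ^ (-J)) hM
    (fun n => norm_nonneg _) (fun n h => absurd h (Prim.ne_zero n.1.2)) (fun n _ => by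
      have h2 : ¬ nm ((n : Pr) : O) ≤ X := fun h =>
        n.2 (Finset.mem_coe.2 (Finset.mem_subtype.2 (mem_pball.2 ⟨h, n.1.2⟩)))
      rw [if_pos (hX.trans (not_le.1 h2).le), ← mul_assoc]
      exact hf _ n.1.2) (fun S hS => by
      rw [← Finset.sum_filter]
      exact H a Y Z _ ha ha2 hZ hY hYZ fun n hn =>
        ⟨hS n (Finset.mem_filter.1 hn).1, .inr (Finset.mem_filter.1 hn).2⟩)
  exact (norm_tsum_le_tsum_norm h1.1).trans (h1.2.trans (le_of_eq (by ring)))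

section Plain
open Complex MeasureTheory Filter Set

/-- the Gaussian with a linear phase -/
noncomputable def blc_E (c : ℂ) (v : ℝ) : ℂ := cexp (-(1 / (2 * ((1 : ℝ) : ℂ) ^ 2)) * v ^ 2 + c * v + 0)

/-- the dominating function -/
noncomputable def blc_g (A v : ℝ) : ℝ := Real.exp (-(1 / 2) * (v - 0) ^ 2) * Real.exp (A * |v|)

theorem blc_g_int (A : ℝ) : Integrable (blc_g A) := integrable_gauss_exp (by norm_num) A 0

theorem blc_g_pos (A v : ℝ) : 0 < blc_g A v := mul_pos (Real.exp_pos _) (Real.exp_pos _)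

theorem blc_deriv (c : ℂ) (v : ℝ) : HasDerivAt (blc_E c) ((-v + c) * blc_E c v) v := by
  have h1 : HasDerivAt (fun z : ℂ => -(1 / (2 * ((1 : ℝ) : ℂ) ^ 2)) * z ^ 2 + c * z + 0) (-v + c) v := by
    refine ((((hasDerivAt_pow 2 (v : ℂ)).const_mul (-(1 / (2 * ((1 : ℝ) : ℂ) ^ 2)))).fun_add
      ((hasDerivAt_id' (v : ℂ)).const_mul c)).add_const 0).congr_deriv ?_
    push_cast
    ring
  rw [mul_comm]
  exact h1.cexp.comp_ofReal

theorem blc_bound (w c : ℂ) {A B : ℝ} (v : ℝ) (h : 1 + |B| + |c.re| ≤ A) :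
    Real.exp (B * v) * ‖(-v + w) * blc_E c v‖ ≤ (1 + ‖w‖) * blc_g A v := by
  have h1 : ‖-(v : ℂ) + w‖ ≤ (1 + ‖w‖) * Real.exp |v| := by
    refine (norm_add_le _ _).trans ?_
    rw [norm_neg, norm_real, Real.norm_eq_abs]
    nlinarith [Real.add_one_le_exp |v|, norm_nonneg w, abs_nonneg v]
  have h2 : ‖blc_E c v‖ = Real.exp (-(1 / 2) * (v - 0) ^ 2 + c.re * v) := by
    rw [blc_E, norm_exp]
    congr 1
    simp [← ofReal_pow]
  rw [norm_mul, h2, blc_g, ← Real.exp_add]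
  refine (mul_le_mul_of_nonneg_left (mul_le_mul_of_nonneg_right h1 (Real.exp_pos _).le)
    (Real.exp_pos _).le).trans ?_
  rw [mul_assoc, mul_left_comm, ← Real.exp_add, ← Real.exp_add]
  refine mul_le_mul_of_nonneg_left (Real.exp_le_exp.2 ?_) (by positivity)
  have h3 := le_abs_self (B * v)
  have h4 := le_abs_self (c.re * v)
  rw [abs_mul] at h3 h4
  nlinarith [abs_nonneg v]

theorem blc_int (w c : ℂ) : Integrable fun v : ℝ => (-v + w) * blc_E c v := by
  refine ((blc_g_int (1 + |0| + |c.re|)).const_mul (1 + ‖w‖)).mono' (Continuous.aestronglyMeasurable ?_)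
    (Eventually.of_forall fun v => by simpa using blc_bound w c (B := 0) v le_rfl)
  unfold blc_E
  fun_prop

theorem blc_tail (c : ℂ) (u : ℝ) : ∫ v in Ici u, (-v + c) * blc_E c v = -blc_E c u := by
  rw [integral_Ici_eq_integral_Ioi, integral_Ioi_of_hasDerivAt_of_tendsto' (fun v _ => blc_deriv c v)
    (blc_int c c).integrableOn (tendsto_zero_of_hasDerivAt_of_integrableOn_Ioi
      (fun v _ => blc_deriv c v) (blc_int c c).integrableOn (a := u)
      (lnb_gauss' one_pos c 0).1.integrableOn), zero_sub]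

theorem blc_main (a t : ℝ) :
    Integrable (fun v : ℝ => (Real.exp (a * v) : ℂ) * ((-v + I * (t * a)) * blc_E (I * (t * a)) v)) ∧
    ∫ v : ℝ, (Real.exp (a * v) : ℂ) * ((-v + I * (t * a)) * blc_E (I * (t * a)) v) =
      -LNt a (1 + I * t) := by
  have e : ∀ v : ℝ, (Real.exp (a * v) : ℂ) * ((-v + I * (t * a)) * blc_E (I * (t * a)) v) =
      (-v + (a + I * (t * a))) * blc_E (a + I * (t * a)) v - a * blc_E (a + I * (t * a)) v := fun v => by
    have : blc_E (a + I * (t * a)) v = (Real.exp (a * v) : ℂ) * blc_E (I * (t * a)) v := by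
      rw [blc_E, blc_E, ofReal_exp, ← exp_add]
      congr 1
      push_cast
      ring
    rw [this]
    ring
  obtain ⟨h1, h2⟩ := lnb_gauss' one_pos (a + I * (t * a)) 0
  replace h1 : Integrable (blc_E (a + I * (t * a))) := h1
  simp only [e]
  refine ⟨(blc_int _ _).sub (h1.const_mul _), ?_⟩
  rw [integral_sub (blc_int _ _) (h1.const_mul _), integral_eq_zero_of_hasDerivAt_of_integrable
    (blc_deriv _) (blc_int _ _) h1, integral_const_mul]
  unfold blc_E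
  rw [h2, LNt, show (0 : ℂ) + ((1 : ℝ) : ℂ) ^ 2 * (a + I * (t * a)) ^ 2 / 2 = a ^ 2 * (1 + I * t) ^ 2 / 2 by
    push_cast; ring]
  push_cast
  ring

theorem blc_core (l : ℤ) : ∃ C : ℝ, 0 < C ∧ ∀ a M t : ℝ, 0 < a → a ≤ 1 → 0 < M →
    ‖(∑' n : Pr, al n ^ l * LN a M t (nm n)) -
        (if l = 0 then ((rho0 * M : ℝ) : ℂ) * LNt a (1 + I * t) else 0)‖ ≤
      C * (1 + |t|) * (√M + 1) := by
  classical
  obtain ⟨C, hC, hl⟩ := lat_count l
  have hK : 0 ≤ ∫ v, blc_g 3 v := integral_nonneg fun v => (blc_g_pos 3 v).le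
  refine ⟨C * ((∫ v, blc_g 3 v) + 1), by positivity, fun a M t ha ha1 hM => ?_⟩
  set c : ℂ := I * (t * a) with hc
  have hc1 : ‖c‖ ≤ |t| := by
    rw [hc, norm_mul, norm_I, one_mul, norm_mul, norm_real, norm_real, Real.norm_eq_abs,
      Real.norm_of_nonneg ha.le]
    exact mul_le_of_le_one_right (abs_nonneg t) ha1
  have hb : ∀ B v : ℝ, |B| ≤ 2 →
      Real.exp (B * v) * ‖(-v + c) * blc_E c v‖ ≤ (1 + |t|) * blc_g 3 v := fun B v hB =>
    (blc_bound c c v (by simp [hc]; linarith)).trans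
      (mul_le_mul_of_nonneg_right (by linarith) (blc_g_pos 3 v).le)
  let F : Pr → ℝ → ℂ := fun n => (Ici (Real.log (nm n / M) / a)).indicator
    fun v => al n ^ l * ((-v + c) * blc_E c v)
  have hn : ∀ n : Pr, 0 < nm n := fun n => nm_pos (Pr_prim n).ne_zero
  have hmem : ∀ (n : Pr) (v : ℝ), v ∈ Ici (Real.log (nm n / M) / a) ↔ nm n ≤ M * Real.exp (a * v) :=
    fun n v => by
      rw [mem_Ici, div_le_iff₀' ha, Real.log_le_iff_le_exp (div_pos (hn n) hM), div_le_iff₀' hM]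
  have hFi : ∀ n, Integrable (F n) := fun n => ((blc_int c c).const_mul _).indicator measurableSet_Ici
  have hF1 : ∀ n, ∫ v, F n v = -(al n ^ l * LN a M t (nm n)) := fun n => by
    rw [integral_indicator measurableSet_Ici, integral_const_mul, blc_tail, mul_neg, blc_E, LN, hc]
    have := ofReal_ne_zero.2 ha.ne'
    congr 3
    push_cast
    field_simp
    ring
  have hF2 : ∀ n v, ‖F n v‖ ≤ nm n ^ (-2 : ℝ) * (M ^ 2 * ((1 + |t|) * blc_g 3 v)) := fun n v => by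
    have h0 := hn n
    have h1 := blc_g_pos 3 v
    by_cases hv : v ∈ Ici (Real.log (nm n / M) / a)
    · simp only [F, indicator_of_mem hv]
      rw [norm_mul, norm_zpow, norm_al (Pr_prim n).ne_zero, one_zpow, one_mul, Real.rpow_neg h0.le,
        Real.rpow_two, le_inv_mul_iff₀ (by positivity)]
      refine le_trans ?_ (mul_le_mul_of_nonneg_left (hb (2 * a) v (by
        rw [abs_of_pos (by positivity)]; linarith)) (by positivity))
      rw [← mul_assoc, mul_assoc 2, two_mul, Real.exp_add, ← sq, ← mul_pow]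
      gcongr
      exact (hmem n v).1 hv
    · simp only [F, indicator_of_notMem hv, norm_zero]
      positivity
  have : Countable O := crd.surjective.countable
  obtain ⟨hI, hS⟩ := sumb_int (S := univ) countable_univ (fun i hi => absurd (mem_univ i) hi) hFi
    (Summable.of_nonneg_of_le (fun n => integral_nonneg fun v => norm_nonneg _)
      (fun n => (integral_mono (hFi n).norm ((((blc_g_int 3).const_mul _).const_mul _).const_mul _)
        (hF2 n)).trans_eq (integral_const_mul _ _))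
      ((Summable.Pr (summable_nm_rpow one_lt_two)).mul_right _))
  have hF3 : ∀ v, ∑' n, F n v =
      (∑ n ∈ pball (M * Real.exp (a * v)), al n ^ l) * ((-v + c) * blc_E c v) := fun v => by
    rw [Finset.sum_mul, ← Finset.sum_subtype_of_mem _ (p := (· ∈ Pr)) fun n h => (mem_pball.1 h).2,
      tsum_eq_sum (s := (pball (M * Real.exp (a * v))).subtype (· ∈ Pr)) fun n h =>
        indicator_of_notMem (fun h' => h (Finset.mem_subtype.2 (mem_pball.2 ⟨(hmem n v).1 h', n.2⟩))) _]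
    exact Finset.sum_congr rfl fun n h =>
      indicator_of_mem ((hmem n v).2 (mem_pball.1 (Finset.mem_subtype.1 h)).1) _
  obtain ⟨h1, h2⟩ := blc_main a t
  rw [← hc] at h1 h2
  have e1 : (∑' n : Pr, al n ^ l * LN a M t (nm n)) = -∫ v, ∑' n, F n v := by
    rw [← hS.tsum_eq, ← tsum_neg]
    exact tsum_congr fun n => by rw [hF1, neg_neg]
  have e2 : ∀ v : ℝ, (if l = 0 then ((rho0 * (M * Real.exp (a * v)) : ℝ) : ℂ) else 0) *
      ((-v + c) * blc_E c v) = (if l = 0 then ((rho0 * M : ℝ) : ℂ) else 0) *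
        ((Real.exp (a * v) : ℂ) * ((-v + c) * blc_E c v)) := fun v => by
    split_ifs
    · rw [← mul_assoc rho0, ofReal_mul, mul_assoc]
    · rw [zero_mul, zero_mul]
  have e3 : (if l = 0 then ((rho0 * M : ℝ) : ℂ) * LNt a (1 + I * t) else 0) =
      -∫ v : ℝ, (if l = 0 then ((rho0 * M : ℝ) : ℂ) else 0) *
        ((Real.exp (a * v) : ℂ) * ((-v + c) * blc_E c v)) := by
    rw [integral_const_mul, h2, mul_neg, neg_neg, ite_mul, zero_mul]
  rw [e1, e3, neg_sub_neg, norm_sub_rev, ← integral_sub hI (h1.const_mul _)]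
  refine (norm_integral_le_of_norm_le (((blc_g_int 3).const_mul (C * (1 + |t|) * (√M + 1))))
    (Eventually.of_forall fun v => ?_)).trans ?_
  · rw [hF3, ← e2, ← sub_mul, norm_mul]
    refine (mul_le_mul_of_nonneg_right (hl _ (by positivity)) (norm_nonneg _)).trans ?_
    have h3 := hb (a / 2) v (by rw [abs_of_pos (by positivity)]; linarith)
    have h4 := hb 0 v (by simp)
    rw [zero_mul, Real.exp_zero, one_mul] at h4
    rw [Real.sqrt_mul hM.le, ← Real.exp_half, mul_div_right_comm]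
    have h5 := mul_le_mul_of_nonneg_left h3 (Real.sqrt_nonneg M)
    nlinarith
  · rw [integral_const_mul]
    have : 0 ≤ C * (1 + |t|) * (√M + 1) := by positivity
    nlinarith

end Plain

open Classical in
/-- Möbius over `d ∣ m`, then Abel summation from `lat_count` (`x ↦ LN a M t x` has
`∫ |d/dx| √x dx ≤ C (1 + |t|) √M`), or the difference form of it on the integers. -/
theorem plain_asymp (l : ℤ) : ∃ C : ℝ, 0 < C ∧ ∀ (a M t : ℝ) (m : O), 0 < a → a ≤ 1 → 0 < M → m ≠ 0 →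
    ‖(∑' n : Pr, if IsCoprime (n : O) m then al n ^ l * LN a M t (nm n) else 0) -
        (if l = 0 then ((rho0 * Phi m * M : ℝ) : ℂ) * LNt a (1 + Complex.I * t) else 0)‖ ≤
      C * dn m * (1 + |t|) * (Real.sqrt M + 1) := by
  obtain ⟨C, hC, h⟩ := blc_core l
  refine ⟨C, hC, fun a M t m ha ha1 hM hm => ?_⟩
  have e1 : ∀ n : Pr, (if IsCoprime (n : O) m then al n ^ l * LN a M t (nm n) else 0) =
      ∑ d ∈ pdiv m, if d ∣ (n : O) then mu d * (al n ^ l * LN a M t (nm n)) else 0 := fun n => by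
    rw [← boole_mul, ← sum_mu_coprime' hm (Pr_prim n).not_lam_dvd, Finset.sum_mul]
    exact Finset.sum_congr rfl fun d _ => by rw [ite_mul, zero_mul]
  have hs : ∀ d ∈ pdiv m, Summable fun n : Pr =>
      if d ∣ (n : O) then mu d * (al n ^ l * LN a M t (nm n)) else 0 := fun d _ => by
    refine Summable.of_norm_bounded ((adm_Pr one_lt_two (c := fun _ => 1) (M := 1)
      fun _ => norm_one.le).summable_SS ha hM t) fun n => ?_
    split_ifs
    · rw [norm_mul, norm_mul, norm_zpow, norm_al (Pr_prim n).ne_zero, one_zpow, one_mul, one_mul]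
      exact mul_le_of_le_one_left (norm_nonneg _) (norm_mu_le d)
    · rw [norm_zero]
      exact norm_nonneg _
  have e2 : (if l = 0 then ((rho0 * Phi m * M : ℝ) : ℂ) * LNt a (1 + Complex.I * t) else 0) =
      ∑ d ∈ pdiv m, mu d * al d ^ l *
        (if l = 0 then ((rho0 * (M / nm d) : ℝ) : ℂ) * LNt a (1 + Complex.I * t) else 0) := by
    split_ifs with hl
    · push_cast
      rw [Phi_eq_sum hm, Finset.mul_sum, Finset.sum_mul, Finset.sum_mul]
      exact Finset.sum_congr rfl fun d _ => by rw [hl, zpow_zero]; ring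
    · simp
  rw [tsum_congr e1, Summable.tsum_finsetSum hs, e2, ← Finset.sum_sub_distrib]
  refine (norm_sum_le _ _).trans ((Finset.sum_le_card_nsmul _ _ (C * (1 + |t|) * (√M + 1))
    fun d hd => ?_).trans (le_of_eq ?_))
  · have hd0 := ((mem_pdiv hm).1 hd).1
    have hd1 := one_le_nm hd0.ne_zero
    rw [tsum_Pr_dvd hd0 fun n => mu d * (al n ^ l * LN a M t (nm n))]
    simp only [al_mul, nm_mul, LN_mul_arg, mul_zpow, mul_assoc (al d ^ l), ← mul_assoc (mu d),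
      tsum_mul_left]
    rw [← mul_sub, norm_mul, norm_mul, norm_zpow, norm_al hd0.ne_zero, one_zpow, mul_one]
    refine (mul_le_of_le_one_left (norm_nonneg _) (norm_mu_le d)).trans
      ((h a (M / nm d) t ha ha1 (by positivity)).trans ?_)
    gcongr
    exact div_le_self hM.le hd1
  · rw [nsmul_eq_mul, dn]
    ring

theorem bl_d_cube : ∃ C : ℝ, 0 < C ∧ ∀ (a A : ℝ) (b : O) (S : Finset O), 0 < a → a ≤ 2 → 1 ≤ A →
    b ≠ 0 → (∀ n ∈ S, n ≠ 0) → ∑ c ∈ S, LW a (A / nm b ^ 3) (nm c) * nm b ≤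
      C * (a * A * nm b ^ (-(2 : ℝ)) + if nm b ≤ A ^ (1 / 3 : ℝ) then
        Real.sqrt A * nm b ^ (-(1 / 2 : ℝ)) else A ^ 2 * nm b ^ (-(5 : ℝ))) := by
  obtain ⟨C₁, hC₁, h₁⟩ := sum_LW_le
  obtain ⟨C₂, hC₂, h₂⟩ := sum_nm_rpow_tail (σ := 2) one_lt_two
  refine ⟨C₁ + Real.exp 8 * C₂, by positivity, fun a A b S ha ha2 hA hb hS => ?_⟩
  have hβ := nm_pos hb
  obtain ⟨β, hβ'⟩ : ∃ β, β = nm b := ⟨_, rfl⟩
  rw [← hβ'] at hβ ⊢
  have hY : 0 < A / β ^ 3 := by positivity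
  rw [← Finset.sum_mul]
  have r2 : β ^ (-(2 : ℝ)) = (β ^ 2)⁻¹ := by rw [Real.rpow_neg hβ.le, Real.rpow_two]
  have p1 : 0 ≤ a * A * β ^ (-(2 : ℝ)) := by positivity
  split_ifs with h
  · have e : Real.sqrt (A / β ^ 3) * β = Real.sqrt A * β ^ (-(1 / 2 : ℝ)) := by
      obtain ⟨s, hs, rfl⟩ : ∃ s, 0 < s ∧ β = s ^ 2 :=
        ⟨Real.sqrt β, Real.sqrt_pos.2 hβ, (Real.sq_sqrt hβ.le).symm⟩
      rw [Real.sqrt_div' _ (by positivity), show (s ^ 2) ^ 3 = (s ^ 3) ^ 2 by ring,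
        Real.sqrt_sq (by positivity), Real.rpow_neg hβ.le, ← Real.sqrt_eq_rpow, Real.sqrt_sq hs.le]
      field_simp
    calc _ ≤ C₁ * (a * (A / β ^ 3) + Real.sqrt (A / β ^ 3)) * β := by
          gcongr
          exact h₁ a _ S ha ha2 hY hS
      _ = C₁ * (a * A * β ^ (-(2 : ℝ)) + Real.sqrt A * β ^ (-(1 / 2 : ℝ))) := by
          rw [← e, r2]; field_simp
      _ ≤ _ := by gcongr; exact le_add_of_nonneg_right (by positivity)
  · have a1 : ∑ c ∈ S, LW a (A / β ^ 3) (nm c) ≤ Real.exp 8 * (A / β ^ 3) ^ 2 * C₂ := by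
      have a2 := h₂ 1 S one_pos fun n hn => one_le_nm (hS n hn)
      rw [Real.one_rpow, mul_one] at a2
      refine le_trans (Finset.sum_le_sum fun c hc => ?_)
        ((Finset.mul_sum S _ _).ge.trans (mul_le_mul_of_nonneg_left a2 (by positivity)))
      have hc0 := nm_pos (hS c hc)
      have a3 := norm_LN_le_rpow ha hY hc0 0 2
      rw [norm_LN_eq_LW, Real.rpow_two (A / β ^ 3)] at a3
      refine a3.trans ?_
      gcongr
      nlinarith
    have r5 : β ^ (-(5 : ℝ)) = (β ^ 5)⁻¹ := by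
      rw [Real.rpow_neg hβ.le]; exact congrArg _ (Real.rpow_natCast β 5)
    calc _ ≤ Real.exp 8 * (A / β ^ 3) ^ 2 * C₂ * β := by gcongr
      _ = Real.exp 8 * C₂ * (A ^ 2 * β ^ (-(5 : ℝ))) := by rw [r5]; field_simp
      _ ≤ _ := by
          gcongr
          · linarith
          · linarith

theorem bl_d_sum : ∃ C : ℝ, 0 < C ∧ ∀ (a A : ℝ) (T : Finset O), 0 < a → 1 ≤ A → (∀ n ∈ T, n ≠ 0) →
    ∑ b ∈ T, (a * A * nm b ^ (-(2 : ℝ)) + if nm b ≤ A ^ (1 / 3 : ℝ) then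
        Real.sqrt A * nm b ^ (-(1 / 2 : ℝ)) else A ^ 2 * nm b ^ (-(5 : ℝ))) ≤
      C * (a * A + A ^ (2 / 3 : ℝ)) := by
  obtain ⟨C₁, hC₁, h₁⟩ := sum_nm_rpow_tail (σ := 2) one_lt_two
  obtain ⟨C₂, hC₂, h₂⟩ := sum_nm_rpow_le (σ := 1 / 2) (by norm_num)
  obtain ⟨C₃, hC₃, h₃⟩ := sum_nm_rpow_tail (σ := 5) (by norm_num)
  refine ⟨C₁ + C₂ + C₃, by positivity, fun a A T ha hA hT => ?_⟩
  have hA0 : 0 < A := by linarith
  have hR : 0 < A ^ (1 / 3 : ℝ) := by positivity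
  rw [Finset.sum_add_distrib, Finset.sum_ite, ← Finset.mul_sum, ← Finset.mul_sum, ← Finset.mul_sum]
  have a1 := h₁ 1 T one_pos fun n hn => one_le_nm (hT n hn)
  rw [Real.one_rpow, mul_one] at a1
  have a2 := h₂ _ (T.filter fun b => nm b ≤ A ^ (1 / 3 : ℝ)) hR.le fun n hn =>
    ⟨hT n (Finset.mem_filter.1 hn).1, (Finset.mem_filter.1 hn).2⟩
  have a3 := h₃ _ (T.filter fun b => ¬ nm b ≤ A ^ (1 / 3 : ℝ)) hR fun n hn =>
    (not_le.1 (Finset.mem_filter.1 hn).2).le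
  have e2 : Real.sqrt A * (A ^ (1 / 3 : ℝ)) ^ (1 - 1 / 2 : ℝ) = A ^ (2 / 3 : ℝ) := by
    rw [Real.sqrt_eq_rpow, ← Real.rpow_mul hA0.le, ← Real.rpow_add hA0]; norm_num
  have e3 : A ^ 2 * (A ^ (1 / 3 : ℝ)) ^ (1 - 5 : ℝ) = A ^ (2 / 3 : ℝ) := by
    rw [← Real.rpow_two, ← Real.rpow_mul hA0.le, ← Real.rpow_add hA0]; norm_num
  have b1 := mul_le_mul_of_nonneg_left a1 (mul_pos ha hA0).le
  have b2 := mul_le_mul_of_nonneg_left a2 (Real.sqrt_nonneg A)
  have b3 := mul_le_mul_of_nonneg_left a3 (sq_nonneg A)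
  rw [mul_left_comm, e2] at b2
  rw [mul_left_comm, e3] at b3
  have p1 : 0 < a * A := by positivity
  have p2 : 0 < A ^ (2 / 3 : ℝ) := by positivity
  nlinarith [mul_pos hC₁ p2, mul_pos hC₂ p1, mul_pos hC₃ p1]

/-- `x = c b³`, `‖TC x‖² = N b`, `sum_LW_le` in `c` (empty up to tails unless `N b³ ≤ A`) -/
theorem tsum_TC_sq_le : ∃ C : ℝ, 0 < C ∧ ∀ a A : ℝ, 0 < a → a ≤ 2 → 1 ≤ A →
    (Summable fun x : Pr => LW a A (nm x) * ‖TC x‖ ^ 2) ∧
    ∑' x : Pr, LW a A (nm x) * ‖TC x‖ ^ 2 ≤ C * (a * A + A ^ (2 / 3 : ℝ)) := by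
  classical
  obtain ⟨C₁, hC₁, h₁⟩ := bl_d_cube
  obtain ⟨C₂, hC₂, h₂⟩ := bl_d_sum
  refine ⟨C₁ * C₂, by positivity, fun a A ha ha2 hA => ?_⟩
  have h0 : ∀ x : O, 0 ≤ LW a A (nm x) * ‖TC x‖ ^ 2 := fun x =>
    mul_nonneg (LW_pos _ _ _).le (sq_nonneg _)
  have key : ∀ S : Finset Pr, ∑ x ∈ S, LW a A (nm x) * ‖TC x‖ ^ 2 ≤
      C₁ * C₂ * (a * A + A ^ (2 / 3 : ℝ)) := fun S => by
    have hx : ∀ x : O, ∃ c b, PSq c ∧ Prim b ∧ (TC x ≠ 0 → x = c * b ^ 3) := fun x => by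
      by_cases h : TC x = 0
      · exact ⟨1, 1, psq_one, psq_one.1, fun h' => (h' h).elim⟩
      · obtain ⟨c, b, hc, hb, e⟩ := exists_of_TC_ne_zero h
        exact ⟨c, b, hc, hb, fun _ => e⟩
    choose cf bf hc hb he using hx
    obtain ⟨S', hS'⟩ : ∃ S' : Finset O,
      S' = (S.map (Function.Embedding.subtype _)).filter fun x => TC x ≠ 0 := ⟨_, rfl⟩
    have e1 : ∑ x ∈ S, LW a A (nm x) * ‖TC x‖ ^ 2 = ∑ x ∈ S', LW a A (nm x) * ‖TC x‖ ^ 2 := by
      rw [hS', Finset.sum_filter_of_ne (p := fun x => TC x ≠ 0) fun x _ h h' => h (by rw [h']; simp),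
        Finset.sum_map]
      rfl
    have hT : ∀ x ∈ S', TC x ≠ 0 := fun x hx => by
      rw [hS'] at hx
      exact (Finset.mem_filter.1 hx).2
    have e2 := ctb_cover S' (S'.image bf ×ˢ S'.image cf) (fun p => p.2 * p.1 ^ 3) _ h0 fun x hx =>
      ⟨(bf x, cf x), Finset.mem_product.2
        ⟨Finset.mem_image_of_mem _ hx, Finset.mem_image_of_mem _ hx⟩,
        (he x (hT x hx)).symm⟩
    have hB : ∀ b ∈ S'.image bf, Prim b := fun b h => by
      obtain ⟨x, -, rfl⟩ := Finset.mem_image.1 h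
      exact hb x
    have hC : ∀ c ∈ S'.image cf, PSq c := fun c h => by
      obtain ⟨x, -, rfl⟩ := Finset.mem_image.1 h
      exact hc x
    rw [e1, mul_assoc]
    refine e2.trans (le_trans ?_ (mul_le_mul_of_nonneg_left
      (h₂ a A (S'.image bf) ha hA fun b h => (hB b h).ne_zero) hC₁.le))
    rw [Finset.sum_product, Finset.mul_sum]
    refine Finset.sum_le_sum fun b h => le_trans (Finset.sum_le_sum fun c h' => le_of_eq ?_)
      (h₁ a A b (S'.image cf) ha ha2 hA (hB b h).ne_zero fun c h' => (hC c h').ne_zero)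
    simp only
    rw [TC_eq (hC c h') (hB b h), norm_mul, norm_GG (hC c h'), one_mul, Complex.norm_real,
      Real.norm_of_nonneg (Real.sqrt_nonneg _), Real.sq_sqrt (nm_nonneg b), nm_mul, nm_pow,
      mul_comm (nm c), LW_mul_arg]
  have hA0 : 0 < A := by linarith
  exact ⟨summable_of_sum_le (fun x => h0 x) key, tsum_le_of_sum_le' (by positivity) key⟩

theorem bl_d_bdd {a A : ℝ} (ha : 0 < a) (hA : 0 < A) {f : O → ℂ} {M : ℝ}
    (hf : ∀ x, Prim x → ‖f x‖ ≤ M) : Summable fun x : Pr => LW a A (nm x) * ‖f x‖ ^ 2 := by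
  have h := ((summable_LW ha hA 0).subtype (Pr : Set O)).mul_right (M ^ 2)
  refine Summable.of_nonneg_of_le (fun x => mul_nonneg (LW_pos _ _ _).le (sq_nonneg _)) (fun x => ?_) h
  simp only [Function.comp_def, Real.rpow_zero, one_mul]
  exact mul_le_mul_of_nonneg_left (pow_le_pow_left₀ (norm_nonneg _) (hf x x.2) 2) (LW_pos _ _ _).le

theorem bl_d_XG (γ : O → ℂ) (X : ℝ) (x : O) : ‖XG γ X x‖ ≤ ∑ b ∈ ball X, ‖γ b * GG b‖ := by
  refine (norm_sum_le _ _).trans (Finset.sum_le_sum fun b _ => ?_)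
  rw [norm_mul, RCLike.norm_conj]
  exact mul_le_of_le_one_right (norm_nonneg _) (norm_cb_le _ _)

theorem bl_d_Md (γ : O → ℂ) (X : ℝ) {x : O} (hx : x ≠ 0) :
    ‖Md γ X x‖ ≤ cP * ∑ b ∈ ball X, ‖γ b * (n6 b : ℂ)‖ := by
  classical
  have a1 : ‖YM γ X x‖ ≤ ∑ b ∈ ball X, ‖γ b * (n6 b : ℂ)‖ := by
    refine (norm_sum_le _ _).trans (Finset.sum_le_sum fun b _ => ?_)
    split_ifs
    · exact le_rfl
    · rw [norm_zero]; exact norm_nonneg _
  have a2 : n6 x * ‖TC x‖ ≤ 1 := by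
    refine (mul_le_mul_of_nonneg_left (norm_TC_le x) (n6_nonneg x)).trans_eq ?_
    rw [n6, ← Real.rpow_add (nm_pos hx)]
    norm_num
  rw [Md, norm_mul, norm_mul, RCLike.norm_conj, Complex.norm_real,
    Real.norm_of_nonneg (mul_nonneg cP_pos.le (n6_nonneg x)), mul_assoc cP]
  exact mul_le_mul (mul_le_of_le_one_right cP_pos.le a2) a1 (norm_nonneg _) cP_pos.le

theorem bl_d_le {g : O → ℝ} (h0 : ∀ x, 0 ≤ g x) (hg : Summable fun x : Pr => g x) {S : Finset O}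
    (hS : ∀ x ∈ S, Prim x) : ∑ x ∈ S, g x ≤ ∑' x : Pr, g x := by
  classical
  rw [← Finset.sum_subtype_of_mem g (p := fun x => x ∈ (Pr : Set O)) hS]
  exact hg.sum_le_tsum _ fun x _ => h0 x

theorem summable_EN {a A : ℝ} (ha : 0 < a) (hA : 0 < A) (γ : O → ℂ) (X : ℝ) :
    Summable fun x : Pr => LW a A (nm x) * ‖XG γ X x‖ ^ 2 := by
  exact bl_d_bdd ha hA fun x _ => bl_d_XG γ X x

theorem summable_VR {a A : ℝ} (ha : 0 < a) (hA : 0 < A) (γ : O → ℂ) (X : ℝ) :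
    Summable fun x : Pr => LW a A (nm x) * ‖XG γ X x - Md γ X x‖ ^ 2 := by
  exact bl_d_bdd (f := fun x => XG γ X x - Md γ X x) ha hA fun x hx =>
    (norm_sub_le _ _).trans (add_le_add (bl_d_XG γ X x) (bl_d_Md γ X hx.ne_zero))

theorem sum_le_EN {a A : ℝ} (ha : 0 < a) (hA : 0 < A) (γ : O → ℂ) (X : ℝ) {S : Finset O}
    (hS : ∀ x ∈ S, Prim x) : ∑ x ∈ S, LW a A (nm x) * ‖XG γ X x‖ ^ 2 ≤ EN a A γ X := by
  exact bl_d_le (g := fun x => LW a A (nm x) * ‖XG γ X x‖ ^ 2)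
    (fun x => mul_nonneg (LW_pos _ _ _).le (sq_nonneg _)) (summable_EN ha hA γ X) hS

theorem sum_le_VR {a A : ℝ} (ha : 0 < a) (hA : 0 < A) (γ : O → ℂ) (X : ℝ) {S : Finset O}
    (hS : ∀ x ∈ S, Prim x) : ∑ x ∈ S, LW a A (nm x) * ‖XG γ X x - Md γ X x‖ ^ 2 ≤ VR a A γ X := by
  exact bl_d_le (g := fun x => LW a A (nm x) * ‖XG γ X x - Md γ X x‖ ^ 2)
    (fun x => mul_nonneg (LW_pos _ _ _).le (sq_nonneg _)) (summable_VR ha hA γ X) hS

end Crest.Agent.R12
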