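import Crest.Agent.R12.Base.Lat
import Crest.Agent.R12.Base.Div

/-! Row 12, base: the thin–thin separation of the weight, trivial bounds, amplification by cubes.
Prefix for helper lemmas: `bt_`. -/

set_option autoImplicit false

namespace Crest.Agent.R12

open Crest.Agent.R17 MeasureTheory
open scoped ComplexConjugate

theorem bta_gauss {b : ℝ} (hb : 0 < b) (c : ℝ) :
    (Integrable fun u : ℝ => Real.exp (-b * (u - c) ^ 2)) ∧
      ∫ u : ℝ, Real.exp (-b * (u - c) ^ 2) = √(Real.pi / b) :=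
  ⟨(integrable_exp_neg_mul_sq hb).comp_sub_right c,
    (integral_sub_right_eq_self (fun u : ℝ => Real.exp (-b * u ^ 2)) c).trans (integral_gaussian b)⟩

theorem bta_log {A x : ℝ} (hA : 0 < A) (hx : 0 < x) (u : ℝ) :
    Real.log (x / (A * Real.exp u)) = Real.log (x / A) - u := by
  rw [← div_div, Real.log_div (div_pos hx hA).ne' (Real.exp_pos u).ne', Real.log_exp]

/-- complete the square: `(s - u)² + (r + u)² = 2 (u - (s - r)/2)² + (s + r)²/2` -/
theorem LW_thin {a A B x y : ℝ} (ha : 0 < a) (hA : 0 < A) (hB : 0 < B) (hx : 0 < x) (hy : 0 < y) :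
    (Integrable fun u : ℝ => LW (a / √2) (A * Real.exp u) x * LW (a / √2) (B * Real.exp (-u)) y) ∧
    LW a (A * B) (x * y) = (a * √(Real.pi / 2))⁻¹ *
      ∫ u : ℝ, LW (a / √2) (A * Real.exp u) x * LW (a / √2) (B * Real.exp (-u)) y := by
  have hb : 0 < 2 / a ^ 2 := by positivity
  obtain ⟨h1, h2⟩ := bta_gauss hb ((Real.log (x / A) - Real.log (y / B)) / 2)
  have hl : Real.log (x * y / (A * B)) = Real.log (x / A) + Real.log (y / B) := by
    rw [mul_div_mul_comm, Real.log_mul (div_pos hx hA).ne' (div_pos hy hB).ne']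
  have key : (fun u : ℝ => LW (a / √2) (A * Real.exp u) x * LW (a / √2) (B * Real.exp (-u)) y) =
      fun u : ℝ => LW a (A * B) (x * y) *
        Real.exp (-(2 / a ^ 2) * (u - (Real.log (x / A) - Real.log (y / B)) / 2) ^ 2) := by
    funext u
    unfold LW
    rw [bta_log hA hx, bta_log hB hy, hl, ← Real.exp_add, ← Real.exp_add, div_pow,
      Real.sq_sqrt (by norm_num : (0 : ℝ) ≤ 2)]
    congr 1
    field_simp
    ring
  rw [key]
  refine ⟨h1.const_mul _, ?_⟩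
  have h3 : √(Real.pi / (2 / a ^ 2)) = a * √(Real.pi / 2) := by
    rw [show Real.pi / (2 / a ^ 2) = a ^ 2 * (Real.pi / 2) by field_simp,
      Real.sqrt_mul (sq_nonneg a), Real.sqrt_sq ha.le]
  have h4 : 0 < a * √(Real.pi / 2) := mul_pos ha (Real.sqrt_pos.2 (by positivity))
  rw [integral_const_mul, h2, h3]
  field_simp

theorem integral_LW_centre {a A x : ℝ} (ha : 0 < a) (hA : 0 < A) (hx : 0 < x) :
    (Integrable fun u : ℝ => LW a (A * Real.exp u) x) ∧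
    ∫ u : ℝ, LW a (A * Real.exp u) x = √(2 * Real.pi) * a := by
  have hb : 0 < 1 / (2 * a ^ 2) := by positivity
  obtain ⟨h1, h2⟩ := bta_gauss hb (Real.log (x / A))
  have key : (fun u : ℝ => LW a (A * Real.exp u) x) =
      fun u : ℝ => Real.exp (-(1 / (2 * a ^ 2)) * (u - Real.log (x / A)) ^ 2) := by
    funext u
    unfold LW
    rw [bta_log hA hx]
    congr 1
    field_simp
    ring
  rw [key]
  refine ⟨h1, ?_⟩
  rw [h2, show Real.pi / (1 / (2 * a ^ 2)) = 2 * Real.pi * a ^ 2 by field_simp,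
    Real.sqrt_mul (by positivity), Real.sqrt_sq ha.le]

/-- the bilinear form with separated weights -/
noncomputable def BilU (a A B : ℝ) (α γ : O → ℂ) (XA XB : ℝ) : ℂ :=
  ∑ x ∈ ball XA, ∑ b ∈ ball XB, α x * (LW a A (nm x) : ℂ) * (γ b * (LW a B (nm b) : ℂ)) * f0 (x * b)

theorem Bil_thin {a Y A : ℝ} (ha : 0 < a) (hY : 0 < Y) (hA : 0 < A) (α γ : O → ℂ) (XA XB : ℝ) :
    (Integrable fun u : ℝ => BilU (a / √2) (A * Real.exp u) (Y / A * Real.exp (-u)) α γ XA XB) ∧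
    Bil a Y α γ XA XB = (((a * √(Real.pi / 2))⁻¹ : ℝ) : ℂ) *
      ∫ u : ℝ, BilU (a / √2) (A * Real.exp u) (Y / A * Real.exp (-u)) α γ XA XB := by
  have hB : 0 < Y / A := div_pos hY hA
  have hterm : ∀ x b : O,
      (Integrable fun u : ℝ => α x * (LW (a / √2) (A * Real.exp u) (nm x) : ℂ) *
        (γ b * (LW (a / √2) (Y / A * Real.exp (-u)) (nm b) : ℂ)) * f0 (x * b)) ∧
      α x * γ b * f0 (x * b) * (LW a Y (nm (x * b)) : ℂ) = (((a * √(Real.pi / 2))⁻¹ : ℝ) : ℂ) *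
        ∫ u : ℝ, α x * (LW (a / √2) (A * Real.exp u) (nm x) : ℂ) *
          (γ b * (LW (a / √2) (Y / A * Real.exp (-u)) (nm b) : ℂ)) * f0 (x * b) := by
    intro x b
    by_cases hf : f0 (x * b) = 0
    · simp [hf]
    have hxb : x * b ≠ 0 := fun h => hf (f0_eq_zero fun h' => h'.ne_zero h)
    have hx : 0 < nm x := nm_pos (left_ne_zero_of_mul hxb)
    have hb : 0 < nm b := nm_pos (right_ne_zero_of_mul hxb)
    obtain ⟨h1, h2⟩ := LW_thin ha hA hB hx hb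
    have e : (fun u : ℝ => α x * (LW (a / √2) (A * Real.exp u) (nm x) : ℂ) *
        (γ b * (LW (a / √2) (Y / A * Real.exp (-u)) (nm b) : ℂ)) * f0 (x * b)) =
        fun u : ℝ => (α x * γ b * f0 (x * b)) * ((LW (a / √2) (A * Real.exp u) (nm x) *
          LW (a / √2) (Y / A * Real.exp (-u)) (nm b) : ℝ) : ℂ) := by
      funext u
      push_cast
      ring
    rw [e]
    refine ⟨h1.ofReal.const_mul _, ?_⟩
    rw [mul_div_cancel₀ _ hA.ne'] at h2
    rw [integral_const_mul, integral_complex_ofReal, nm_mul, h2]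
    push_cast
    ring
  unfold BilU Bil
  refine ⟨integrable_finsetSum _ fun x _ => integrable_finsetSum _ fun b _ => (hterm x b).1, ?_⟩
  rw [integral_finsetSum _ fun x _ => integrable_finsetSum _ fun b _ => (hterm x b).1, Finset.mul_sum]
  refine Finset.sum_congr rfl fun x _ => ?_
  rw [integral_finsetSum _ fun b _ => (hterm x b).1, Finset.mul_sum]
  exact Finset.sum_congr rfl fun b _ => (hterm x b).2

theorem bta_cs {α : O → ℂ} {T S : Finset O} (w g : O → ℝ) (hw : ∀ x, 0 ≤ w x)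
    (hS : ∀ x, α x ≠ 0 → x ∈ S) :
    ∑ x ∈ T, ‖α x‖ * w x * g x ≤ √(∑ x ∈ T, ‖α x‖ ^ 2 * w x) * √(∑ x ∈ S, w x * g x ^ 2) := by
  classical
  have h1 : ∑ x ∈ T, ‖α x‖ * w x * g x =
      ∑ x ∈ T, (‖α x‖ * √(w x)) * (if x ∈ S then √(w x) * g x else 0) := by
    refine Finset.sum_congr rfl fun x _ => ?_
    by_cases hx : α x = 0
    · simp [hx]
    · rw [if_pos (hS x hx)]
      have := Real.mul_self_sqrt (hw x)
      calc ‖α x‖ * w x * g x = ‖α x‖ * (√(w x) * √(w x)) * g x := by rw [this]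
        _ = _ := by ring
  rw [h1]
  refine (Real.sum_mul_le_sqrt_mul_sqrt T _ _).trans (mul_le_mul (le_of_eq ?_) ?_ (Real.sqrt_nonneg _)
    (Real.sqrt_nonneg _))
  · congr 1
    refine Finset.sum_congr rfl fun x _ => ?_
    rw [mul_pow, Real.sq_sqrt (hw x)]
  · refine Real.sqrt_le_sqrt ?_
    have h2 : ∑ x ∈ T, (if x ∈ S then √(w x) * g x else 0) ^ 2 = ∑ x ∈ T ∩ S, w x * g x ^ 2 := by
      rw [← Finset.sum_ite_mem]
      refine Finset.sum_congr rfl fun x _ => ?_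
      split_ifs
      · rw [mul_pow, Real.sq_sqrt (hw x)]
      · simp
    rw [h2]
    exact Finset.sum_le_sum_of_subset_of_nonneg Finset.inter_subset_right
      fun x _ _ => mul_nonneg (hw x) (sq_nonneg _)

theorem bta_rows (a A B : ℝ) (α γ : O → ℂ) (XA XB : ℝ) :
    BilU a A B α γ XA XB = ∑ x ∈ ball XA, α x * (LW a A (nm x) : ℂ) *
      ∑ b ∈ ball XB, γ b * (LW a B (nm b) : ℂ) * f0 (x * b) := by
  unfold BilU
  refine Finset.sum_congr rfl fun x _ => ?_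
  rw [Finset.mul_sum]
  exact Finset.sum_congr rfl fun b _ => by ring

theorem bta_norm_le {a A B XA XB : ℝ} {α γ : O → ℂ} (g : O → ℝ)
    (hg : ∀ x, α x ≠ 0 → ‖∑ b ∈ ball XB, γ b * (LW a B (nm b) : ℂ) * f0 (x * b)‖ ≤ g x) :
    ‖BilU a A B α γ XA XB‖ ≤ ∑ x ∈ ball XA, ‖α x‖ * LW a A (nm x) * g x := by
  rw [bta_rows]
  refine (norm_sum_le _ _).trans (Finset.sum_le_sum fun x _ => ?_)
  by_cases hx : α x = 0
  · simp [hx]
  · rw [norm_mul, norm_mul, Complex.norm_real, Real.norm_of_nonneg (LW_pos _ _ _).le]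
    exact mul_le_mul_of_nonneg_left (hg x hx) (mul_nonneg (norm_nonneg _) (LW_pos _ _ _).le)

/-- Cauchy–Schwarz over the rows, with the model -/
theorem BilU_le_VR {a A B A₀ B₀ XA XB : ℝ} (ha : 0 < a) (hA : 0 < A) {α γ : O → ℂ} (hα : Supp α A₀ XA)
    (hγ : Supp γ B₀ XB) : ‖BilU a A B α γ XA XB‖ ≤
      √(∑ x ∈ ball XA, ‖α x‖ ^ 2 * LW a A (nm x)) * √(VR a A (fun b => γ b * (LW a B (nm b) : ℂ)) XB) := by
  have hγ' := hγ.mul fun b => (LW a B (nm b) : ℂ)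
  refine (bta_norm_le (fun x => ‖XG (fun b => γ b * (LW a B (nm b) : ℂ)) XB x -
    Md (fun b => γ b * (LW a B (nm b) : ℂ)) XB x‖) fun x hx => ?_).trans ?_
  · rw [sum_f0 hγ' (hα x hx).1, norm_mul, norm_GG (hα x hx).1, one_mul]
  · refine (bta_cs (S := pball XA) _ _ (fun x => (LW_pos _ _ _).le)
      fun x hx => mem_pball.2 ⟨(hα x hx).2.2, (hα x hx).1.1⟩).trans ?_
    exact mul_le_mul_of_nonneg_left
      (Real.sqrt_le_sqrt (sum_le_VR ha hA _ XB fun x hx => (mem_pball.1 hx).2)) (Real.sqrt_nonneg _)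

/-- Cauchy–Schwarz over the rows, the model bounded trivially -/
theorem BilU_le_EN : ∃ C : ℝ, 0 < C ∧ ∀ (a A B A₀ B₀ XA XB : ℝ) (α γ : O → ℂ), 0 < a → a ≤ 1 → 0 < A →
    0 < A₀ → 0 < B₀ → Supp α A₀ XA → Supp γ B₀ XB → ‖BilU a A B α γ XA XB‖ ≤
      √(∑ x ∈ ball XA, ‖α x‖ ^ 2 * LW a A (nm x)) *
        (√(∑ x ∈ (pball XA).filter (fun x => A₀ < nm x),
            LW a A (nm x) * ‖XG (fun b => γ b * (LW a B (nm b) : ℂ)) XB x‖ ^ 2) +
          C * (A₀ * B₀) ^ (-(1 : ℝ) / 6) * √(a * A + √A) * ∑ b ∈ ball XB, ‖γ b‖ * LW a B (nm b)) := by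
  classical
  obtain ⟨C, hC, hsum⟩ := sum_LW_le
  refine ⟨2 * √C, by positivity, fun a A B A₀ B₀ XA XB α γ ha ha1 hA hA₀ hB₀ hα hγ => ?_⟩
  have hγ' := hγ.mul fun b => (LW a B (nm b) : ℂ)
  set G : ℝ := ∑ b ∈ ball XB, ‖γ b‖ * LW a B (nm b) with hG
  have hG0 : 0 ≤ G := Finset.sum_nonneg fun b _ => mul_nonneg (norm_nonneg _) (LW_pos _ _ _).le
  set M : ℝ := 2 * (A₀ * B₀) ^ (-(1 : ℝ) / 6) * G with hM
  have hM0 : 0 ≤ M := by positivity
  have hY : ∀ x, ‖YM (fun b => γ b * (LW a B (nm b) : ℂ)) XB x‖ ≤ B₀ ^ (-(1 : ℝ) / 6) * G := by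
    intro x
    unfold YM
    rw [hG, Finset.mul_sum]
    refine (norm_sum_le _ _).trans (Finset.sum_le_sum fun b _ => ?_)
    split_ifs
    · by_cases hb : γ b = 0
      · simp [hb]
      · rw [norm_mul, norm_mul, Complex.norm_real, Complex.norm_real,
          Real.norm_of_nonneg (LW_pos _ _ _).le, Real.norm_of_nonneg (n6_nonneg _), mul_comm]
        exact mul_le_mul_of_nonneg_right (n6_le hB₀ (hγ b hb).2.1.le)
          (mul_nonneg (norm_nonneg _) (LW_pos _ _ _).le)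
    · rw [norm_zero]
      exact mul_nonneg (by positivity) (mul_nonneg (norm_nonneg _) (LW_pos _ _ _).le)
  have hS : ∀ x, α x ≠ 0 → x ∈ (pball XA).filter (fun x => A₀ < nm x) := fun x hx =>
    Finset.mem_filter.2 ⟨mem_pball.2 ⟨(hα x hx).2.2, (hα x hx).1.1⟩, (hα x hx).2.1⟩
  refine (bta_norm_le (fun x => ‖XG (fun b => γ b * (LW a B (nm b) : ℂ)) XB x‖ + M)
    fun x hx => ?_).trans ?_
  · rw [sum_f0' hγ' (hα x hx).1]
    refine (norm_sub_le _ _).trans (add_le_add ?_ ?_)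
    · rw [norm_mul, norm_GG (hα x hx).1, one_mul]
    · rw [norm_mul, Complex.norm_real, Real.norm_of_nonneg (mul_nonneg cP_pos.le (n6_nonneg _)), hM,
        Real.mul_rpow hA₀.le hB₀.le]
      calc cP * n6 x * ‖YM (fun b => γ b * (LW a B (nm b) : ℂ)) XB x‖
          ≤ 2 * A₀ ^ (-(1 : ℝ) / 6) * (B₀ ^ (-(1 : ℝ) / 6) * G) :=
            mul_le_mul (mul_le_mul cP_le (n6_le hA₀ (hα x hx).2.1.le) (n6_nonneg _) (by norm_num))
              (hY x) (norm_nonneg _) (by positivity)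
        _ = _ := by ring
  · simp only [mul_add, Finset.sum_add_distrib]
    refine add_le_add (bta_cs _ _ (fun x => (LW_pos _ _ _).le) hS) ?_
    refine (bta_cs _ (fun _ => M) (fun x => (LW_pos _ _ _).le) hS).trans ?_
    refine mul_le_mul_of_nonneg_left ?_ (Real.sqrt_nonneg _)
    rw [← Finset.sum_mul, Real.sqrt_mul' _ (sq_nonneg M), Real.sqrt_sq hM0]
    have h1 := hsum a A ((pball XA).filter (fun x => A₀ < nm x)) ha (by linarith) hA
      fun n hn => (mem_pball.1 (Finset.mem_filter.1 hn).1).2.ne_zero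
    have h2 := Real.sqrt_le_sqrt h1
    rw [Real.sqrt_mul hC.le] at h2
    calc _ ≤ √C * √(a * A + √A) * M := mul_le_mul_of_nonneg_right h2 hM0
      _ = _ := by rw [hM]; ring

theorem btb_LW {a Z x c : ℝ} (ha : 0 < a) (ha1 : a ≤ 1) (hc : c - 1 ≤ |Real.log (x / Z)|) :
    LW a Z x ≤ Real.exp (10 - 2 * c) ^ 2 * LW (√2 * a) Z x := by
  unfold LW
  rw [← Real.exp_nat_mul, ← Real.exp_add, mul_pow, Real.sq_sqrt (by norm_num : (0 : ℝ) ≤ 2)]
  refine Real.exp_le_exp.2 ?_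
  generalize Real.log (x / Z) = w at hc ⊢
  have h1 : w ^ 2 ≤ w ^ 2 / a ^ 2 := by
    rw [le_div_iff₀ (by positivity)]
    have : a ^ 2 ≤ 1 := by nlinarith
    nlinarith [sq_nonneg w]
  have h2 : w ^ 2 / (2 * a ^ 2) = w ^ 2 / a ^ 2 / 2 := by field_simp
  have h3 : w ^ 2 / (2 * (2 * a ^ 2)) = w ^ 2 / a ^ 2 / 4 := by field_simp; norm_num
  have h4 : |w| ^ 2 = w ^ 2 := sq_abs w
  rw [h2, h3]
  push_cast
  nlinarith [sq_nonneg (|w| - 8)]

theorem btb_sqrt {a Z c : ℝ} (ha : 0 < a) (ha1 : a ≤ 1) {S : Finset O} {p : O → ℝ}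
    (h : ∀ x ∈ S, 0 ≤ p x ∧ c - 1 ≤ |Real.log (nm x / Z)|) :
    √(∑ x ∈ S, p x * LW a Z (nm x)) ≤
      Real.exp (10 - 2 * c) * √(∑ x ∈ S, p x * LW (√2 * a) Z (nm x)) := by
  rw [← Real.sqrt_sq (Real.exp_pos (10 - 2 * c)).le, ← Real.sqrt_mul (sq_nonneg _), Finset.mul_sum]
  refine Real.sqrt_le_sqrt (Finset.sum_le_sum fun x hx => ?_)
  rw [mul_left_comm]
  exact mul_le_mul_of_nonneg_left (btb_LW ha ha1 (h x hx).2) (h x hx).1

theorem btb_log {A x : ℝ} (hA : 0 < A) (h1 : A < x) (h2 : x ≤ 2 * A) : |Real.log (x / A)| ≤ 1 := by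
  have a1 : 1 ≤ x / A := by rw [le_div_iff₀ hA]; linarith
  have a2 : x / A ≤ 2 := by rw [div_le_iff₀ hA]; linarith
  rw [abs_of_nonneg (Real.log_nonneg a1)]
  have := Real.log_le_sub_one_of_pos (show 0 < x / A by linarith)
  linarith

theorem btb_int {a A : ℝ} (ha : 0 < a) (hA : 0 < A) {S : Finset O} (p : O → ℝ)
    (h : ∀ x ∈ S, 0 < nm x) :
    (Integrable fun u : ℝ => ∑ x ∈ S, p x * LW a (A * Real.exp u) (nm x)) ∧
      ∫ u : ℝ, ∑ x ∈ S, p x * LW a (A * Real.exp u) (nm x) = √(2 * Real.pi) * a * ∑ x ∈ S, p x := by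
  have h1 : ∀ x ∈ S, Integrable fun u : ℝ => p x * LW a (A * Real.exp u) (nm x) :=
    fun x hx => (integral_LW_centre ha hA (h x hx)).1.const_mul _
  refine ⟨integrable_finsetSum _ h1, ?_⟩
  rw [integral_finsetSum _ h1, Finset.mul_sum]
  refine Finset.sum_congr rfl fun x hx => ?_
  rw [integral_const_mul, (integral_LW_centre ha hA (h x hx)).2, mul_comm]

theorem btb_amgm {P Q σ τ : ℝ} (hP : 0 ≤ P) (hQ : 0 ≤ Q) (hσ : 0 < σ) (hτ : 0 < τ) :
    √P * √Q ≤ τ / σ / 2 * P + σ / τ / 2 * Q := by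
  have h1 := Real.sq_sqrt hP
  have h2 := Real.sq_sqrt hQ
  generalize √P = x at h1 ⊢
  generalize √Q = y at h2 ⊢
  subst h1 h2
  have : τ / σ / 2 * x ^ 2 + σ / τ / 2 * y ^ 2 - x * y = (τ * x - σ * y) ^ 2 / (2 * σ * τ) := by
    field_simp
    ring
  have h3 : 0 ≤ (τ * x - σ * y) ^ 2 / (2 * σ * τ) := by positivity
  linarith

/-- the integral over `u`: if `‖F u‖ ≤ D · √(P u) · √(Q u)` with `P u = ∑ p_x LW a (A e^u) x`,
`Q u = ∑ q_b LW a (Y/A e^{-u}) b`, `x ∈ (A, 2A]`, `b ∈ (B, 2B]`, then one gains the decay factor.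
(`LW a = (LW (√2 a))²`: one factor is bounded by its supremum, the other is integrated.) -/
theorem integral_thin_le : ∃ C : ℝ, 0 < C ∧ ∀ (a Y A B : ℝ) (S T : Finset O) (p q : O → ℝ), 0 < a → a ≤ 1 →
    0 < Y → 0 < A → 0 < B → (∀ x ∈ S, 0 ≤ p x ∧ A < nm x ∧ nm x ≤ 2 * A) →
    (∀ b ∈ T, 0 ≤ q b ∧ B < nm b ∧ nm b ≤ 2 * B) →
    (Integrable fun u : ℝ => Real.exp |u| * (√(∑ x ∈ S, p x * LW a (A * Real.exp u) (nm x)) *
      √(∑ b ∈ T, q b * LW a (Y / A * Real.exp (-u)) (nm b)))) ∧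
    ∫ u : ℝ, Real.exp |u| * (√(∑ x ∈ S, p x * LW a (A * Real.exp u) (nm x)) *
      √(∑ b ∈ T, q b * LW a (Y / A * Real.exp (-u)) (nm b))) ≤
      C * a * min (A * B / Y) (Y / (A * B)) * √(∑ x ∈ S, p x) * √(∑ b ∈ T, q b) := by
  refine ⟨Real.exp 20 * (√(2 * Real.pi) * √2), by positivity,
    fun a Y A B S T p q ha ha1 hY hA hB hS hT => ?_⟩
  by_cases hp : ∑ x ∈ S, p x = 0
  · have h0 := (Finset.sum_eq_zero_iff_of_nonneg fun x hx => (hS x hx).1).1 hp
    have : ∀ u : ℝ, ∑ x ∈ S, p x * LW a (A * Real.exp u) (nm x) = 0 := fun u =>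
      Finset.sum_eq_zero fun x hx => by rw [h0 x hx, zero_mul]
    simp [this, hp]
  by_cases hq : ∑ b ∈ T, q b = 0
  · have h0 := (Finset.sum_eq_zero_iff_of_nonneg fun x hx => (hT x hx).1).1 hq
    have : ∀ u : ℝ, ∑ b ∈ T, q b * LW a (Y / A * Real.exp (-u)) (nm b) = 0 := fun u =>
      Finset.sum_eq_zero fun x hx => by rw [h0 x hx, zero_mul]
    simp [this, hq]
  have hp0 : 0 < ∑ x ∈ S, p x := lt_of_le_of_ne (Finset.sum_nonneg fun x hx => (hS x hx).1) (Ne.symm hp)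
  have hq0 : 0 < ∑ x ∈ T, q x := lt_of_le_of_ne (Finset.sum_nonneg fun x hx => (hT x hx).1) (Ne.symm hq)
  have hYA : 0 < Y / A := div_pos hY hA
  have hSx : ∀ x ∈ S, 0 < nm x := fun x hx => hA.trans (hS x hx).2.1
  have hTx : ∀ x ∈ T, 0 < nm x := fun x hx => hB.trans (hT x hx).2.1
  have ha' : 0 < √2 * a := by positivity
  obtain ⟨i1, j1⟩ := btb_int ha' hA p hSx
  obtain ⟨i2, j2⟩ := btb_int ha' hYA q hTx
  have i2' := i2.comp_neg
  have j2' := (integral_neg_eq_self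
    (fun u : ℝ => ∑ x ∈ T, q x * LW (√2 * a) (Y / A * Real.exp u) (nm x)) volume).trans j2
  obtain ⟨k1, -⟩ := btb_int ha hA p hSx
  obtain ⟨k2, -⟩ := btb_int ha hYA q hTx
  set σ := √(∑ x ∈ S, p x) with hσ
  set τ := √(∑ x ∈ T, q x) with hτ
  have hσ0 : 0 < σ := Real.sqrt_pos.2 hp0
  have hτ0 : 0 < τ := Real.sqrt_pos.2 hq0
  set m := min (A * B / Y) (Y / (A * B)) with hm
  set l := Real.log (A * B / Y) with hl
  have hABY : 0 < A * B / Y := by positivity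
  have hml : Real.exp (-|l|) ≤ m := by
    refine le_min ?_ ?_
    · rw [← Real.exp_log hABY]
      exact Real.exp_le_exp.2 (neg_abs_le _)
    · rw [← inv_div, ← Real.exp_log hABY, ← Real.exp_neg]
      exact Real.exp_le_exp.2 (neg_le_neg (le_abs_self _))
  have hm0 : 0 < m := (Real.exp_pos _).trans_le hml
  have hbd : ∀ u : ℝ, Real.exp |u| * (√(∑ x ∈ S, p x * LW a (A * Real.exp u) (nm x)) *
      √(∑ b ∈ T, q b * LW a (Y / A * Real.exp (-u)) (nm b))) ≤ Real.exp 20 * m *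
        (τ / σ / 2 * ∑ x ∈ S, p x * LW (√2 * a) (A * Real.exp u) (nm x) +
          σ / τ / 2 * ∑ b ∈ T, q b * LW (√2 * a) (Y / A * Real.exp (-u)) (nm b)) := by
    intro u
    have e1 := btb_sqrt (Z := A * Real.exp u) (c := |u|) ha ha1 (S := S) (p := p) fun x hx => by
      refine ⟨(hS x hx).1, ?_⟩
      rw [bta_log hA (hSx x hx)]
      have := btb_log hA (hS x hx).2.1 (hS x hx).2.2
      have := abs_sub_abs_le_abs_sub u (Real.log (nm x / A))
      rw [abs_sub_comm]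
      linarith
    have e2 := btb_sqrt (Z := Y / A * Real.exp (-u)) (c := |u + l|) ha ha1 (S := T) (p := q)
      fun x hx => by
        refine ⟨(hT x hx).1, ?_⟩
        have hx0 := hTx x hx
        rw [bta_log hYA hx0, show nm x / (Y / A) = nm x / B * (A * B / Y) by field_simp,
          Real.log_mul (by positivity) hABY.ne', ← hl]
        have h1 := btb_log hB (hT x hx).2.1 (hT x hx).2.2
        have h2 := abs_sub_abs_le_abs_sub (u + l) (-Real.log (nm x / B))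
        rw [abs_neg] at h2
        rw [show Real.log (nm x / B) + l - -u = u + l - -Real.log (nm x / B) by ring]
        linarith
    have e3 := btb_amgm (P := ∑ x ∈ S, p x * LW (√2 * a) (A * Real.exp u) (nm x))
      (Q := ∑ b ∈ T, q b * LW (√2 * a) (Y / A * Real.exp (-u)) (nm b))
      (Finset.sum_nonneg fun x hx => mul_nonneg (hS x hx).1 (LW_pos _ _ _).le)
      (Finset.sum_nonneg fun x hx => mul_nonneg (hT x hx).1 (LW_pos _ _ _).le) hσ0 hτ0
    have e4 : Real.exp |u| * (Real.exp (10 - 2 * |u|) * Real.exp (10 - 2 * |u + l|)) ≤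
        Real.exp 20 * m := by
      refine le_trans ?_ (mul_le_mul_of_nonneg_left hml (Real.exp_pos _).le)
      rw [← Real.exp_add, ← Real.exp_add, ← Real.exp_add]
      refine Real.exp_le_exp.2 ?_
      have h1 := abs_sub (u + l) u
      rw [add_sub_cancel_left] at h1
      have := abs_nonneg (u + l)
      linarith
    calc _ ≤ Real.exp |u| * ((Real.exp (10 - 2 * |u|) *
            √(∑ x ∈ S, p x * LW (√2 * a) (A * Real.exp u) (nm x))) * (Real.exp (10 - 2 * |u + l|) *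
            √(∑ b ∈ T, q b * LW (√2 * a) (Y / A * Real.exp (-u)) (nm b)))) :=
          mul_le_mul_of_nonneg_left (mul_le_mul e1 e2 (Real.sqrt_nonneg _) (by positivity))
            (Real.exp_pos _).le
      _ = Real.exp |u| * (Real.exp (10 - 2 * |u|) * Real.exp (10 - 2 * |u + l|)) *
            (√(∑ x ∈ S, p x * LW (√2 * a) (A * Real.exp u) (nm x)) *
              √(∑ b ∈ T, q b * LW (√2 * a) (Y / A * Real.exp (-u)) (nm b))) := by ring
      _ ≤ _ := mul_le_mul e4 e3 (by positivity) (by positivity)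
  have hI : Integrable fun u : ℝ => Real.exp 20 * m *
      (τ / σ / 2 * ∑ x ∈ S, p x * LW (√2 * a) (A * Real.exp u) (nm x) +
        σ / τ / 2 * ∑ b ∈ T, q b * LW (√2 * a) (Y / A * Real.exp (-u)) (nm b)) :=
    ((i1.const_mul _).add (i2'.const_mul _)).const_mul _
  have hI0 : Integrable fun u : ℝ => Real.exp |u| * (√(∑ x ∈ S, p x * LW a (A * Real.exp u) (nm x)) *
      √(∑ b ∈ T, q b * LW a (Y / A * Real.exp (-u)) (nm b))) := by
    refine hI.mono' ?_ (Filter.Eventually.of_forall fun u => ?_)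
    · exact (Real.continuous_exp.comp continuous_abs).aestronglyMeasurable.mul
        ((Real.continuous_sqrt.comp_aestronglyMeasurable k1.1).mul
          (Real.continuous_sqrt.comp_aestronglyMeasurable k2.comp_neg.1))
    · rw [Real.norm_of_nonneg (by positivity)]
      exact hbd u
  refine ⟨hI0, (integral_mono hI0 hI hbd).trans (le_of_eq ?_)⟩
  rw [integral_const_mul, integral_add (i1.const_mul _) (i2'.const_mul _), integral_const_mul,
    integral_const_mul, j1, j2', ← Real.sq_sqrt hp0.le, ← Real.sq_sqrt hq0.le, ← hσ, ← hτ]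
  field_simp
  ring

/-- grouping the terms of the bilinear form by the product `x b` -/
theorem btc_key (k : ℕ) : ∃ C : ℝ, 0 < C ∧ ∀ (a Y XA XB : ℝ) (α γ : O → ℂ) (ok : O → Prop),
    Dv k α → Dv k γ → (∀ x b, α x ≠ 0 → γ b ≠ 0 → ok (x * b)) →
    ∃ S : Finset O, (∀ n ∈ S, n ≠ 0 ∧ ok n) ∧
      ‖Bil a Y α γ XA XB‖ ≤ C * ∑ n ∈ S, nm n * LW a Y (nm n) := by
  classical
  obtain ⟨C₁, hC₁, h₁⟩ := dn_pow_le k (ε := 1 / 2) (by norm_num)
  obtain ⟨C₂, hC₂, h₂⟩ := card_divisors_le (ε := 1 / 2) (by norm_num)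
  refine ⟨3 * C₁ ^ 2 * C₂, by positivity, fun a Y XA XB α γ ok hα hγ hok => ?_⟩
  set T : Finset (O × O) := (ball XA ×ˢ ball XB).filter
    fun p => α p.1 ≠ 0 ∧ γ p.2 ≠ 0 ∧ p.1 * p.2 ≠ 0 with hT
  refine ⟨T.image fun p => p.1 * p.2, ?_, ?_⟩
  · intro n hn
    obtain ⟨p, hp, rfl⟩ := Finset.mem_image.1 hn
    obtain ⟨-, h1, h2, h3⟩ := Finset.mem_filter.1 hp
    exact ⟨h3, hok _ _ h1 h2⟩
  have e1 : Bil a Y α γ XA XB =
      ∑ p ∈ T, α p.1 * γ p.2 * f0 (p.1 * p.2) * (LW a Y (nm (p.1 * p.2)) : ℂ) := by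
    unfold Bil
    rw [← Finset.sum_product', hT, Finset.sum_filter]
    refine Finset.sum_congr rfl fun p _ => ?_
    split_ifs with h
    · rfl
    · by_cases h1 : α p.1 = 0
      · simp [h1]
      by_cases h2 : γ p.2 = 0
      · simp [h2]
      have h3 : p.1 * p.2 = 0 := by
        by_contra h3
        exact h ⟨h1, h2, h3⟩
      have h4 : f0 (p.1 * p.2) = 0 := f0_eq_zero fun hh => hh.ne_zero h3
      simp [h4]
  set g : O → ℝ := fun n => 3 * C₁ ^ 2 * (nm n ^ (1 / 2 : ℝ) * LW a Y (nm n)) with hg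
  have hg0 : ∀ n, 0 ≤ g n := fun n => by
    have := (LW_pos a Y (nm n)).le
    have := Real.rpow_nonneg (nm_nonneg n) (1 / 2 : ℝ)
    simp only [hg]
    positivity
  have e2 : ‖Bil a Y α γ XA XB‖ ≤ ∑ p ∈ T, g (p.1 * p.2) := by
    rw [e1]
    refine (norm_sum_le _ _).trans (Finset.sum_le_sum fun p hp => ?_)
    have hp0 : p.1 * p.2 ≠ 0 := (Finset.mem_filter.1 hp).2.2.2
    have a1 : ‖α p.1‖ ≤ C₁ * nm p.1 ^ (1 / 2 : ℝ) :=
      (hα _).trans (h₁ _ (left_ne_zero_of_mul hp0))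
    have a2 : ‖γ p.2‖ ≤ C₁ * nm p.2 ^ (1 / 2 : ℝ) :=
      (hγ _).trans (h₁ _ (right_ne_zero_of_mul hp0))
    have a3 := norm_f0_le (p.1 * p.2)
    have a4 := (LW_pos a Y (nm (p.1 * p.2))).le
    have a5 := Real.rpow_nonneg (nm_nonneg p.1) (1 / 2 : ℝ)
    have a6 := Real.rpow_nonneg (nm_nonneg p.2) (1 / 2 : ℝ)
    rw [norm_mul, norm_mul, norm_mul, Complex.norm_real, Real.norm_eq_abs, abs_of_nonneg a4]
    calc ‖α p.1‖ * ‖γ p.2‖ * ‖f0 (p.1 * p.2)‖ * LW a Y (nm (p.1 * p.2))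
        ≤ (C₁ * nm p.1 ^ (1 / 2 : ℝ)) * (C₁ * nm p.2 ^ (1 / 2 : ℝ)) * 3 * LW a Y (nm (p.1 * p.2)) := by
          gcongr
      _ = g (p.1 * p.2) := by
          simp only [hg]
          rw [nm_mul p.1 p.2, Real.mul_rpow (nm_nonneg _) (nm_nonneg _)]
          ring
  refine e2.trans ?_
  rw [Finset.sum_comp g (fun p : O × O => p.1 * p.2), Finset.mul_sum]
  refine Finset.sum_le_sum fun n hn => ?_
  have hn0 : n ≠ 0 := by
    obtain ⟨p, hp, rfl⟩ := Finset.mem_image.1 hn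
    exact (Finset.mem_filter.1 hp).2.2.2
  have hcard : ((T.filter fun p => p.1 * p.2 = n).card : ℝ) ≤ C₂ * nm n ^ (1 / 2 : ℝ) := by
    have hinj : Set.InjOn (fun p : O × O => p.1) (T.filter fun p => p.1 * p.2 = n : Finset (O × O)) := by
      intro p hp q hq hpq
      have hp' := (Finset.mem_filter.1 (Finset.mem_coe.1 hp)).2
      have hq' := (Finset.mem_filter.1 (Finset.mem_coe.1 hq)).2
      have h0 : p.1 ≠ 0 := by
        intro h0
        rw [h0, zero_mul] at hp'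
        exact hn0 hp'.symm
      have hpq' : p.1 = q.1 := hpq
      refine Prod.ext hpq' (mul_left_cancel₀ h0 ?_)
      rw [hp', hpq', hq']
    rw [← Finset.card_image_of_injOn hinj]
    refine h₂ n _ hn0 fun d hd => ?_
    obtain ⟨p, hp, rfl⟩ := Finset.mem_image.1 hd
    exact ⟨p.2, (Finset.mem_filter.1 hp).2.symm⟩
  rw [nsmul_eq_mul]
  have e3 : nm n ^ (1 / 2 : ℝ) * nm n ^ (1 / 2 : ℝ) = nm n := by
    rw [← Real.rpow_add (nm_pos hn0)]; norm_num
  calc ((T.filter fun p => p.1 * p.2 = n).card : ℝ) * g n ≤ (C₂ * nm n ^ (1 / 2 : ℝ)) * g n :=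
        mul_le_mul_of_nonneg_right hcard (hg0 n)
    _ = 3 * C₁ ^ 2 * C₂ * ((nm n ^ (1 / 2 : ℝ) * nm n ^ (1 / 2 : ℝ)) * LW a Y (nm n)) := by
        simp only [hg]; ring
    _ = _ := by rw [e3]

theorem btc_bdd (k : ℕ) : ∃ C : ℝ, 0 < C ∧ ∀ (Y a XA XB : ℝ) (α γ : O → ℂ), 1 ≤ Y →
    0 < a → a ≤ 1 → Dv k α → Dv k γ → ‖Bil a Y α γ XA XB‖ ≤ C * Y ^ 2 := by
  obtain ⟨C₁, hC₁, h₁⟩ := btc_key k
  obtain ⟨C₂, hC₂, h₂⟩ := sum_LW_le
  refine ⟨C₁ * (Real.exp 1 * (C₂ * (2 * Real.exp 1))), by positivity,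
    fun Y a XA XB α γ hY ha ha1 hα hγ => ?_⟩
  obtain ⟨S, hS, hB⟩ := h₁ a Y XA XB α γ (fun _ => True) hα hγ (fun _ _ _ _ => trivial)
  have hY0 : 0 < Y := by linarith
  have ha2 : a ^ 2 ≤ 1 := by nlinarith
  have ha3 : 0 ≤ a ^ 2 := by positivity
  set Z := Y * Real.exp (a ^ 2 * 1) with hZ
  have hZ1 : 1 ≤ Z := by
    have : 1 ≤ Real.exp (a ^ 2 * 1) := Real.one_le_exp (by linarith)
    nlinarith
  have hZ2 : Z ≤ Y * Real.exp 1 :=
    mul_le_mul_of_nonneg_left (Real.exp_le_exp.2 (by linarith)) hY0.le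
  have e1 : ∑ n ∈ S, nm n * LW a Y (nm n) =
      Y * Real.exp (a ^ 2 * 1 ^ 2 / 2) * ∑ n ∈ S, LW a Z (nm n) := by
    rw [Finset.mul_sum]
    refine Finset.sum_congr rfl fun n hn => ?_
    have := LW_mul_rpow ha hY0 (nm_pos (hS n hn).1) 1
    rw [Real.rpow_one, Real.rpow_one] at this
    rw [mul_comm, this]
  have e2 := h₂ a Z S ha (by linarith) (by linarith) (fun n hn => (hS n hn).1)
  have e3 : Real.sqrt Z ≤ Z := by
    rw [Real.sqrt_le_left (by linarith)]; nlinarith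
  have e4 : a * Z + Real.sqrt Z ≤ 2 * Real.exp 1 * Y := by nlinarith
  have e5 : Real.exp (a ^ 2 * 1 ^ 2 / 2) ≤ Real.exp 1 := Real.exp_le_exp.2 (by linarith)
  have e6 : ∑ n ∈ S, LW a Z (nm n) ≤ C₂ * (2 * Real.exp 1 * Y) :=
    e2.trans (mul_le_mul_of_nonneg_left e4 hC₂.le)
  have e7 : 0 ≤ ∑ n ∈ S, LW a Z (nm n) := Finset.sum_nonneg fun n _ => (LW_pos _ _ _).le
  refine hB.trans ?_
  rw [e1]
  calc C₁ * (Y * Real.exp (a ^ 2 * 1 ^ 2 / 2) * ∑ n ∈ S, LW a Z (nm n))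
      ≤ C₁ * (Y * Real.exp 1 * (C₂ * (2 * Real.exp 1 * Y))) := by gcongr
    _ = _ := by ring

open Classical in
theorem btc_split {γ : O → ℂ} {B X : ℝ} (hγ : Supp γ B X) {p : O} (hp : Prime p) (x : O) :
    XG γ X x = XG γ X (x * p ^ 3) + XG (fun b => if p ∣ b then γ b else 0) X x := by
  unfold XG
  rw [← Finset.sum_add_distrib]
  refine Finset.sum_congr rfl fun b _ => ?_
  by_cases h0 : γ b = 0
  · simp [h0]
  have hb : IsCoprime b 3 := (hγ b h0).1.1.coprime_three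
  rw [cb_mul_left, cb_pow_left p b (by norm_num), cb_pow_three]
  by_cases h : p ∣ b
  · have : ¬ IsCoprime p b := fun hc => hp.not_isUnit (hc.isUnit_of_dvd' dvd_rfl h)
    simp [h, this]
  · have : IsCoprime p b := (hp.coprime_iff_not_dvd).2 h
    simp [h, this, hb]

theorem btc_LW_ge {Y x : ℝ} (hY : 0 < Y) (h1 : Y ≤ x) (h2 : x ≤ 16 * Y) :
    1 ≤ Real.exp (Real.log 16 ^ 2 / 2) * LW 1 Y x := by
  unfold LW
  rw [← Real.exp_add]
  refine Real.one_le_exp ?_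
  have a1 : 1 ≤ x / Y := by rw [le_div_iff₀ hY]; linarith
  have a2 : x / Y ≤ 16 := by rw [div_le_iff₀ hY]; linarith
  have a3 : 0 ≤ Real.log (x / Y) := Real.log_nonneg a1
  have a4 : Real.log (x / Y) ≤ Real.log 16 := Real.log_le_log (by linarith) a2
  have a5 : Real.log (x / Y) ^ 2 ≤ Real.log 16 ^ 2 := pow_le_pow_left₀ a3 a4 2
  linarith

/-- far from `A B = Y` the form is negligible -/
theorem Bil_far (k : ℕ) (J ε : ℝ) (hε : 0 < ε) : ∃ C : ℝ, 0 < C ∧ ∀ (Y a A B : ℝ) (α γ : O → ℂ), 1 ≤ Y →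
    0 < a → a ≤ 1 → 0 < A → 0 < B → Supp α A (2 * A) → Supp γ B (2 * B) → Dv k α → Dv k γ →
    (A * B ≤ Y ^ (1 - ε) ∨ Y ^ (1 + ε) ≤ A * B) → ‖Bil a Y α γ (2 * A) (2 * B)‖ ≤ C * Y ^ (-J) := by
  obtain ⟨C₁, hC₁, h₁⟩ := btc_key k
  obtain ⟨C₂, hC₂, h₂⟩ := LW_tail 1 J (ε / 2) (by linarith)
  obtain ⟨C₃, hC₃, h₃⟩ := btc_bdd k
  set Y₀ : ℝ := (4 : ℝ) ^ (2 / ε) with hY₀
  have hY₀0 : 0 < Y₀ := by positivity
  refine ⟨C₁ * C₂ + C₃ * Y₀ ^ (2 + |J|), by positivity,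
    fun Y a A B α γ hY ha ha1 hA hB hα hγ hdα hdγ hfar => ?_⟩
  have hY0 : 0 < Y := by linarith
  have hYJ : 0 < Y ^ (-J) := Real.rpow_pos_of_pos hY0 _
  have hp1 : 0 ≤ C₁ * C₂ * Y ^ (-J) := by positivity
  have hp2 : 0 ≤ C₃ * Y₀ ^ (2 + |J|) * Y ^ (-J) := by positivity
  by_cases hYY : Y ≤ Y₀
  · have e1 := h₃ Y a (2 * A) (2 * B) α γ hY ha ha1 hdα hdγ
    have e2 : Y ^ 2 = Y ^ (2 + J) * Y ^ (-J) := by
      rw [← Real.rpow_add hY0]
      norm_num
    have e3 : Y ^ (2 + J) ≤ Y₀ ^ (2 + |J|) :=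
      (Real.rpow_le_rpow_of_exponent_le hY (by linarith [le_abs_self J])).trans
        (Real.rpow_le_rpow hY0.le hYY (by positivity))
    have e4 : C₃ * Y ^ 2 ≤ C₃ * Y₀ ^ (2 + |J|) * Y ^ (-J) := by
      rw [e2, mul_assoc]
      gcongr
    nlinarith
  · push Not at hYY
    have h4 : 4 ≤ Y ^ (ε / 2) := by
      have e1 : Y₀ ^ (ε / 2) = 4 := by
        rw [hY₀, ← Real.rpow_mul (by norm_num)]
        have : 2 / ε * (ε / 2) = 1 := by field_simp
        rw [this, Real.rpow_one]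
      rw [← e1]
      exact Real.rpow_le_rpow hY₀0.le hYY.le (by linarith)
    obtain ⟨S, hS, hBd⟩ := h₁ a Y (2 * A) (2 * B) α γ
      (fun n => nm n ≤ Y * Y ^ (-(ε / 2)) ∨ Y * Y ^ (ε / 2) ≤ nm n) hdα hdγ (fun x b hx hb => by
        obtain ⟨-, a1, a2⟩ := hα x hx
        obtain ⟨-, b1, b2⟩ := hγ b hb
        rw [nm_mul]
        rcases hfar with hf | hf
        · left
          have e1 : Y * Y ^ (-(ε / 2)) = Y ^ (ε / 2) * Y ^ (1 - ε) := by
            have e0 : Y * Y ^ (-(ε / 2)) = Y ^ (1 + -(ε / 2)) := by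
              rw [Real.rpow_add hY0, Real.rpow_one]
            rw [e0, ← Real.rpow_add hY0]
            congr 1
            ring
          have e2 : nm x * nm b ≤ (2 * A) * (2 * B) :=
            mul_le_mul a2 b2 (nm_nonneg _) (by linarith)
          have e3 : 0 < Y ^ (1 - ε) := Real.rpow_pos_of_pos hY0 _
          rw [e1]
          nlinarith
        · right
          have e1 : Y * Y ^ (ε / 2) ≤ Y ^ (1 + ε) := by
            rw [Real.rpow_add hY0, Real.rpow_one]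
            exact mul_le_mul_of_nonneg_left
              (Real.rpow_le_rpow_of_exponent_le hY (by linarith)) hY0.le
          have e2 : A * B ≤ nm x * nm b := mul_le_mul a1.le b1.le hB.le (nm_nonneg _)
          linarith)
    have e1 := h₂ a Y Y S ha (by linarith) hY hY0 le_rfl hS
    simp only [abs_one, Real.rpow_one] at e1
    have e2 : C₁ * ∑ n ∈ S, nm n * LW a Y (nm n) ≤ C₁ * (C₂ * Y ^ (-J)) :=
      mul_le_mul_of_nonneg_left e1 hC₁.le
    nlinarith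

/-- bounded `Y` -/
theorem Bil_bdd (k : ℕ) : ∃ C : ℝ, 0 < C ∧ ∀ (Y a XA XB : ℝ) (α γ : O → ℂ), 1 ≤ Y →
    0 < a → a ≤ 1 → Dv k α → Dv k γ → ‖Bil a Y α γ XA XB‖ ≤ C * Y ^ 2 := by
  exact btc_bdd k

theorem Bil_comm (a Y : ℝ) (α γ : O → ℂ) (XA XB : ℝ) : Bil a Y α γ XA XB = Bil a Y γ α XB XA := by
  unfold Bil
  rw [Finset.sum_comm]
  refine Finset.sum_congr rfl fun b _ => Finset.sum_congr rfl fun x _ => ?_
  rw [mul_comm x b, mul_comm (α x) (γ b)]

open Classical in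
/-- amplification: `cb (x p³) b = cb x b` unless `p ∣ b`; an element of norm `≤ 16 A P³` has at most
`log (16 A P³) / log P` prime divisors of norm `≥ P` (`card_large_primes_le`) -/
theorem amp : ∃ C : ℝ, 0 < C ∧ ∀ (A P B X : ℝ) (R Ps : Finset O) (γ : O → ℂ), 1 ≤ A → 2 ≤ P → Supp γ B X →
    (∀ x ∈ R, Prim x ∧ A ≤ nm x ∧ nm x ≤ 2 * A) →
    (∀ p ∈ Ps, Prime p ∧ Prim p ∧ P ≤ nm p ∧ nm p ≤ 2 * P) →
    (Ps.card : ℝ) * ∑ x ∈ R, ‖XG γ X x‖ ^ 2 ≤
      C * (Real.log (16 * A * P ^ 3) / Real.log P) * EN 1 (A * P ^ 3) γ X +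
        2 * ∑ p ∈ Ps, ∑ x ∈ R, ‖XG (fun b => if p ∣ b then γ b else 0) X x‖ ^ 2 := by
  refine ⟨2 * Real.exp (Real.log 16 ^ 2 / 2), by positivity,
    fun A P B X R Ps γ hA hP hγ hR hPs => ?_⟩
  set E := Real.exp (Real.log 16 ^ 2 / 2) with hE
  set L := Real.log (16 * A * P ^ 3) / Real.log P with hL
  have hP0 : 0 < P := by linarith
  have hP3 : 0 < P ^ 3 := by positivity
  have hAP : 0 < A * P ^ 3 := by positivity
  have hlogP : 0 < Real.log P := Real.log_pos (by linarith)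
  have hL0 : 0 ≤ L := by
    refine div_nonneg (Real.log_nonneg ?_) hlogP.le
    have : 1 ≤ P ^ 3 := one_le_pow₀ (by linarith)
    nlinarith
  have h1 : (Ps.card : ℝ) * ∑ x ∈ R, ‖XG γ X x‖ ^ 2 ≤
      2 * ∑ p ∈ Ps, ∑ x ∈ R, ‖XG γ X (x * p ^ 3)‖ ^ 2 +
        2 * ∑ p ∈ Ps, ∑ x ∈ R, ‖XG (fun b => if p ∣ b then γ b else 0) X x‖ ^ 2 := by
    rw [← nsmul_eq_mul, ← Finset.sum_const, Finset.mul_sum, Finset.mul_sum,
      ← Finset.sum_add_distrib]
    refine Finset.sum_le_sum fun p hp => ?_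
    rw [Finset.mul_sum, Finset.mul_sum, ← Finset.sum_add_distrib]
    refine Finset.sum_le_sum fun x _ => ?_
    have e1 := btc_split hγ (hPs p hp).1 x
    have e2 : ‖XG γ X x‖ ≤ ‖XG γ X (x * p ^ 3)‖ +
        ‖XG (fun b => if p ∣ b then γ b else 0) X x‖ := by
      conv_lhs => rw [e1]
      exact norm_add_le _ _
    have e3 := pow_le_pow_left₀ (norm_nonneg _) e2 2
    nlinarith [sq_nonneg (‖XG γ X (x * p ^ 3)‖ - ‖XG (fun b => if p ∣ b then γ b else 0) X x‖)]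
  have h2 : ∑ p ∈ Ps, ∑ x ∈ R, ‖XG γ X (x * p ^ 3)‖ ^ 2 ≤ E * L * EN 1 (A * P ^ 3) γ X := by
    rw [← Finset.sum_product',
      Finset.sum_comp (fun n => ‖XG γ X n‖ ^ 2) (fun q : O × O => q.2 * q.1 ^ 3)]
    have hS : ∀ n ∈ (Ps ×ˢ R).image (fun q : O × O => q.2 * q.1 ^ 3),
        Prim n ∧ A * P ^ 3 ≤ nm n ∧ nm n ≤ 16 * (A * P ^ 3) := by
      intro n hn
      obtain ⟨q, hq, rfl⟩ := Finset.mem_image.1 hn
      obtain ⟨hq1, hq2⟩ := Finset.mem_product.1 hq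
      obtain ⟨-, a1, a2, a3⟩ := hPs _ hq1
      obtain ⟨b1, b2, b3⟩ := hR _ hq2
      have c1 : P ^ 3 ≤ nm q.1 ^ 3 := pow_le_pow_left₀ hP0.le a2 3
      have c2 : nm q.1 ^ 3 ≤ (2 * P) ^ 3 := pow_le_pow_left₀ (nm_nonneg _) a3 3
      refine ⟨b1.mul (a1.pow 3), ?_, ?_⟩
      · rw [nm_mul, nm_pow]
        exact mul_le_mul b2 c1 hP3.le (nm_nonneg _)
      · rw [nm_mul, nm_pow]
        calc nm q.2 * nm q.1 ^ 3 ≤ (2 * A) * (2 * P) ^ 3 :=
              mul_le_mul b3 c2 (pow_nonneg (nm_nonneg _) 3) (by linarith)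
          _ = _ := by ring
    have h3 := sum_le_EN (a := 1) one_pos hAP γ X (fun n hn => (hS n hn).1)
    refine le_trans ?_ (mul_le_mul_of_nonneg_left h3 (by positivity))
    rw [Finset.mul_sum]
    refine Finset.sum_le_sum fun n hn => ?_
    obtain ⟨n1, n2, n3⟩ := hS n hn
    have hn0 := n1.ne_zero
    have hcard : (((Ps ×ˢ R).filter fun q : O × O => q.2 * q.1 ^ 3 = n).card : ℝ) ≤ L := by
      have hinj : Set.InjOn (fun q : O × O => q.1)
          ((Ps ×ˢ R).filter fun q : O × O => q.2 * q.1 ^ 3 = n : Finset (O × O)) := by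
        intro p hp q hq hpq
        have hp' := (Finset.mem_filter.1 (Finset.mem_coe.1 hp)).2
        have hq' := (Finset.mem_filter.1 (Finset.mem_coe.1 hq)).2
        have h0 : p.1 ^ 3 ≠ 0 := by
          intro h0
          rw [h0, mul_zero] at hp'
          exact hn0 hp'.symm
        have hpq' : p.1 = q.1 := hpq
        refine Prod.ext hpq' (mul_right_cancel₀ h0 ?_)
        rw [hp', hpq', hq']
      rw [← Finset.card_image_of_injOn hinj]
      refine (card_large_primes_le hn0 (P := P) (by linarith) fun d hd => ?_).trans ?_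
      · obtain ⟨q, hq, rfl⟩ := Finset.mem_image.1 hd
        obtain ⟨hq1, hq2⟩ := Finset.mem_filter.1 hq
        obtain ⟨a0, a1, a2, -⟩ := hPs _ (Finset.mem_product.1 hq1).1
        refine ⟨a0, a1, ?_, a2⟩
        rw [← hq2]
        exact Dvd.dvd.mul_left (dvd_pow_self _ (by norm_num)) _
      · refine div_le_div_of_nonneg_right (Real.log_le_log (nm_pos hn0) ?_) hlogP.le
        linarith
    have h4 := btc_LW_ge hAP n2 n3
    rw [nsmul_eq_mul]
    have h5 : 0 ≤ ‖XG γ X n‖ ^ 2 := by positivity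
    calc (((Ps ×ˢ R).filter fun q : O × O => q.2 * q.1 ^ 3 = n).card : ℝ) * ‖XG γ X n‖ ^ 2
        ≤ L * ‖XG γ X n‖ ^ 2 := mul_le_mul_of_nonneg_right hcard h5
      _ = 1 * (L * ‖XG γ X n‖ ^ 2) := by ring
      _ ≤ (E * LW 1 (A * P ^ 3) (nm n)) * (L * ‖XG γ X n‖ ^ 2) :=
          mul_le_mul_of_nonneg_right h4 (mul_nonneg hL0 h5)
      _ = _ := by ring
  nlinarith

end Crest.Agent.R12
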