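import Crest.Agent.R12.Iface
import Crest.Agent.R12.Base.G
import Crest.Agent.R12.Base.Lat
import Crest.Agent.R12.Base.Div
import Crest.Agent.R12.Base.BV
import Crest.Agent.R12.Base.Thin
import Crest.Agent.R12.Base.Cube
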