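import Crest.Agent.R12.Base.All
import Crest.Agent.R17.M2.Hecke
import Crest.Agent.R17.M1.Elem

/-! Row 12, shared by QA and QB (owner helper15): labels and squarefreeness (exact identities).
Coprimality to the label `l` goes into the row (`k ↦ k l³`), `μ²(n) = ∑_{d² ∣ n} μ(d)` is cut at `N d ≤ L`. -/

set_option autoImplicit false

namespace Crest.Agent.R12.QA

open Crest.Agent.R17
open Crest.Agent.R17.M2 (cv Tq Dec Mu)
open scoped ComplexConjugate

open Classical in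
/-- the column cut out of `f` -/
noncomputable def gam (f : O → ℂ) (B X : ℝ) (b : O) : ℂ :=
  if PSq b ∧ B < nm b ∧ nm b ≤ X then f b else 0

open Classical in
/-- the part of `μ²(n) = ∑_{d² ∣ n} μ(d)` with `N d > L` -/
noncomputable def rL (L : ℝ) (n : O) : ℂ :=
  (if Squarefree n then 1 else 0) - ∑ d ∈ pball L, if d ^ 2 ∣ n then mu d else 0

open Classical in
/-- the coefficients of the large square divisors -/
noncomputable def lg (f : O → ℂ) (B X L : ℝ) (l n : O) : ℂ :=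
  if B < nm (l * n) ∧ nm (l * n) ≤ X then rL L n * f (l * n) else 0

open Classical in
/-- the mass of `f` outside `(B, X]` -/
noncomputable def tl (f : O → ℂ) (B X : ℝ) : ℝ :=
  ∑' b : Pr, if B < nm b ∧ nm b ≤ X then 0 else ‖f b‖

open Classical in
/-- `Finset.sum_sigma'`/`sum_bij`, `mem_anti`, `mem_pball`, `nm_le_of_dvd` -/
theorem sum_anti_ball {X Y : ℝ} (h : X ≤ Y) (F : O → O → ℂ) :
    ∑ b ∈ pball X, ∑ p ∈ anti b, F p.1 p.2 =
      ∑ m ∈ pball Y, ∑ n ∈ pball Y, if nm (m * n) ≤ X then F m n else 0 := by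
  rw [Finset.sum_sigma', ← Finset.sum_product', ← Finset.sum_filter]
  refine Finset.sum_bij' (fun q _ => q.2) (fun p _ => ⟨p.1 * p.2, p⟩) ?_ ?_ ?_ (fun _ _ => rfl)
    fun _ _ => rfl
  · rintro ⟨b, p⟩ hq
    obtain ⟨h1, h2⟩ := Finset.mem_sigma.1 hq
    obtain ⟨h3, h4⟩ := mem_pball.1 h1
    obtain ⟨h5, h6, h7⟩ := mem_anti.1 h2
    dsimp only at h3 h4 h5 h6 h7 ⊢
    exact Finset.mem_filter.2 ⟨Finset.mem_product.2
      ⟨mem_pball.2 ⟨(nm_le_of_dvd (Dvd.intro _ h7) h4.ne_zero).trans (h3.trans h), h5⟩,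
        mem_pball.2 ⟨(nm_le_of_dvd (Dvd.intro_left _ h7) h4.ne_zero).trans (h3.trans h), h6⟩⟩, h7 ▸ h3⟩
  · intro p hp
    obtain ⟨h1, h2⟩ := Finset.mem_filter.1 hp
    obtain ⟨h3, h4⟩ := Finset.mem_product.1 h1
    have h5 := (mem_pball.1 h3).2
    have h6 := (mem_pball.1 h4).2
    exact Finset.mem_sigma.2 ⟨mem_pball.2 ⟨h2, h5.mul h6⟩, mem_anti.2 ⟨h5, h6, rfl⟩⟩
  · rintro ⟨b, p⟩ hq
    obtain rfl : p.1 * p.2 = b := (mem_anti.1 (Finset.mem_sigma.1 hq).2).2.2
    rfl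

/-- the terms with `d ^ 2 ∣ n` have `d ∈ pdiv n`; `one_le_dn` -/
theorem norm_rL_le (L : ℝ) {n : O} (hn : Prim n) : ‖rL L n‖ ≤ 2 * dn n := by
  classical
  unfold rL
  have h1 := one_le_dn hn.ne_zero
  have h2 : ‖(if Squarefree n then 1 else 0 : ℂ)‖ ≤ 1 := by split_ifs <;> simp
  have h3 : ‖∑ d ∈ pball L, if d ^ 2 ∣ n then mu d else 0‖ ≤ dn n := by
    rw [← Finset.sum_filter]
    refine (norm_sum_le _ _).trans ((Finset.sum_le_card_nsmul _ _ 1 fun d _ => norm_mu_le d).trans ?_)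
    rw [nsmul_eq_mul, mul_one]
    unfold dn
    exact_mod_cast Finset.card_le_card fun d hd => (mem_pdiv hn.ne_zero).2
      ⟨(mem_pball.1 (Finset.mem_filter.1 hd).1).2,
        (dvd_pow_self d two_ne_zero).trans (Finset.mem_filter.1 hd).2⟩
  exact (norm_sub_le _ _).trans (by linarith)

/-- `sum_mu_sq`: if every primary `d` with `d ^ 2 ∣ n` has `N d ≤ L` then `rL L n = 0`; take `s = d ^ 2` -/
theorem rL_ne_zero {L : ℝ} (hL : 0 ≤ L) {n : O} (hn : Prim n) (h : rL L n ≠ 0) :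
    ∃ s : O, Sqfull s ∧ s ∣ n ∧ L ^ 2 ≤ nm s := by
  classical
  by_contra hc
  refine h ?_
  unfold rL
  rw [sub_eq_zero, ← Finset.sum_filter]
  refine (sum_mu_sq hn).symm.trans ?_
  rw [← Finset.sum_filter]
  refine Finset.sum_congr (Finset.ext fun d => ?_) fun _ _ => rfl
  rw [Finset.mem_filter, Finset.mem_filter, mem_pdiv hn.ne_zero, mem_pball]
  refine ⟨fun hd => ⟨⟨not_lt.1 fun hl => hc ⟨d ^ 2, fun p hp h1 =>
    pow_dvd_pow_of_dvd (hp.dvd_of_dvd_pow h1) 2, hd.2, ?_⟩, hd.1.1⟩, hd.2⟩,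
    fun hd => ⟨⟨hd.1.2, (dvd_pow_self d two_ne_zero).trans hd.2⟩, hd.2⟩⟩
  rw [nm_pow]
  exact pow_le_pow_left₀ hL hl.le 2

open Classical in
/-- coprimality to the label goes into the row: `cb (l ^ 3) n = 1_{(l, n) = 1}` for primary `n`
(`psq_mul_iff`, `cb_mul_cube`, `Prim.of_mul`) -/
theorem gam_row {l : O} (hl : PSq l) (f : O → ℂ) (B X : ℝ) (k n : O) :
    gam f B X (l * n) * cb k n = if Prim n ∧ B < nm (l * n) ∧ nm (l * n) ≤ X then
      (if Squarefree n then 1 else 0) * f (l * n) * cb (k * l ^ 3) n else 0 := by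
  unfold gam
  by_cases hn : Prim n
  · rw [cb_mul_cube k l hn]
    by_cases hr : B < nm (l * n) ∧ nm (l * n) ≤ X
    · rw [if_pos (And.intro hn hr)]
      by_cases hs : PSq (l * n)
      · obtain ⟨-, h2, h3⟩ := (psq_mul_iff hl.1 hn).1 hs
        rw [if_pos (And.intro hs hr), if_pos h2.2, if_pos h3.symm, one_mul]
      · rw [if_neg fun h => hs h.1, zero_mul]
        by_cases h2 : Squarefree n
        · rw [if_neg fun h3 : IsCoprime n l => hs ((psq_mul_iff hl.1 hn).2 ⟨hl, ⟨hn, h2⟩, h3.symm⟩),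
            mul_zero]
        · rw [if_neg h2, zero_mul, zero_mul]
    · rw [if_neg fun h => hr h.2, if_neg fun h => hr h.2, zero_mul]
  · rw [if_neg fun h => hn (hl.1.of_mul h.1.1), if_neg fun h => hn h.1, zero_mul]

theorem mu_cb (k : O) : Mu 0 (cb k) := by
  exact ⟨cb_one_right k, fun a b _ _ => cb_mul_right k a b, fun m _ => by
    rw [Real.rpow_zero]
    exact norm_cb_le k m⟩

theorem tl_nonneg (f : O → ℂ) (B X : ℝ) : 0 ≤ tl f B X := by
  exact tsum_nonneg fun b => by split_ifs <;> positivity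

open Classical in
/-- one `d`: the full sum over `n : Pr` is `cb k (d²) · Tq f (l d²) (cb k)` (`M2.Tq_dvd`, `mu_cb`); the missing
terms inject into the terms of `tl` by `n ↦ l n` (`Dec.summable_Tq`, `hf 0`, `norm_cb_le`). -/
theorem row_one {f : O → ℂ} (hf : Dec f) {l d : O} (hl : Prim l) (hd : Prim d) (B X : ℝ) (k : O) :
    ‖(∑ n ∈ pball X, if d ^ 2 ∣ n ∧ B < nm (l * n) ∧ nm (l * n) ≤ X then f (l * n) * cb k n else 0) -
      cb k (d ^ 2) * Tq f (l * d ^ 2) (cb k)‖ ≤ tl f B X := by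
  have hθ := mu_cb k
  have hs := (hf.summable_Tq hθ hl).of_norm
  have hu : Summable fun b : Pr => if B < nm b ∧ nm b ≤ X then 0 else ‖f b‖ := by
    refine Summable.of_nonneg_of_le (fun b => ?_) (fun b => ?_) (hf 0)
    · split_ifs
      · exact le_rfl
      · exact norm_nonneg _
    · rw [Real.rpow_zero, mul_one]
      split_ifs
      · exact norm_nonneg _
      · exact le_rfl
  have hi : Function.Injective fun n : Pr => (⟨l, hl⟩ * n : Pr) := fun a b e =>
    Subtype.ext (mul_left_cancel₀ hl.ne_zero (congrArg (fun x : Pr => (x : O)) e))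
  have e1 : (∑ n ∈ pball X, if d ^ 2 ∣ n ∧ B < nm (l * n) ∧ nm (l * n) ≤ X then f (l * n) * cb k n else 0) =
      ∑' n : Pr, if d ^ 2 ∣ (n : O) ∧ B < nm (l * n) ∧ nm (l * n) ≤ X then f (l * n) * cb k n else 0 := by
    rw [tsum_Pr_eq (fun n => if d ^ 2 ∣ n ∧ B < nm (l * n) ∧ nm (l * n) ≤ X then f (l * n) * cb k n else 0),
      tsum_eq_sum (s := pball X)]
    · exact Finset.sum_congr rfl fun n hn => by rw [if_pos (mem_pball.1 hn).2]
    · intro n hn
      split_ifs with h1 h2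
      · exact absurd (mem_pball.2 ⟨(nm_le_of_dvd (dvd_mul_left n l) (hl.mul h1).ne_zero).trans h2.2.2,
          h1⟩) hn
      · rfl
      · rfl
  have s1 : ∀ (p : Pr → Prop) [DecidablePred p],
      Summable fun n : Pr => if p n then f (l * n) * cb k n else 0 := by
    intro p _
    refine Summable.of_norm_bounded hs.norm fun n => ?_
    split_ifs
    · exact le_rfl
    · rw [norm_zero]; exact norm_nonneg _
  rw [e1, ← M2.Tq_dvd hθ (hd.pow 2) f l, ← (s1 _).tsum_sub (s1 _)]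
  refine le_trans (tsum_of_norm_bounded (hu.comp_injective hi).hasSum fun n => ?_)
    (tsum_comp_le_tsum_of_inj hu (fun b => by split_ifs <;> simp) hi)
  have h1 : ‖f (l * n) * cb k n‖ ≤ ‖f (l * n)‖ := by
    rw [norm_mul]
    exact mul_le_of_le_one_right (norm_nonneg _) (norm_cb_le _ _)
  simp only [Function.comp, Submonoid.coe_mul]
  by_cases c1 : d ^ 2 ∣ (n : O) <;> by_cases c2 : B < nm (l * n) ∧ nm (l * n) ≤ X <;> simp only [c1, c2]
    <;> simp
  simpa using h1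

/-- `gam_row`, `1_{squarefree} = rL + ∑_d`, `row_one` -/
theorem row_split {f : O → ℂ} (hf : Dec f) {l : O} (hl : PSq l) (B X L : ℝ) (k : O) :
    ‖∑ n ∈ ball X, gam f B X (l * n) * cb k n -
      ∑ d ∈ pball L, mu d * (cb (k * l ^ 3) (d ^ 2) * Tq f (l * d ^ 2) (cb (k * l ^ 3))) -
      ∑ n ∈ pball X, lg f B X L l n * cb (k * l ^ 3) n‖ ≤ (pball L).card * tl f B X := by
  classical
  have e1 : ∑ n ∈ ball X, gam f B X (l * n) * cb k n =
      ∑ n ∈ pball X, lg f B X L l n * cb (k * l ^ 3) n + ∑ d ∈ pball L, mu d *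
        ∑ n ∈ pball X, if d ^ 2 ∣ n ∧ B < nm (l * n) ∧ nm (l * n) ≤ X then
          f (l * n) * cb (k * l ^ 3) n else 0 := by
    simp only [Finset.mul_sum]
    rw [Finset.sum_comm, ← Finset.sum_add_distrib, pball, Finset.sum_filter]
    refine Finset.sum_congr rfl fun n _ => ?_
    rw [gam_row hl, lg, rL]
    by_cases c1 : Prim n
    · by_cases c2 : B < nm (l * n) ∧ nm (l * n) ≤ X
      · simp only [c1, c2, and_self, if_true, and_true, sub_mul, Finset.sum_mul, ite_mul, zero_mul,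
          mul_ite, mul_zero, mul_assoc, sub_add_cancel]
      · simp [c1, c2]
    · simp [c1]
  rw [e1, show ∀ x y z : ℂ, x + y - z - x = y - z from fun x y z => by ring, ← Finset.sum_sub_distrib,
    ← nsmul_eq_mul, ← Finset.sum_const]
  refine norm_sum_le_of_le _ fun d hd => ?_
  rw [← mul_sub, norm_mul]
  exact (mul_le_of_le_one_left (norm_nonneg _) (norm_mu_le d)).trans
    (row_one hf hl.1 (mem_pball.1 hd).2 B X _)

/-- `row_split` for the row `k h`, `(x + y + z)² ≤ 3 (x² + y² + z²)`, `M1.norm_sum_sq_le` -/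
theorem rows_split {f : O → ℂ} (hf : Dec f) {l : O} (hl : PSq l) (B X L : ℝ) (h : O) (S : Finset O) :
    ∑ k ∈ S, ‖∑ n ∈ ball X, gam f B X (l * n) * cb (k * h) n‖ ^ 2 ≤
      3 * ((pball L).card * ∑ d ∈ pball L, ∑ k ∈ S, ‖Tq f (l * d ^ 2) (cb (k * (h * l ^ 3)))‖ ^ 2 +
        ∑ k ∈ S, ‖∑ n ∈ pball X, lg f B X L l n * cb (h * l ^ 3) n * cb k n‖ ^ 2 +
        S.card * ((pball L).card * tl f B X) ^ 2) := by
  rw [Finset.sum_comm, Finset.mul_sum, ← nsmul_eq_mul S.card, ← Finset.sum_const, ← Finset.sum_add_distrib,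
    ← Finset.sum_add_distrib, Finset.mul_sum]
  refine Finset.sum_le_sum fun k _ => ?_
  have h1 := row_split hf hl B X L (k * h)
  rw [mul_assoc k h] at h1
  have e : ∑ n ∈ pball X, lg f B X L l n * cb (h * l ^ 3) n * cb k n =
      ∑ n ∈ pball X, lg f B X L l n * cb (k * (h * l ^ 3)) n :=
    Finset.sum_congr rfl fun n _ => by rw [cb_mul_left k]; ring
  rw [e]
  have h2 := M1.norm_sum_sq_le (pball L) fun d =>
    mu d * (cb (k * (h * l ^ 3)) (d ^ 2) * Tq f (l * d ^ 2) (cb (k * (h * l ^ 3))))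
  have h3 : ∑ d ∈ pball L, ‖mu d * (cb (k * (h * l ^ 3)) (d ^ 2) * Tq f (l * d ^ 2) (cb (k * (h * l ^ 3))))‖ ^ 2 ≤
      ∑ d ∈ pball L, ‖Tq f (l * d ^ 2) (cb (k * (h * l ^ 3)))‖ ^ 2 := by
    refine Finset.sum_le_sum fun d _ => pow_le_pow_left₀ (norm_nonneg _) ?_ 2
    rw [norm_mul, norm_mul]
    exact (mul_le_of_le_one_left (by positivity) (norm_mu_le d)).trans
      (mul_le_of_le_one_left (norm_nonneg _) (norm_cb_le _ _))
  have h4 := h2.trans (mul_le_mul_of_nonneg_left h3 (Nat.cast_nonneg _))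
  generalize ∑ n ∈ ball X, gam f B X (l * n) * cb (k * h) n = x at *
  generalize ∑ d ∈ pball L, mu d * (cb (k * (h * l ^ 3)) (d ^ 2) *
    Tq f (l * d ^ 2) (cb (k * (h * l ^ 3)))) = y at *
  generalize ∑ n ∈ pball X, lg f B X L l n * cb (k * (h * l ^ 3)) n = z at *
  have h5 : ‖x‖ ≤ ‖y‖ + ‖z‖ + ‖x - y - z‖ := by
    calc ‖x‖ = ‖y + z + (x - y - z)‖ := by congr 1; ring
      _ ≤ _ := norm_add₃_le
  have h6 := pow_le_pow_left₀ (norm_nonneg _) h5 2
  have h7 := pow_le_pow_left₀ (norm_nonneg _) h1 2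
  nlinarith [sq_nonneg (‖y‖ - ‖z‖), sq_nonneg (‖y‖ - ‖x - y - z‖), sq_nonneg (‖z‖ - ‖x - y - z‖)]

end Crest.Agent.R12.QA
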