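import Crest.Agent.R12.Base.All

/-! Row 12, shared by QA and QB (owner helper15): twists and separation of the variables. -/

set_option autoImplicit false

namespace Crest.Agent.R12.QA

open Crest.Agent.R17
open scoped ComplexConjugate

/-- the twist by `(N b / B)^(-iτ)` -/
noncomputable def tw (γ : O → ℂ) (B τ : ℝ) (b : O) : ℂ :=
  γ b * ((nm b / B : ℝ) : ℂ) ^ (-(τ * Complex.I))

theorem norm_tw {B : ℝ} (hB : 0 < B) (γ : O → ℂ) (τ : ℝ) (b : O) : ‖tw γ B τ b‖ ≤ ‖γ b‖ := by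
  rw [tw, norm_mul]
  refine mul_le_of_le_one_right (norm_nonneg _) ?_
  rcases (div_nonneg (nm_nonneg b) hB.le).eq_or_lt with h | h
  · rw [← h, Complex.ofReal_zero]
    by_cases h0 : -((τ : ℂ) * Complex.I) = 0
    · rw [h0, Complex.cpow_zero, norm_one]
    · rw [Complex.zero_cpow h0, norm_zero]
      exact zero_le_one
  · rw [Complex.norm_cpow_eq_rpow_re_of_pos h]
    simp

theorem bsa_RS {B : ℝ} (hB : 0 < B) (γ : O → ℂ) (X τ : ℝ) {l : O} (hl : l ≠ 0) (h k : O) (z : ℂ) :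
    RS (tw γ B τ) X B l h k z = RS γ X B l h k (z - τ * Complex.I) := by
  refine Finset.sum_congr rfl fun n _ => ?_
  by_cases hn : n = 0
  · rw [hn, cb_zero_right, mul_zero (tw γ B τ _), mul_zero (γ _), zero_mul, zero_mul]
  · have h0 : ((nm (l * n) / B : ℝ) : ℂ) ≠ 0 :=
      Complex.ofReal_ne_zero.2 (div_pos (nm_pos (mul_ne_zero hl hn)) hB).ne'
    rw [tw, sub_eq_add_neg, Complex.cpow_add _ _ h0]
    ring

/-- `RS (tw γ B τ) X B l h k z = RS γ X B l h k (z - τ i)` (`Complex.cpow_add`; the term `n = 0` vanishes by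
`cb_zero_right`), `1 + |Im z - τ| ≤ (1 + |Im z|)(1 + |τ|)` -/
theorem rowBd_tw {ok : O → Prop} {γ : O → ℂ} {X B K : ℝ} {E : ℕ} {φ₁ φ₂ : O → ℝ}
    (h : RowBd ok γ X B K E φ₁ φ₂) (hB : 0 < B) (hK : 0 ≤ K) (h₁ : ∀ l, 0 ≤ φ₁ l) (h₂ : ∀ l, 0 ≤ φ₂ l)
    (τ : ℝ) : RowBd ok (tw γ B τ) X B K E (fun l => (1 + |τ|) ^ E * φ₁ l)
      fun l => (1 + |τ|) ^ E * φ₂ l := by
  intro l h' U z S hl hlX hh hd hU hz hS
  simp only [bsa_RS hB γ X τ hl.ne_zero]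
  refine (h l h' U (z - τ * Complex.I) S hl hlX hh hd hU (by simpa using hz) hS).trans ?_
  have h3 : 1 + |(z - τ * Complex.I).im| ≤ (1 + |z.im|) * (1 + |τ|) := by
    have : |(z - τ * Complex.I).im| ≤ |z.im| + |τ| := by simpa using abs_sub z.im τ
    nlinarith [mul_nonneg (abs_nonneg z.im) (abs_nonneg τ)]
  have h4 : 0 ≤ U / K := div_nonneg (by linarith) hK
  have := h₁ l
  have := h₂ l
  refine (mul_le_mul_of_nonneg_right (pow_le_pow_left₀ (by positivity) h3 E)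
    (by positivity)).trans_eq ?_
  rw [mul_pow]
  ring

/-- `sum_f0`, `norm_GG`, Cauchy–Schwarz, `1/2 ≤ LW 1 A (N x)` on `(A, 2A]` (`le_norm_LN`), `sum_le_VR` -/
theorem cs_VR {A B X : ℝ} (hA : 0 < A) {α γ : O → ℂ} (hα : Supp α A (2 * A)) (hγ : Supp γ B X) :
    ‖∑ x ∈ ball (2 * A), ∑ b ∈ ball X, α x * γ b * f0 (x * b)‖ ^ 2 ≤ 2 * N2 α (2 * A) * VR 1 A γ X := by
  classical
  set S := (ball (2 * A)).filter fun x => α x ≠ 0 with hS
  have h1 : ‖∑ x ∈ ball (2 * A), ∑ b ∈ ball X, α x * γ b * f0 (x * b)‖ ≤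
      ∑ x ∈ S, ‖α x‖ * ‖XG γ X x - Md γ X x‖ := by
    rw [← Finset.sum_filter_of_ne (p := fun x => α x ≠ 0) fun x _ h h0 => h (by simp [h0])]
    refine (norm_sum_le _ _).trans_eq (Finset.sum_congr rfl fun x hx => ?_)
    have h2 := (hα x (Finset.mem_filter.1 hx).2).1
    simp only [mul_assoc, ← Finset.mul_sum]
    rw [sum_f0 hγ h2, norm_mul, norm_mul, norm_GG h2, one_mul]
  have h2 : ∑ x ∈ S, ‖α x‖ ^ 2 ≤ N2 α (2 * A) :=
    Finset.sum_le_sum_of_subset_of_nonneg (Finset.filter_subset _ _) fun _ _ _ => sq_nonneg _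
  have h3 : ∑ x ∈ S, ‖XG γ X x - Md γ X x‖ ^ 2 ≤ 2 * VR 1 A γ X := by
    refine le_trans ?_ (mul_le_mul_of_nonneg_left (sum_le_VR one_pos hA γ X (S := S)
      fun x hx => (hα x (Finset.mem_filter.1 hx).2).1.1) zero_le_two)
    rw [Finset.mul_sum]
    refine Finset.sum_le_sum fun x hx => ?_
    obtain ⟨-, h4, h5⟩ := hα x (Finset.mem_filter.1 hx).2
    have h6 : 1 / 2 ≤ LW 1 A (nm x) := by
      have h7 : 0 ≤ Real.log (nm x / A) := Real.log_nonneg ((one_le_div hA).2 h4.le)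
      have h8 : Real.log (nm x / A) ≤ 1 := by
        have := Real.log_le_sub_one_of_pos (div_pos (hA.trans h4) hA)
        have := (div_le_iff₀ hA).2 h5
        linarith
      refine le_trans ?_ (Real.add_one_le_exp _)
      nlinarith
    nlinarith [sq_nonneg ‖XG γ X x - Md γ X x‖]
  calc _ ≤ (∑ x ∈ S, ‖α x‖ * ‖XG γ X x - Md γ X x‖) ^ 2 := by gcongr
    _ ≤ (∑ x ∈ S, ‖α x‖ ^ 2) * ∑ x ∈ S, ‖XG γ X x - Md γ X x‖ ^ 2 :=
        Finset.sum_mul_sq_le_sq_mul_sq _ _ _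
    _ ≤ N2 α (2 * A) * (2 * VR 1 A γ X) :=
        mul_le_mul h2 h3 (Finset.sum_nonneg fun _ _ => sq_nonneg _) (N2_nonneg _ _)
    _ = _ := by ring

theorem bsb_gauss (E : ℕ) : ∃ C : ℝ, 0 ≤ C ∧ ∀ a : ℝ, 0 < a → a ≤ 1 → ∃ φ : ℝ → ℝ,
    MeasureTheory.Integrable φ ∧ ∫ y, φ y ≤ C * (a ^ E)⁻¹ ∧
    ∀ y : ℝ, a * Real.exp (-(a ^ 2 / 2) * y ^ 2) * (1 + |y|) ^ E ≤ φ y := by
  have hψ := integrable_gauss_poly (show (0 : ℝ) < 1 / 2 by norm_num) (Nat.cast_nonneg E) 0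
  set ψ : ℝ → ℝ := fun y => Real.exp (-(1 / 2) * (y - 0) ^ 2) * (1 + |y|) ^ (E : ℝ) with hψd
  refine ⟨|∫ u, ψ u|, abs_nonneg _, fun a ha ha1 => ⟨fun y => a * (a ^ E)⁻¹ * ψ (a * y),
    (hψ.comp_mul_left' ha.ne').const_mul _, ?_, fun y => ?_⟩⟩
  · rw [MeasureTheory.integral_const_mul, MeasureTheory.Measure.integral_comp_mul_left,
      abs_of_pos (inv_pos.2 ha), smul_eq_mul,
      show a * (a ^ E)⁻¹ * (a⁻¹ * ∫ u, ψ u) = (∫ u, ψ u) * (a ^ E)⁻¹ by field_simp]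
    exact mul_le_mul_of_nonneg_right (le_abs_self _) (by positivity)
  · have h1 : 1 + |y| ≤ a⁻¹ * (1 + |a * y|) := by
      rw [abs_mul, abs_of_pos ha, mul_add, inv_mul_cancel_left₀ ha.ne', mul_one]
      linarith [(one_le_inv₀ ha).2 ha1]
    have h2 := pow_le_pow_left₀ (by positivity) h1 E
    rw [mul_pow, inv_pow] at h2
    simp only [hψd, Real.rpow_natCast]
    rw [show -(1 / 2) * (a * y - 0) ^ 2 = -(a ^ 2 / 2) * y ^ 2 by ring]
    calc _ ≤ a * Real.exp (-(a ^ 2 / 2) * y ^ 2) * ((a ^ E)⁻¹ * (1 + |a * y|) ^ E) :=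
          mul_le_mul_of_nonneg_left h2 (by positivity)
      _ = _ := by ring

theorem bsb_term {a Y : ℝ} (ha : 0 < a) (hY : 0 < Y) (c : ℂ) (n : O) :
    VInt 0 (fun s => c * f0 n * (LNt a (s + Complex.I * (0 : ℝ)) * (Y : ℂ) ^ s * (nm n : ℂ) ^ (-s))) ∧
    c * f0 n * (LW a Y (nm n) : ℂ) =
      VI 0 fun s => c * f0 n * (LNt a (s + Complex.I * (0 : ℝ)) * (Y : ℂ) ^ s * (nm n : ℂ) ^ (-s)) := by
  by_cases hn : n = 0
  · have : f0 n = 0 := f0_eq_zero fun h => not_squarefree_zero (hn ▸ h.2)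
    simp [this, VInt, VI]
  · obtain ⟨h1, h2⟩ := LN_eq_VI ha hY (nm_pos hn) 0 0
    exact ⟨MeasureTheory.Integrable.const_mul h1 _, by rw [VI_const_mul, ← h2, LN_eq_LW]⟩

theorem bsb_pow {B : ℝ} (hB : 0 < B) (α γ : O → ℂ) (x b : O) (y : ℝ) :
    α x * γ b * f0 (x * b) * (nm (x * b) : ℂ) ^ (-((0 : ℝ) + y * Complex.I)) =
      (B : ℂ) ^ (-(y * Complex.I)) * (tw α 1 y x * tw γ B y b * f0 (x * b)) := by
  by_cases hn : x * b = 0
  · have : f0 (x * b) = 0 := f0_eq_zero fun h => not_squarefree_zero (hn ▸ h.2)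
    simp [this]
  have hx : 0 < nm x := nm_pos (left_ne_zero_of_mul hn)
  have hb : 0 < nm b := nm_pos (right_ne_zero_of_mul hn)
  have h : (nm (x * b) : ℂ) ^ (-((0 : ℝ) + y * Complex.I)) = (B : ℂ) ^ (-(y * Complex.I)) *
      (((nm x / 1 : ℝ) : ℂ) ^ (-(y * Complex.I)) * ((nm b / B : ℝ) : ℂ) ^ (-(y * Complex.I))) := by
    rw [lnb_cpow (nm_pos hn), lnb_cpow hB, lnb_cpow (div_pos hx one_pos), lnb_cpow (div_pos hb hB),
      ← Complex.exp_add, ← Complex.exp_add, nm_mul, Real.log_mul hx.ne' hb.ne', div_one,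
      Real.log_div hb.ne' hB.ne']
    congr 1
    push_cast
    ring
  rw [h, tw, tw]
  ring

/-- `LN_eq_LW`, `LN_eq_VI` on the line `0` for each term with `x b ≠ 0` (the others vanish, `f0_eq_zero`),
`integral_finset_sum`, `(N x N b)^(-iτ) = (N x / 1)^(-iτ) (N b / B)^(-iτ) B^(-iτ)`, `norm_LNt`,
`∫ a exp (-a² τ²/2) (1 + |τ|)^E dτ ≤ a^(-E) ∫ exp (-u²/2) (1 + |u|)^E du` (`u = a τ`,
`Measure.integral_comp_mul_left`; integrability from `(1 + |u|)^E ≤ C exp (u²/4)`). -/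
theorem bil_sep (E : ℕ) : ∃ C : ℝ, 0 ≤ C ∧ ∀ (a Y B D XA XB : ℝ) (α γ : O → ℂ), 0 < a → a ≤ 1 → 0 < Y →
    0 < B → (∀ τ : ℝ, ‖∑ x ∈ ball XA, ∑ b ∈ ball XB, tw α 1 τ x * tw γ B τ b * f0 (x * b)‖ ≤
      D * (1 + |τ|) ^ E) → ‖Bil a Y α γ XA XB‖ ≤ C * D * (a ^ E)⁻¹ := by
  obtain ⟨C, hC, hg⟩ := bsb_gauss E
  refine ⟨1 / (2 * Real.pi) * (√(2 * Real.pi) * C), by positivity, ?_⟩
  intro a Y B D XA XB α γ ha ha1 hY hB h
  obtain ⟨φ, hφ, hint, hle⟩ := hg a ha ha1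
  have hD : 0 ≤ D := by simpa using (norm_nonneg _).trans (h 0)
  have e : Bil a Y α γ XA XB = VI 0 fun s => ∑ x ∈ ball XA, ∑ b ∈ ball XB, α x * γ b * f0 (x * b) *
      (LNt a (s + Complex.I * (0 : ℝ)) * (Y : ℂ) ^ s * (nm (x * b) : ℂ) ^ (-s)) := by
    have hi : ∀ x ∈ ball XA, VInt 0 fun s => ∑ b ∈ ball XB, α x * γ b * f0 (x * b) *
        (LNt a (s + Complex.I * (0 : ℝ)) * (Y : ℂ) ^ s * (nm (x * b) : ℂ) ^ (-s)) := fun x _ =>
      MeasureTheory.integrable_finsetSum _ fun b _ => (bsb_term ha hY _ _).1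
    rw [VI_sum _ hi]
    refine Finset.sum_congr rfl fun x _ => ?_
    rw [VI_sum _ fun b _ => (bsb_term ha hY _ _).1]
    exact Finset.sum_congr rfl fun b _ => (bsb_term ha hY _ _).2
  rw [e]
  refine (norm_VI_le (φ := fun y => √(2 * Real.pi) * D * φ y) (hφ.const_mul _) fun y => ?_).trans ?_
  · have e2 : ∑ x ∈ ball XA, ∑ b ∈ ball XB, α x * γ b * f0 (x * b) *
        (LNt a (((0 : ℝ) + y * Complex.I) + Complex.I * (0 : ℝ)) * (Y : ℂ) ^ ((0 : ℝ) + y * Complex.I) *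
          (nm (x * b) : ℂ) ^ (-((0 : ℝ) + y * Complex.I))) =
        LNt a (((0 : ℝ) + y * Complex.I) + Complex.I * (0 : ℝ)) * (Y : ℂ) ^ ((0 : ℝ) + y * Complex.I) *
          (B : ℂ) ^ (-(y * Complex.I)) *
          ∑ x ∈ ball XA, ∑ b ∈ ball XB, tw α 1 y x * tw γ B y b * f0 (x * b) := by
      rw [Finset.mul_sum]
      refine Finset.sum_congr rfl fun x _ => ?_
      rw [Finset.mul_sum]
      refine Finset.sum_congr rfl fun b _ => ?_
      rw [mul_assoc _ ((B : ℂ) ^ _), ← bsb_pow hB]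
      ring
    rw [e2, norm_mul, norm_mul, norm_mul, norm_LNt ha.le, Complex.norm_cpow_eq_rpow_re_of_pos hY,
      Complex.norm_cpow_eq_rpow_re_of_pos hB]
    have := mul_le_mul_of_nonneg_left (h y)
      (show 0 ≤ √(2 * Real.pi) * a * Real.exp (-(a ^ 2 / 2) * y ^ 2) by positivity)
    have h3 := mul_le_mul_of_nonneg_left (hle y) (show 0 ≤ √(2 * Real.pi) * D by positivity)
    simp only [Complex.add_re, Complex.ofReal_re, Complex.mul_re, Complex.I_re, Complex.ofReal_im,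
      Complex.I_im, Complex.add_im, Complex.mul_im, Complex.neg_re, mul_zero, sub_zero,
      add_zero, zero_add, mul_one, neg_zero, Real.rpow_zero, ne_eq, OfNat.ofNat_ne_zero,
      not_false_eq_true, zero_pow, zero_div, Real.exp_zero]
    refine this.trans (le_trans (le_of_eq ?_) h3)
    ring
  · rw [MeasureTheory.integral_const_mul]
    have := mul_le_mul_of_nonneg_left hint
      (show 0 ≤ 1 / (2 * Real.pi) * (√(2 * Real.pi) * D) by positivity)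
    refine le_trans (le_of_eq ?_) (this.trans (le_of_eq ?_)) <;> ring

end Crest.Agent.R12.QA
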